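import Vale.Agent.P078.Tracial.Four.Clip
import Vale.Agent.P078.Tracial.Clean

/-! Assigning full budgets and dropping negative ones decreases the potential. -/

namespace Vale.Agent.P078.Tracial.Four

set_option linter.unusedSectionVars false

open Filter Topology ComplexOrder

variable {M X : Type*} [CStarAlgebra M] [PartialOrder M] [StarOrderedRing M]
variable [TopologicalSpace X] [CompactSpace X] [T2Space X] [TotallyDisconnectedSpace X]
variable {C : Core M X} {P : Prm M} {r : ℕ}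

/-- In the window the roots of the active colours carry at least four units. -/
theorem many_active (hP : P.Ok C) {s : Config M X r} (hs : StateOk P s)
    (hw : ∀ c, P.Window C (col s c)) (x : X) :
    4 * s.U x ≤ ∑ c, (s.act c * P.W C (col s c)) x := by
  have h1 : ∑ c, s.b c x = 4 * s.U x := by
    simpa using congrArg (fun f : C(X, ℝ) => f x) hs.b_sum
  rw [← h1]
  refine Finset.sum_le_sum fun c _ => ?_
  rcases hs.act_01 c x with h | h
  · simpa [h] using hs.b_drop c x h
  · have hγ := ContinuousMap.le_def.1 (Prm.γ_nonneg (P := P) hP (hs.G_nonneg c) :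
      0 ≤ P.γ C (col s c)) x
    have hW : root P.b1 (s.b c x) (P.γ C (col s c) x) ≤ 2 / 5 := (hw c).high x h
    have := root_ge_shift (b := s.b c x) P.b1_pos hγ (by linarith)
    have := le_max_left (s.b c x + 2 * P.b1) P.b1
    simp only [ContinuousMap.mul_apply, h, one_mul, Prm.W_apply, col, shiftB] at *
    linarith [P.b1_pos]

theorem exists_assign (hP : P.Ok C) (s : Config M X r) (hs : StateOk P s) :
    ∃ s' : Config M X r, StateOk P s' ∧ s'.G = s.G ∧ P.Psi C s' ≤ P.Psi C s ∧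
      ∀ c x, s'.act c x = 1 → P.W C (col s' c) x ≤ 2 / 5 := by
  have hWeq : ∀ (c : Fin r) (x : X), P.W C (col s c) x
      = root P.b1 (s.b c x) (C.gam P.p (s.G c) x) := fun _ _ => rfl
  have hUone : ∀ c x, s.act c x = 1 → s.U x = 1 := fun c x hx => by
    rcases hs.U_01 x with h' | h'
    · have := hs.act_le c x; linarith
    · exact h'
  have hass0 : ∀ x, s.U x = 1 → ∀ c, s.ass c x = 0 := fun x hx c => by
    have h0 : ∀ d ∈ (Finset.univ : Finset (Fin r)), 0 ≤ s.ass d x := fun d _ => by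
      rcases hs.ass_01 d x with h' | h' <;> simp [h']
    have h1 : ∑ d, s.ass d x = 0 := by rw [Config.U_apply] at hx; linarith
    exact (Finset.sum_eq_zero_iff_of_nonneg h0).1 h1 c (Finset.mem_univ c)
  have hcl : ∀ c, ∃ V : Set X, IsClopen V ∧
      {x | 1 ≤ s.act c x ∧ 2 / 5 ≤ P.W C (col s c) x} ⊆ V ∧
      V ⊆ {x | 1 / 2 < s.act c x ∧ 1 / 3 < P.W C (col s c) x} := fun c => by
    refine exists_clopen_of_closed_subset_open ?_ ?_ ?_
    · exact (isClosed_le continuous_const ((s.act c).continuous)).inter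
        (isClosed_le continuous_const ((P.W C (col s c)).continuous))
    · exact (isOpen_lt continuous_const ((s.act c).continuous)).inter
        (isOpen_lt continuous_const ((P.W C (col s c)).continuous))
    · rintro x ⟨h1, h2⟩
      exact ⟨by linarith, by linarith⟩
  choose S hS hSge hSle using hcl
  obtain ⟨t, ht01, htS, htsum⟩ := exists_disjointify S hS
  have htact : ∀ c x, t c x = 1 → s.act c x = 1 ∧ 1 / 3 ≤ P.W C (col s c) x := fun c x h => by
    obtain ⟨h1, h2⟩ := hSle c (htS c x h)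
    rcases hs.act_01 c x with h' | h'
    · linarith
    · exact ⟨h', h2.le⟩
  set T : C(X, ℝ) := 1 - ∑ c, t c with hTdef
  have hT : ∀ x, (T x = 1 ∧ (∀ c, t c x = 0) ∧ ∀ c, x ∉ S c) ∨ (T x = 0 ∧ s.U x = 1) := by
    intro x
    rcases htsum x with ⟨h0, hn⟩ | h1
    · refine Or.inl ⟨by simp [hTdef, h0], fun c => ?_, hn⟩
      rcases ht01 c x with h | h
      · exact h
      · exact absurd (htS c x h) (hn c)
    · refine Or.inr ⟨by simp [hTdef, h1], ?_⟩
      by_contra hU
      have : ∑ c, t c x = 0 := Finset.sum_eq_zero fun c _ => by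
        rcases ht01 c x with h | h
        · exact h
        · exact absurd (hUone c x (htact c x h).1) hU
      linarith
  set s' : Config M X r :=
    ⟨fun c => s.ass c + t c, fun c => s.act c * T, fun c => s.b c * T, s.G⟩ with hs'def
  have hU' : s'.U = s.U * T := by
    ext x
    have hsum : (s'.U) x = s.U x - ∑ c, t c x := by
      simp [Config.U, hs'def, Finset.sum_add_distrib]; ring
    have hTx : T x = 1 - ∑ c, t c x := by simp [hTdef]
    rw [hsum, ContinuousMap.mul_apply, hTx]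
    rcases hT x with ⟨_, h, _⟩ | ⟨h, hU⟩
    · simp [h]
    · rw [hU]; ring
  refine ⟨s', ⟨fun c x => ?_, fun c x => ?_, fun x => ?_, fun c x => ?_, ?_, fun c x hx => ?_,
    fun c x hx => ?_, fun c x hx => ?_, hs.G_nonneg⟩, rfl, ?_, fun c x hx => ?_⟩
  · rcases ht01 c x with h | h
    · simpa [hs'def, h] using hs.ass_01 c x
    · simp [hs'def, h, hass0 x (hUone c x (htact c x h).1) c]
  · rcases hT x with ⟨h, _⟩ | ⟨h, _⟩
    · simpa [hs'def, h] using hs.act_01 c x
    · simp [hs'def, h]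
  · rw [hU']
    rcases hT x with ⟨h, _⟩ | ⟨h, _⟩
    · simpa [h] using hs.U_01 x
    · simp [h]
  · rw [hU']
    rcases hT x with ⟨h, _⟩ | ⟨h, _⟩
    · simpa [hs'def, h] using hs.act_le c x
    · simp [hs'def, h]
  · rw [hU', ← smul_mul_assoc, ← hs.b_sum, Finset.sum_mul]
  · rw [hU'] at hx
    rcases hT x with ⟨h, _⟩ | ⟨h, _⟩
    · simp [h] at hx
      simp [hs'def, h, hs.b_supp c x hx]
    · simp [hs'def, h]
  · rcases hT x with ⟨h, _⟩ | ⟨h, _⟩
    · simp [hs'def, h] at hx
      simpa [hs'def, h] using hs.b_drop c x hx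
    · simp [hs'def, h]
  · rcases hT x with ⟨h, _⟩ | ⟨h, _⟩
    · simp [hs'def, h] at hx
      simpa [hs'def, h] using hs.b_act c x hx
    · simp [hs'def, h] at hx
  · refine Finset.sum_le_sum fun c _ =>
      Prm.pot_mono (s := col s c) (s' := col s' c) hP (hs.G_nonneg c) rfl ?_
    refine ContinuousMap.le_def.2 fun x => ?_
    rcases hT x with ⟨h, h0, _⟩ | ⟨h, _⟩
    · simp [Prm.wt, col, hs'def, h, h0 c, Prm.γ]
    · rcases ht01 c x with h' | h'
      · have h'' := wφ_nonneg P.b1_pos (s.b c x) (C.gam P.p (s.G c) x)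
        rcases hs.act_01 c x with ha | ha
        · simp [Prm.wt, col, hs'def, h, h', ha]
        · simp [Prm.wt, col, hs'def, h, h', ha, Prm.γ]
          linarith
      · obtain ⟨ha, hb⟩ := htact c x h'
        rw [hWeq] at hb
        have := one_le_wφ hb
        simp [Prm.wt, col, hs'def, h, h', ha, Prm.γ]
        linarith
  · rcases hT x with ⟨h, _, hn⟩ | ⟨h, _⟩
    · simp [hs'def, h] at hx
      by_contra hb
      refine hn c (hSge c ⟨hx.ge, ?_⟩)
      simp [col, hs'def, h, Prm.γ] at hb ⊢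
      linarith
    · simp [hs'def, h] at hx

theorem exists_drop (hP : P.Ok C) (s : Config M X r) (hs : StateOk P s)
    (hhigh : ∀ c x, s.act c x = 1 → P.W C (col s c) x ≤ 2 / 5) :
    ∃ s' : Config M X r, StateOk P s' ∧ (∀ c, P.Window C (col s' c)) ∧ s'.G = s.G ∧
      P.Psi C s' ≤ P.Psi C s := by
  have hcl : ∀ c, ∃ V : Set X, IsClopen V ∧
      {x | 1 ≤ s.act c x ∧ s.b c x ≤ -P.b1 / 2} ⊆ V ∧
      V ⊆ {x | 1 / 2 < s.act c x ∧ s.b c x < 0} := fun c => by
    refine exists_clopen_of_closed_subset_open ?_ ?_ ?_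
    · exact (isClosed_le continuous_const ((s.act c).continuous)).inter
        (isClosed_le ((s.b c).continuous) continuous_const)
    · exact (isOpen_lt continuous_const ((s.act c).continuous)).inter
        (isOpen_lt ((s.b c).continuous) continuous_const)
    · rintro x ⟨h1, h2⟩
      exact ⟨by linarith, lt_of_le_of_lt h2 (by linarith [P.b1_pos])⟩
  choose D hD hDge hDle using hcl
  set d : Fin r → C(X, ℝ) := fun c => ind (D c) (hD c) with hd
  set s' : Config M X r :=
    ⟨s.ass, fun c => s.act c * (1 - d c), s.b, s.G⟩ with hs'def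
  have hcase : ∀ c x, (x ∈ D c ∧ s'.act c x = 0 ∧ s.b c x < 0) ∨
      (x ∉ D c ∧ s'.act c x = s.act c x) := fun c x => by
    by_cases h : x ∈ D c
    · exact Or.inl ⟨h, by simp [hs'def, hd, ind_mem _ h], (hDle c h).2⟩
    · exact Or.inr ⟨h, by simp [hs'def, hd, ind_notMem _ h]⟩
  refine ⟨s', ⟨hs.ass_01, fun c x => ?_, hs.U_01, fun c x => ?_, hs.b_sum, hs.b_supp,
    fun c x hx => ?_, fun c x hx => ?_, hs.G_nonneg⟩,
    fun c => ⟨fun x hx => ?_, fun x hx => ?_⟩, rfl, ?_⟩
  · rcases hcase c x with ⟨_, h, _⟩ | ⟨_, h⟩ <;> rw [h]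
    · exact Or.inl rfl
    · exact hs.act_01 c x
  · show s'.act c x ≤ s.U x
    rcases hcase c x with ⟨_, h, _⟩ | ⟨_, h⟩ <;> rw [h]
    · rcases hs.U_01 x with h' | h' <;> simp [h']
    · exact hs.act_le c x
  · rcases hcase c x with ⟨_, _, h⟩ | ⟨_, h⟩
    · exact h.le
    · rw [h] at hx; exact hs.b_drop c x hx
  · rcases hcase c x with ⟨_, h, _⟩ | ⟨_, h⟩ <;> rw [h] at hx
    · norm_num at hx
    · exact hs.b_act c x hx
  · change s'.act c x = 1 at hx
    rcases hcase c x with ⟨_, h, _⟩ | ⟨hn, h⟩ <;> rw [h] at hx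
    · norm_num at hx
    · by_contra hb
      exact hn (hDge c ⟨hx.ge, le_of_lt (not_le.1 hb)⟩)
  · change s'.act c x = 1 at hx
    rcases hcase c x with ⟨_, h, _⟩ | ⟨_, h⟩ <;> rw [h] at hx
    · norm_num at hx
    · exact hhigh c x hx
  · refine Finset.sum_le_sum fun c _ =>
      Prm.pot_mono (s := col s c) (s' := col s' c) hP (hs.G_nonneg c) rfl ?_
    refine ContinuousMap.le_def.2 fun x => ?_
    have h0 := wφ_nonneg P.b1_pos (s.b c x) (C.gam P.p (s.G c) x)
    show s'.act c x * wφ P.b1 (s.b c x) (C.gam P.p (s.G c) x) + s.ass c x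
      ≤ s.act c x * wφ P.b1 (s.b c x) (C.gam P.p (s.G c) x) + s.ass c x
    rcases hcase c x with ⟨_, h, _⟩ | ⟨_, h⟩ <;> rw [h]
    rcases hs.act_01 c x with ha | ha <;> rw [ha] <;> linarith

/-- Every state can be made clean and bounded without increasing the potential. -/
theorem exists_improve (hP : P.Ok C) (hνΛ : (2 + P.l) / P.Λ ^ 2 ≤ P.ν)
    (hlg : (2 + P.l) * lipConst P.b1 * P.R + P.ν ≤ P.l / P.g ^ 2)
    (s : Config M X r) (hs : StateOk P s) :
    ∃ s' : Config M X r, StateOk P s' ∧ (∀ c, P.Window C (col s' c)) ∧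
      (∀ c, P.Bounded (col s' c)) ∧ P.Psi C s' ≤ P.Psi C s := by
  choose G' hG0 hGb hGp using fun c => exists_clip hP hνΛ hlg (hs.col c)
  set s1 : Config M X r := ⟨s.ass, s.act, s.b, G'⟩
  have hs1 : StateOk P s1 := ⟨hs.ass_01, hs.act_01, hs.U_01, hs.act_le, hs.b_sum, hs.b_supp,
    hs.b_drop, hs.b_act, hG0⟩
  obtain ⟨s2, hs2, hG2, hP2, hhigh⟩ := exists_assign hP s1 hs1
  obtain ⟨s3, hs3, hcl, hG3, hP3⟩ := exists_drop hP s2 hs2 hhigh
  refine ⟨s3, hs3, hcl, fun c => ?_, ?_⟩
  · have e : (col s3 c).G = G' c := by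
      show s3.G c = G' c
      rw [hG3, hG2]
    exact ⟨e.symm ▸ (hGb c).1, e.symm ▸ (hGb c).2⟩
  · exact hP3.trans (hP2.trans (Finset.sum_le_sum fun c _ => hGp c))

/-- Approximate minimisers below a given state exist. -/
theorem exists_near_min (hP : P.Ok C) (s0 : Config M X r) (h0 : StateOk P s0) {ζ : ℝ}
    (hζ : 0 < ζ) :
    ∃ s : Config M X r, StateOk P s ∧ P.Psi C s ≤ P.Psi C s0 ∧
      ∀ t : Config M X r, StateOk P t → P.Psi C s ≤ P.Psi C t + ζ := by
  set V := {v : ℝ | ∃ t : Config M X r, StateOk P t ∧ P.Psi C t = v}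
  have hne : V.Nonempty := ⟨_, s0, h0, rfl⟩
  have hbd : BddBelow V := ⟨0, by rintro v ⟨t, ht, rfl⟩; exact Prm.Psi_nonneg hP ht⟩
  obtain ⟨v, ⟨t, ht, rfl⟩, hv⟩ := exists_lt_of_csInf_lt hne (lt_add_of_pos_right (sInf V) hζ)
  by_cases hle : P.Psi C t ≤ P.Psi C s0
  · exact ⟨t, ht, hle, fun t' ht' => by linarith [csInf_le hbd ⟨t', ht', rfl⟩]⟩
  · exact ⟨s0, h0, le_rfl, fun t' ht' => by linarith [csInf_le hbd ⟨t', ht', rfl⟩]⟩

end Vale.Agent.P078.Tracial.Four
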