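import Vale.Agent.P078.Tracial.Four.Defs
import Vale.Agent.P078.Tracial.Clip

/-! Clipping the resolvent to a fixed interval decreases the potential. -/

namespace Vale.Agent.P078.Tracial.Four

set_option linter.unusedSectionVars false

open Filter Topology ComplexOrder

variable {M X : Type*} [CStarAlgebra M] [PartialOrder M] [StarOrderedRing M]
variable [TopologicalSpace X] [CompactSpace X] [T2Space X] [TotallyDisconnectedSpace X]
variable {C : Core M X} {P : Prm M}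

theorem exists_clip_above (hP : P.Ok C) (hνΛ : (2 + P.l) / P.Λ ^ 2 ≤ P.ν) {s : Col M X}
    (h : s.Ok P) :
    ∃ G' : Mˣ, 0 ≤ (G' : M) ∧ (G' : M) ≤ algebraMap ℝ M P.Λ ∧
      P.pot C { s with G := G' } ≤ P.pot C s := by
  have hΛ : 0 < P.Λ := P.g_pos.trans_le P.g_le
  set G := s.G with hGdef
  have hG := h.G_nonneg
  rw [← hGdef] at hG
  have hsa : IsSelfAdjoint (G : M) := IsSelfAdjoint.of_nonneg hG
  have hpos := fun t (ht : t ∈ spectrum ℝ (G : M)) => Core.spectrum_unit_pos hG ht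
  have hne : ∀ t ∈ spectrum ℝ (G : M), min t P.Λ ≠ 0 :=
    fun t ht => (lt_min (hpos t ht) hΛ).ne'
  set G' := cfcUnits (fun t => min t P.Λ) (G : M) hne
  have hG'v : (G' : M) = cfc (fun t => min t P.Λ) (G : M) := val_cfcUnits _ _ hne
  have hG'i : (↑G'⁻¹ : M) = cfc (fun t => (min t P.Λ)⁻¹) (G : M) := val_inv_cfcUnits _ _ hne
  have hcI : ContinuousOn (fun t : ℝ => (min t P.Λ)⁻¹) (spectrum ℝ (G : M)) :=
    ContinuousOn.inv₀ (by fun_prop) hne
  have hcG : ContinuousOn (fun t : ℝ => t⁻¹) (spectrum ℝ (G : M)) :=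
    ContinuousOn.inv₀ continuousOn_id fun t ht => (hpos t ht).ne'
  have hG'0 : 0 ≤ (G' : M) := by
    rw [hG'v]; exact cfc_nonneg fun t ht => (lt_min (hpos t ht) hΛ).le
  have hle : (G' : M) ≤ G := by
    rw [hG'v]
    calc cfc (fun t => min t P.Λ) (G : M) ≤ cfc (fun t => t) (G : M) :=
          cfc_mono fun t _ => min_le_left _ _
      _ = G := cfc_id' ℝ (G : M)
  have hinv : (↑G⁻¹ : M) = cfc (fun t : ℝ => t⁻¹) (G : M) := (cfc_inv_id G hsa).symm
  have hD0 : 0 ≤ (↑G'⁻¹ : M) - ↑G⁻¹ := by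
    rw [hG'i, hinv, ← cfc_sub _ _ _ hcI hcG]
    exact cfc_nonneg fun t ht =>
      sub_nonneg.2 (inv_anti₀ (lt_min (hpos t ht) hΛ) (min_le_left _ _))
  have hD : (↑G'⁻¹ : M) - ↑G⁻¹ ≤ (1 / P.Λ ^ 2) • ((G : M) - G') := by
    rw [hG'i, hinv, hG'v, ← cfc_sub _ _ _ hcI hcG]
    nth_rewrite 2 [← cfc_id' ℝ (G : M)]
    rw [← cfc_sub (fun t : ℝ => t) (fun t => min t P.Λ) (G : M),
      ← cfc_smul (1 / P.Λ ^ 2) _ (G : M)]
    refine cfc_mono (fun t ht => ?_) (hcI.sub hcG)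
    have ht0 := hpos t ht
    rcases le_total t P.Λ with h1 | h1
    · simp [min_eq_left h1]
    · rw [min_eq_right h1, smul_eq_mul, inv_sub_inv hΛ.ne' ht0.ne', one_div_mul_eq_div]
      refine div_le_div_of_nonneg_left (by linarith) (by positivity) ?_
      rw [sq]; exact mul_le_mul_of_nonneg_left h1 hΛ.le
  refine ⟨G', hG'0, ?_, ?_⟩
  · rw [hG'v]
    exact cfc_le_algebraMap _ _ _ fun t _ => min_le_right _ _
  · set D := (↑G'⁻¹ : M) - ↑G⁻¹ with hDdef
    have hA := Prm.mat_isSelfAdjoint (P := P) hP h.G_nonneg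
    have hw : P.wt C { s with G := G' } ≤ P.wt C s := by
      refine ContinuousMap.le_def.2 fun x => ?_
      have h1 := ContinuousMap.le_def.1 (C.gam_mono hP.p_nonneg hle) x
      have h0 := ContinuousMap.le_def.1 (C.gam_nonneg hP.p_nonneg hG'0) x
      have h2 := wφ_mono (b := s.b x) P.b1_pos h0 h1
      rcases h.act_01 x with h' | h' <;> simp [Prm.wt, h', Prm.γ]
      exact h2
    have hm : P.mat C { s with G := G' } ≤ P.mat C s + D := by
      unfold Prm.mat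
      rw [show (↑s.G⁻¹ : M) + P.p * C.r (P.wt C s) * P.p + D
        = ↑G'⁻¹ + P.p * C.r (P.wt C s) * P.p by rw [hDdef, hGdef]; abel]
      gcongr
      exact conjugate_le_conjugate_of_nonneg (C.r_mono hw) hP.p_nonneg
    have h1 := Prm.tr_f_mono (P := P) (C := C) (hA.add (IsSelfAdjoint.of_nonneg hD0)) hm
    have h2 := Prm.tr_f_add_le (P := P) (C := C) hA hD0
    have h3 : C.tr D ≤ 1 / P.Λ ^ 2 * (C.tr (G : M) - C.tr (G' : M)) := by
      rw [← C.tr_sub, ← C.tr_smul]; exact C.tr_mono hD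
    have h4 : (2 + P.l) * C.tr D ≤ P.ν * (C.tr (G : M) - C.tr (G' : M)) := by
      calc (2 + P.l) * C.tr D ≤ (2 + P.l) * (1 / P.Λ ^ 2 * (C.tr (G : M) - C.tr (G' : M))) :=
            mul_le_mul_of_nonneg_left h3 (by linarith [P.l_pos])
        _ = (2 + P.l) / P.Λ ^ 2 * (C.tr (G : M) - C.tr (G' : M)) := by ring
        _ ≤ P.ν * (C.tr (G : M) - C.tr (G' : M)) := by
            refine mul_le_mul_of_nonneg_right hνΛ ?_
            rw [← C.tr_sub]; exact C.tr_nonneg (sub_nonneg.2 hle)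
    unfold Prm.pot
    rw [← hGdef]
    linarith

theorem exists_clip_below (hP : P.Ok C)
    (hlg : (2 + P.l) * lipConst P.b1 * P.R + P.ν ≤ P.l / P.g ^ 2) {s : Col M X} (h : s.Ok P)
    (hGΛ : (s.G : M) ≤ algebraMap ℝ M P.Λ) :
    ∃ G' : Mˣ, 0 ≤ (G' : M) ∧ P.Bounded ({ s with G := G' } : Col M X) ∧
      P.pot C { s with G := G' } ≤ P.pot C s := by
  have hg := P.g_pos
  set G := s.G with hGdef
  have hG := h.G_nonneg
  rw [← hGdef] at hG
  have hsa : IsSelfAdjoint (G : M) := IsSelfAdjoint.of_nonneg hG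
  have hpos := fun t (ht : t ∈ spectrum ℝ (G : M)) => Core.spectrum_unit_pos hG ht
  have hne : ∀ t ∈ spectrum ℝ (G : M), max t P.g ≠ 0 :=
    fun t _ => (lt_max_of_lt_right hg).ne'
  set G' := cfcUnits (fun t => max t P.g) (G : M) hne
  have hG'v : (G' : M) = cfc (fun t => max t P.g) (G : M) := val_cfcUnits _ _ hne
  have hG'i : (↑G'⁻¹ : M) = cfc (fun t => (max t P.g)⁻¹) (G : M) := val_inv_cfcUnits _ _ hne
  have hcI : ContinuousOn (fun t : ℝ => (max t P.g)⁻¹) (spectrum ℝ (G : M)) :=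
    ContinuousOn.inv₀ (by fun_prop) hne
  have hcG : ContinuousOn (fun t : ℝ => t⁻¹) (spectrum ℝ (G : M)) :=
    ContinuousOn.inv₀ continuousOn_id fun t ht => (hpos t ht).ne'
  have hle : (G : M) ≤ G' := by
    rw [hG'v]
    calc (G : M) = cfc (fun t : ℝ => t) (G : M) := (cfc_id' ℝ (G : M)).symm
      _ ≤ cfc (fun t => max t P.g) (G : M) := cfc_mono fun t _ => le_max_left _ _
  have hG'0 : 0 ≤ (G' : M) := hG.trans hle
  have hinv : (↑G⁻¹ : M) = cfc (fun t : ℝ => t⁻¹) (G : M) := (cfc_inv_id G hsa).symm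
  have hD : (1 / P.g ^ 2) • ((G' : M) - G) ≤ (↑G⁻¹ : M) - ↑G'⁻¹ := by
    rw [hG'i, hinv, hG'v, ← cfc_sub _ _ _ hcG hcI]
    nth_rewrite 2 [← cfc_id' ℝ (G : M)]
    rw [← cfc_sub (fun t => max t P.g) (fun t : ℝ => t) (G : M),
      ← cfc_smul (1 / P.g ^ 2) _ (G : M)]
    refine cfc_mono (fun t ht => ?_) ?_ (hcG.sub hcI)
    swap; · fun_prop
    have ht0 := hpos t ht
    rcases le_total P.g t with h1 | h1
    · simp [max_eq_left h1]
    · rw [max_eq_right h1, smul_eq_mul, inv_sub_inv ht0.ne' hg.ne', one_div_mul_eq_div]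
      refine div_le_div_of_nonneg_left (by linarith) (by positivity) ?_
      rw [sq]; exact mul_le_mul_of_nonneg_right h1 hg.le
  refine ⟨G', hG'0, ⟨?_, ?_⟩, ?_⟩
  · show algebraMap ℝ M P.g ≤ (G' : M)
    rw [hG'v]
    exact algebraMap_le_cfc _ _ _ fun t _ => le_max_right _ _
  · show (G' : M) ≤ algebraMap ℝ M P.Λ
    rw [hG'v]
    refine cfc_le_algebraMap _ _ _ fun t ht => max_le ?_ P.g_le
    exact (le_algebraMap_iff_spectrum_le hsa).1 hGΛ t ht
  · set D := (↑G⁻¹ : M) - ↑G'⁻¹ with hDdef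
    have hd : 0 ≤ (G' : M) - G := sub_nonneg.2 hle
    have hD0 : 0 ≤ D := le_trans (smul_nonneg (by positivity) hd) hD
    have hA := Prm.mat_isSelfAdjoint (P := P) hP h.G_nonneg
    have hL : 0 ≤ lipConst P.b1 := by unfold lipConst; positivity
    set q := lipConst P.b1 • C.Er (P.p * ((G' : M) - G) * P.p) with hqdef
    have hq : 0 ≤ q := by
      refine ContinuousMap.le_def.2 fun x => ?_
      simpa [hqdef] using mul_nonneg hL (ContinuousMap.le_def.1
        (C.Er_nonneg (conjugate_nonneg_of_nonneg hd hP.p_nonneg)) x)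
    have hw : P.wt C { s with G := G' } ≤ P.wt C s + q := by
      refine ContinuousMap.le_def.2 fun x => ?_
      have h0 := ContinuousMap.le_def.1 (C.gam_nonneg hP.p_nonneg hG) x
      have h1 := ContinuousMap.le_def.1 (C.gam_mono hP.p_nonneg hle) x
      have h2 : q x = lipConst P.b1 * (C.gam P.p G' x - C.gam P.p G x) := by
        simp [hqdef, Core.gam, mul_sub, sub_mul, C.Er_sub]
      rcases h.act_01 x with h' | h'
      · simp [Prm.wt, h', h2]
        nlinarith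
      · have := wφ_lip (b := s.b x) P.b1_pos P.b1_le h0 h1
        simp [Prm.wt, h', h2, Prm.γ, ← hGdef]
        linarith
    have hm : P.mat C { s with G := G' } ≤ P.mat C s - D + P.p * C.r q * P.p := by
      unfold Prm.mat
      rw [show (↑s.G⁻¹ : M) + P.p * C.r (P.wt C s) * P.p - D + P.p * C.r q * P.p
        = ↑G'⁻¹ + P.p * C.r (P.wt C s + q) * P.p by
          rw [hDdef, C.r_add (P.wt C s) q, mul_add, add_mul, hGdef]; abel]
      gcongr
      exact conjugate_le_conjugate_of_nonneg (C.r_mono hw) hP.p_nonneg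
    have hE0 := conjugate_nonneg_of_nonneg (C.r_nonneg hq) hP.p_nonneg
    have h1 := Prm.tr_f_mono (P := P) (C := C)
      ((hA.sub (IsSelfAdjoint.of_nonneg hD0)).add (IsSelfAdjoint.of_nonneg hE0)) hm
    have h2 := Prm.tr_f_sub_add_le (P := P) (C := C) hA hD0 hE0
    have h3 : 1 / P.g ^ 2 * (C.tr (G' : M) - C.tr (G : M)) ≤ C.tr D := by
      rw [← C.tr_sub, ← C.tr_smul]; exact C.tr_mono hD
    have h4 : C.tr (P.p * C.r q * P.p)
        ≤ lipConst P.b1 * (P.R * (C.tr (G' : M) - C.tr (G : M))) := by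
      refine (Prm.tr_prp_le hP hq).trans ?_
      rw [hqdef, C.ig_smul, C.ig_Er ((IsSelfAdjoint.of_nonneg hd).conjugate_self
        (IsSelfAdjoint.of_nonneg hP.p_nonneg)), ← C.tr_sub]
      exact mul_le_mul_of_nonneg_left (Prm.tr_pzp_le hP hd) hL
    have h5 : 0 ≤ C.tr (G' : M) - C.tr (G : M) := by rw [← C.tr_sub]; exact C.tr_nonneg hd
    have h6 := mul_le_mul_of_nonneg_right hlg h5
    have h7 : P.l / P.g ^ 2 * (C.tr (G' : M) - C.tr (G : M)) ≤ P.l * C.tr D := by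
      calc P.l / P.g ^ 2 * (C.tr (G' : M) - C.tr (G : M))
          = P.l * (1 / P.g ^ 2 * (C.tr (G' : M) - C.tr (G : M))) := by ring
        _ ≤ P.l * C.tr D := mul_le_mul_of_nonneg_left h3 P.l_pos.le
    have h8 := mul_le_mul_of_nonneg_left h4 (by linarith [P.l_pos] : 0 ≤ 2 + P.l)
    unfold Prm.pot
    rw [← hGdef]
    linarith

theorem exists_clip (hP : P.Ok C) (hνΛ : (2 + P.l) / P.Λ ^ 2 ≤ P.ν)
    (hlg : (2 + P.l) * lipConst P.b1 * P.R + P.ν ≤ P.l / P.g ^ 2) {s : Col M X} (h : s.Ok P) :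
    ∃ G' : Mˣ, 0 ≤ (G' : M) ∧ P.Bounded ({ s with G := G' } : Col M X) ∧
      P.pot C { s with G := G' } ≤ P.pot C s := by
  obtain ⟨G1, h10, h1Λ, h1p⟩ := exists_clip_above hP hνΛ h
  obtain ⟨G2, h20, h2b, h2p⟩ := exists_clip_below hP hlg
    (s := { s with G := G1 }) ⟨h.act_01, h.ass_01, h.act_b, h10⟩ h1Λ
  exact ⟨G2, h20, h2b, h2p.trans h1p⟩

end Vale.Agent.P078.Tracial.Four
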