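import Vale.Agent.P078.Tracial.Cov

/-! The covariance lemma with a weighted mass and a bilinear cross term. -/

namespace Vale.Agent.P078.Tracial.Core

set_option linter.unusedSectionVars false

open Filter Topology ComplexOrder

variable {M X : Type*} [CStarAlgebra M] [PartialOrder M] [StarOrderedRing M]
variable [TopologicalSpace X] [CompactSpace X] [T2Space X] [TotallyDisconnectedSpace X]
variable (C : Core M X)

section Four

variable {r : ℕ} {d : StepData M X r} {N T : ℝ} {n : ℕ}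

/-- The defect of the approximate projection. -/
noncomputable def covH (d : StepData M X r) (T : ℝ) (n : ℕ) :
    Module.End ℝ (Fin r → C(X, ℝ)) := 1 - C.covY d T n * C.covY d T n

lemma good_covH : C.Good (C.covH d T n) := C.good_one.sub C (C.good_covY.mul C C.good_covY)

lemma isPosContr_covH (hd : d.Ok N) (hN : 0 ≤ N) (hT0 : 0 < T)
    (hT : 2 * r * (N ^ 4 + N ^ 8) ≤ T) :
    CovForm.IsPosContr (C.ipV (r := r)) (C.covH d T n) := by
  have hx := C.isPosContr_covX hd hN hT0 hT
  have hs := C.covY_symm (n := n) hd hN hT0 hT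
  refine CovForm.IsPosContr.compl ⟨fun u v => ?_, fun v => ?_, fun v => ?_⟩
  · simp only [Module.End.mul_apply]; rw [hs, hs]
  · simp only [Module.End.mul_apply]; rw [← hs]; exact C.isSemi_ipV.nonneg _
  · simp only [Module.End.mul_apply]; rw [← hs]
    exact (Real.sqrt_le_sqrt_iff (C.isSemi_ipV.nonneg _)).1
      (hx.compl.nrm_pow_le C.isSemi_ipV n v)

lemma act_covH_act (hd : d.Ok N) : actV d * C.covH d T n * actV d = C.covH d T n := by
  have h1 : actV d * C.covH d T n = C.covH d T n := by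
    rw [covH, covY_sq, ← mul_neg_geom_sum, sub_sub_cancel, ← mul_assoc, C.act_covX hd]
  rw [h1, covH, covY_sq, ← geom_sum_mul_neg, sub_sub_cancel, mul_assoc, C.covX_act hd]

lemma diag_mulOp (π : DiscreteQuotient X) (f : C(X, ℝ)) : C.diag π (mulOp f) = C.ig f := by
  rw [diag_apply]
  have e : ∀ i : π, cellFn π i * mulOp f (cellFn π i) = cellFn π i * f := fun i => by
    rw [mulOp_apply, mul_comm f, ← mul_assoc, cov_cellFn_sq]
  simp only [e, ← igL_apply]
  rw [← map_sum, ← Finset.sum_mul, cov_sum_cellFn, one_mul]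

lemma diagV_blockV (π : DiscreteQuotient X) (F : Fin r → Module.End ℝ C(X, ℝ)) :
    C.diagV π (blockV F) = ∑ c, C.diag π (F c) := by
  show ∑ a, C.diag π (entry (blockV F) a a) = _
  refine Finset.sum_congr rfl fun a _ => ?_
  rw [show entry (blockV F) a a = F a from LinearMap.ext fun f => by simp [entry]]

omit [CompactSpace X] [T2Space X] [TotallyDisconnectedSpace X] in
lemma blockV_mul (F G : Fin r → Module.End ℝ C(X, ℝ)) :
    blockV F * blockV G = blockV fun c => F c * G c := rfl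

/-- The defect has diagonal at most the integral of `U`. -/
lemma eventually_defect (hd : d.Ok N) (hN : 0 ≤ N) (hT0 : 0 < T)
    (hT : 2 * r * (N ^ 4 + N ^ 8) ≤ T) {ε : ℝ} (hε : 0 < ε) :
    ∀ᶠ π : DiscreteQuotient X in atBot, C.diagV π (C.covH d T n) ≤ C.ig d.U + ε := by
  filter_upwards [C.eventually_rank (n := n) hd hN hT0 hT hε] with π h
  set A := actV d with hA
  set y := C.covY d T n
  have e1 : A * (y * 1 * y) * A = A - C.covH d T n := by
    rw [mul_one, show y * y = 1 - C.covH d T n by rw [covH, sub_sub_cancel], mul_sub, sub_mul,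
      mul_one, hA, actV_sq hd, C.act_covH_act hd]
  have e2 : ∑ c, ∑ i : π, ∑ c', C.ig ((y * A) (unitVec π c i) c' ^ 2) =
      C.diagV π (A * (y * 1 * y) * A) := by
    rw [← C.ipV_sum_eq hd hN hT0 hT π 1]
    simp [sq, A, y]
  rw [e2, e1, map_sub, hA, actV, diagV_blockV] at h
  simp only [diag_mulOp] at h
  linarith

/-- The weighted mass of the projected part. -/
lemma eventually_mass (hd : d.Ok N) (hN : 0 ≤ N) (hT0 : 0 < T)
    (hT : 2 * r * (N ^ 4 + N ^ 8) ≤ T) {wmax : ℝ} (hw : 0 ≤ wmax) (w : Fin r → C(X, ℝ))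
    (hwb : ∀ c x, 0 ≤ w c x ∧ w c x ≤ wmax) {ε : ℝ} (hε : 0 < ε) :
    ∀ᶠ π : DiscreteQuotient X in atBot,
      (∑ c, C.ig (w c * d.act c)) - wmax * C.ig d.U - ε ≤
        ∑ c, ∑ i : π, ∑ c', C.ig (w c' * (C.covY d T n * actV d) (unitVec π c i) c' ^ 2) := by
  set A := actV d with hA
  set y := C.covY d T n
  set h := C.covH d T n with hh
  set W := blockV fun c => mulOp (w c) with hW
  set B := blockV fun c => mulOp (w c * d.act c) with hB
  set s : Fin r → C(X, ℝ) := fun c =>
    ⟨fun x => √(wmax - w c x * d.act c x), by fun_prop⟩ with hs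
  set S := blockV fun c => mulOp (s c) with hS
  have hss : S * S = wmax • (1 : Module.End ℝ (Fin r → C(X, ℝ))) - B := by
    refine LinearMap.ext fun u => funext fun c => ?_
    ext x
    have h1 : 0 ≤ wmax - w c x * d.act c x := by
      rcases hd.act_01 c x with h' | h' <;> rw [h'] <;> linarith [(hwb c x).1, (hwb c x).2]
    simp only [hS, hB, hs, Module.End.mul_apply, blockV_apply, mulOp_apply, LinearMap.sub_apply,
      LinearMap.smul_apply, Module.End.one_apply, Pi.sub_apply, Pi.smul_apply,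
      ContinuousMap.mul_apply, ContinuousMap.sub_apply, ContinuousMap.smul_apply,
      ContinuousMap.coe_mk, smul_eq_mul]
    rw [← mul_assoc, Real.mul_self_sqrt h1]
    ring
  have hAWA : A * W * A = B := by
    refine LinearMap.ext fun u => funext fun c => ?_
    simp only [hA, hW, hB, actV, Module.End.mul_apply, blockV_apply, mulOp_apply]
    rw [show d.act c * (w c * (d.act c * u c)) = w c * (d.act c * d.act c) * u c by ring,
      act_sq hd]
  have gB : C.Good B := C.good_blockV fun c => C.mulOp_mem_alg _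
  have gS : C.Good S := C.good_blockV fun c => C.mulOp_mem_alg _
  have gy : C.Good y := C.good_covY
  have gh : C.Good h := C.good_covH
  have l1 := (C.tendsto_diagV_comm gy (gB.mul C gy)).eventually
    (Ioi_mem_nhds (show -(ε / 4) < 0 by linarith))
  have l2 := (C.tendsto_diagV_comm gS (gS.mul C gh)).eventually
    (Ioi_mem_nhds (show -(ε / 4) < 0 by linarith))
  filter_upwards [l1, l2, C.eventually_defect (n := n) hd hN hT0 hT
    (show 0 < ε / (4 * (wmax + 1)) by positivity)] with π h1 h2 h3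
  have e1 : ∑ c, ∑ i : π, ∑ c', C.ig (w c' * (y * A) (unitVec π c i) c' ^ 2) =
      C.diagV π (y * (B * y)) := by
    have e : A * (y * W * y) * A = y * (B * y) := by
      calc A * (y * W * y) * A = (A * y) * W * (y * A) := by simp only [mul_assoc]
        _ = (y * A) * W * (A * y) := by rw [(C.commute_act_covY hd).eq]
        _ = y * ((A * W * A) * y) := by simp only [mul_assoc]
        _ = _ := by rw [hAWA]
    rw [← e, ← C.ipV_sum_eq hd hN hT0 hT π W]
    simp only [ipV_apply, hW, blockV_apply, mulOp_apply]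
    refine Finset.sum_congr rfl fun c _ => Finset.sum_congr rfl fun i _ =>
      Finset.sum_congr rfl fun c' _ => ?_
    congr 1; ring
  have e2 : B * y * y = B - wmax • h + S * S * h := by
    rw [hss, sub_mul, smul_mul_assoc, one_mul, mul_assoc,
      show y * y = 1 - h by rw [hh, covH, sub_sub_cancel], mul_sub, mul_one]
    abel
  have e2' : C.diagV π (B * y * y) =
      C.diagV π B - wmax * C.diagV π h + C.diagV π (S * S * h) := by
    rw [e2, map_add, map_sub, map_smul, smul_eq_mul]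
  have e3 : 0 ≤ C.diagV π (S * h * S) := by
    rw [diagV_eq]
    refine Finset.sum_nonneg fun a _ => Finset.sum_nonneg fun i _ => ?_
    set v := (Pi.single a (cellFn π i) : Fin r → C(X, ℝ))
    have hsym : C.ipV v (S (h (S v))) = C.ipV (S v) (h (S v)) := by
      simp only [ipV_apply, hS, blockV_apply, mulOp_apply]
      exact Finset.sum_congr rfl fun c _ => by congr 1; ring
    rw [Module.End.mul_apply, Module.End.mul_apply, hsym]
    exact (C.isPosContr_covH hd hN hT0 hT).nonneg _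
  have e4 : C.diagV π B = ∑ c, C.ig (w c * d.act c) := by
    rw [hB, diagV_blockV]; simp only [diag_mulOp]
  have e5 : wmax * (ε / (4 * (wmax + 1))) ≤ ε / 4 := by
    rw [mul_div_assoc', div_le_div_iff₀ (by positivity) (by norm_num)]
    nlinarith
  have e6 := mul_le_mul_of_nonneg_left h3 hw
  rw [mul_add] at e6
  rw [e1]
  rw [← mul_assoc S S h] at h2
  linarith

/-- The limit of the diagonal of the cross form. -/
lemma tendsto_diag_cross (q μ : C(X, ℝ)) {G : M} (hG : 0 ≤ G) :
    Tendsto (fun π => C.diag π (mulOp q * C.Kop G * mulOp μ)) atBot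
      (𝓝 (C.ig (q * μ * C.Er G ^ 2))) := by
  have hs := IsSelfAdjoint.of_nonneg hG
  have e0 : C.tr (C.ι (C.E (C.r q * G) * C.E (C.r μ * G))) = C.ig (q * μ * C.Er G ^ 2) := by
    have hb : ∀ f, C.E (C.r f * G) = toC f * toC (C.Er G) := fun f => by
      have h1 := C.E_bimod (toC f) 1 G
      rw [map_one, mul_one, mul_one, C.E_eq_toC_Er hs] at h1
      exact h1
    rw [hb, hb, ← toC_mul, ← toC_mul, ← toC_mul]
    show C.ig _ = C.ig _
    congr 1
    ring
  have h := C.tendsto_diag (C.r q * G) (C.r μ * G)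
  rw [e0] at h
  refine h.congr fun π => ?_
  rw [diag_apply]
  refine Finset.sum_congr rfl fun i _ => ?_
  simp only [Module.End.mul_apply, mulOp_apply, Kop_apply]
  rw [K, hs.star_eq, ← mul_assoc (cellFn π i) q, ← cov_tr_r_mul, cov_r_mul, mul_comm μ, cov_r_mul,
    Core.e]
  simp only [mul_assoc]

/-- The bilinear cross term of the projected part. -/
lemma eventually_cross (hd : d.Ok N) (hN : 0 ≤ N) (hT0 : 0 < T)
    (hT : 2 * r * (N ^ 4 + N ^ 8) ≤ T) {ω : ℝ} (hω : 0 < ω) (q : Fin r → C(X, ℝ))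
    (hq : ∀ c, q c * d.act c = q c) {ε : ℝ} (hε : 0 < ε) :
    ∀ᶠ π : DiscreteQuotient X in atBot,
      (∑ c, ∑ i : π, ∑ c', C.ig (q c' * (C.covY d T n * actV d) (unitVec π c i) c'
          * C.K (d.G c') (d.μ c' * (C.covY d T n * actV d) (unitVec π c i) c')))
        ≤ (∑ c, C.ig (q c * d.μ c * C.Er (d.G c) ^ 2)) + ω * C.ig d.U
          + 1 / (4 * ω) * (∑ c, ∑ i : π, C.ig (q c ^ 2
            * (C.K (d.G c) (d.μ c * cellFn π i) * C.K (d.G c) (d.μ c * cellFn π i)))) + ε := by
  set A := actV d with hA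
  set y := C.covY d T n
  set h := C.covH d T n with hh
  set B := blockV fun c => mulOp (q c) * C.Kop (d.G c) * mulOp (d.μ c) with hB
  have hABA : A * B * A = B := by
    refine LinearMap.ext fun u => funext fun c => ?_
    simp only [hA, hB, actV, Module.End.mul_apply, blockV_apply, mulOp_apply, Kop_apply,
      mul_μ_absorb hd]
    rw [← mul_assoc, mul_comm (d.act c), hq]
  have gy : C.Good y := C.good_covY
  have gB : C.Good B := C.good_blockV fun c =>
    C.alg.mul_mem (C.alg.mul_mem (C.mulOp_mem_alg _) (C.Kop_mem_alg _)) (C.mulOp_mem_alg _)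
  have l1 := (C.tendsto_diagV_comm (gy.mul C gB) gy).eventually
    (Iio_mem_nhds (show 0 < ε / 4 by positivity))
  have l2 := (tendsto_finsetSum (Finset.univ : Finset (Fin r)) fun c _ =>
    C.tendsto_diag_cross (q c) (d.μ c) (hd.G_nonneg c)).eventually
    (Iio_mem_nhds (lt_add_of_pos_right _ (show 0 < ε / 4 by positivity)))
  filter_upwards [l1, l2, C.eventually_defect (n := n) hd hN hT0 hT
    (show 0 < ε / (4 * (ω + 1)) by positivity)] with π h1 h2 h3
  have e1 : ∑ c, ∑ i : π, ∑ c', C.ig (q c' * (y * A) (unitVec π c i) c'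
      * C.K (d.G c') (d.μ c' * (y * A) (unitVec π c i) c')) = C.diagV π (y * B * y) := by
    have e : A * (y * B * y) * A = y * B * y := by
      calc A * (y * B * y) * A = (A * y) * B * (y * A) := by simp only [mul_assoc]
        _ = (y * A) * B * (A * y) := by rw [(C.commute_act_covY hd).eq]
        _ = y * ((A * B * A) * y) := by simp only [mul_assoc]
        _ = _ := by rw [hABA, mul_assoc]
    rw [← e, ← C.ipV_sum_eq hd hN hT0 hT π B]
    simp only [ipV_apply, hB, blockV_apply, Module.End.mul_apply, mulOp_apply, Kop_apply]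
    refine Finset.sum_congr rfl fun c _ => Finset.sum_congr rfl fun i _ =>
      Finset.sum_congr rfl fun c' _ => ?_
    congr 1; ring
  have e2 : y * (y * B) = B - h * B := by
    rw [← mul_assoc, show y * y = 1 - h by rw [hh, covH, sub_sub_cancel], sub_mul, one_mul]
  have e3 : C.diagV π B = ∑ c, C.diag π (mulOp (q c) * C.Kop (d.G c) * mulOp (d.μ c)) := by
    rw [hB, diagV_blockV]
  have e4 : -C.diagV π (h * B) ≤ ω * C.diagV π h + 1 / (4 * ω) * (∑ c, ∑ i : π, C.ig (q c ^ 2
      * (C.K (d.G c) (d.μ c * cellFn π i) * C.K (d.G c) (d.μ c * cellFn π i)))) := by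
    rw [diagV_eq, diagV_eq, Finset.mul_sum, Finset.mul_sum, ← Finset.sum_neg_distrib,
      ← Finset.sum_add_distrib]
    refine Finset.sum_le_sum fun a _ => ?_
    rw [Finset.mul_sum, Finset.mul_sum, ← Finset.sum_neg_distrib, ← Finset.sum_add_distrib]
    refine Finset.sum_le_sum fun i _ => ?_
    set v := (Pi.single a (cellFn π i) : Fin r → C(X, ℝ)) with hv
    have hc := C.isPosContr_covH (n := n) hd hN hT0 hT
    have k1 : C.ipV (B v) (B v) = C.ig (q a ^ 2
        * (C.K (d.G a) (d.μ a * cellFn π i) * C.K (d.G a) (d.μ a * cellFn π i))) := by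
      rw [ipV_apply, Finset.sum_eq_single a]
      · simp only [hB, hv, blockV_apply, Pi.single_eq_same, Module.End.mul_apply, mulOp_apply,
          Kop_apply]
        congr 1; ring
      · intro b _ hb
        simp only [hB, hv, blockV_apply, Pi.single_eq_of_ne hb, map_zero, mul_zero, C.ig_zero]
      · simp
    rw [Module.End.mul_apply, ← hc.symm, ← k1]
    have k2 := hc.sq_le C.isSemi_ipV v
    have k3 := C.isSemi_ipV.nonneg ((2 * ω) • h v + B v)
    simp only [map_add, map_smul, LinearMap.add_apply, LinearMap.smul_apply, smul_eq_mul,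
      C.isSemi_ipV.symm (B v) (h v)] at k3
    have k4 : -C.ipV (h v) (B v) ≤
        ω * C.ipV (h v) (h v) + 1 / (4 * ω) * C.ipV (B v) (B v) := by
      rw [div_mul_eq_mul_div, one_mul, ← sub_nonneg]
      have : ω * C.ipV (h v) (h v) + C.ipV (B v) (B v) / (4 * ω) - -C.ipV (h v) (B v) =
          (2 * ω * (2 * ω * C.ipV (h v) (h v) + C.ipV (h v) (B v))
            + (2 * ω * C.ipV (h v) (B v) + C.ipV (B v) (B v))) / (4 * ω) := by
        field_simp; ring
      rw [this]; positivity
    have k5 := mul_le_mul_of_nonneg_left k2 hω.le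
    linarith
  have e5 : ω * (ε / (4 * (ω + 1))) ≤ ε / 4 := by
    rw [mul_div_assoc', div_le_div_iff₀ (by positivity) (by norm_num)]
    nlinarith
  have e6 := mul_le_mul_of_nonneg_left h3 hω.le
  rw [mul_add] at e6
  rw [e2, map_sub, e3] at h1
  rw [e1]
  linarith

end Four

theorem exists_cov4 (r : ℕ) (ε N wmax ω : ℝ) (hε : 0 < ε) (hw : 0 ≤ wmax) (hω : 0 < ω) :
    ∃ Cst : ℝ, 0 ≤ Cst ∧ ∀ (d : StepData M X r), d.Ok N →
      ∀ (w q : Fin r → C(X, ℝ)), (∀ c x, 0 ≤ w c x ∧ w c x ≤ wmax) →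
        (∀ c, ‖q c‖ ≤ N) → (∀ c, q c * d.act c = q c) →
      ∃ P : (Fin r → C(X, ℝ)) →ₗ[ℝ] (Fin r → C(X, ℝ)),
        (∀ u c, d.act c * P u c = P u c) ∧
        (∀ u, ‖P u‖ ≤ Cst * ‖u‖) ∧
        ∃ π₀ : DiscreteQuotient X, ∀ π ≤ π₀,
          (∑ c, ∑ i : π, ∑ c', C.lossB d c' (P (unitVec π c i) c'))
              ≤ (∑ c, C.ig (d.μ c ^ 2 * d.act c * C.Er (d.G c) * C.Er (d.W c))) + ε ∧
          (∑ c, ∑ i : π, C.lossB d c (cellFn π i))
              ≤ (∑ c, C.ig (d.μ c ^ 2 * d.act c * C.Er (d.G c) * C.Er (d.W c))) + ε ∧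
          (∑ c, C.ig (w c * d.act c)) - wmax * C.ig d.U - ε
              ≤ (∑ c, ∑ i : π, ∑ c', C.ig (w c' * P (unitVec π c i) c' ^ 2)) ∧
          (∑ c, ∑ i : π, ∑ c', C.ig (q c' * P (unitVec π c i) c'
              * C.K (d.G c') (d.μ c' * P (unitVec π c i) c')))
              ≤ (∑ c, C.ig (q c * d.μ c * C.Er (d.G c) ^ 2)) + ω * C.ig d.U
                + 1 / (4 * ω) * (∑ c, ∑ i : π, C.ig (q c ^ 2
                  * (C.K (d.G c) (d.μ c * cellFn π i) * C.K (d.G c) (d.μ c * cellFn π i)))) + ε ∧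
          (∑ c, ∑ i : π, C.ig (C.constr d (P (unitVec π c i)) ^ 2)) ≤ ε := by
  set M₀ := max N 0
  have hM₀ : 0 ≤ M₀ := le_max_right _ _
  set T : ℝ := 2 * r * (M₀ ^ 4 + M₀ ^ 8) + 1 with hT
  have hT0 : 0 < T := by positivity
  have hT1 : 2 * r * (M₀ ^ 4 + M₀ ^ 8) ≤ T := by linarith
  obtain ⟨n, hn⟩ := exists_nat_gt (T * r / ε)
  rw [div_lt_iff₀ hε] at hn
  refine ⟨(1 + T⁻¹ * (r * (M₀ ^ 2 + ‖C.E‖ * M₀ ^ 4) ^ 2)) ^ n, by positivity,
    fun d hd₀ w q hwb _ hq => ?_⟩
  have hb : ∀ c, ‖d.μ c‖ ≤ M₀ ∧ ‖d.m c‖ ≤ M₀ ∧ ‖d.n c‖ ≤ M₀ ∧ ‖d.G c‖ ≤ M₀ ∧ ‖d.W c‖ ≤ M₀ := by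
    intro c
    obtain ⟨h1, h2, h3, h4, h5⟩ := hd₀.bdd c
    exact ⟨h1.trans (le_max_left _ _), h2.trans (le_max_left _ _), h3.trans (le_max_left _ _),
      h4.trans (le_max_left _ _), h5.trans (le_max_left _ _)⟩
  have hd : d.Ok M₀ := { hd₀ with bdd := hb }
  obtain ⟨π₀, hπ₀⟩ := eventually_atBot.1
    ((C.eventually_loss (n := n) hd hM₀ hT0 hT1 hε).and
      (((C.tendsto_diagV_lossV hd).eventually (Iio_mem_nhds (lt_add_of_pos_right _ hε))).and
        ((C.eventually_mass (n := n) hd hM₀ hT0 hT1 hw w hwb hε).and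
          (C.eventually_cross (n := n) hd hM₀ hT0 hT1 hω q hq hε))))
  refine ⟨C.covY d T n * actV d, fun u c => ?_, C.covY_act_norm hd hM₀ hT0, π₀, fun π hπ => ?_⟩
  · have e : actV d * (C.covY d T n * actV d) = C.covY d T n * actV d := by
      rw [← mul_assoc, (C.commute_act_covY hd).eq, mul_assoc, actV_sq hd]
    exact congrFun (LinearMap.congr_fun e u) c
  obtain ⟨h1, h2, h3, h4⟩ := hπ₀ π hπ
  refine ⟨h1, le_trans (le_of_eq ?_) (le_of_lt h2), h3, h4,
    (C.residual_le hd hM₀ hT0 hT1 π).trans ?_⟩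
  · rw [diagV_eq]
    refine Finset.sum_congr rfl fun c _ => Finset.sum_congr rfl fun i _ => ?_
    rw [C.ipV_lossV hd, Finset.sum_eq_single c, Pi.single_eq_same]
    · intro b _ hb
      rw [Pi.single_eq_of_ne hb, lossB, mul_zero, C.r_zero]
      simp [C.tr_zero]
    · simp
  · rw [div_mul_eq_mul_div, div_le_iff₀ (by positivity)]
    nlinarith

end Vale.Agent.P078.Tracial.Core
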