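import Mathlib

/-! The weight of the one-shot argument: the positive root of `w - γ (9 w - 9 w²) = B`. -/

namespace Vale.Agent.P078.Tracial.Four

/-- The shifted budget. -/
noncomputable def shiftB (b1 b : ℝ) : ℝ := max (b + 2 * b1) b1

/-- The derivative of the quadratic at its root. -/
noncomputable def disc (b1 b γ : ℝ) : ℝ :=
  √((1 - 9 * max γ 0) ^ 2 + 36 * max γ 0 * shiftB b1 b)

/-- The positive root. -/
noncomputable def root (b1 b γ : ℝ) : ℝ :=
  2 * shiftB b1 b / ((1 - 9 * max γ 0) + disc b1 b γ)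

/-- The weight. -/
noncomputable def wφ (b1 b γ : ℝ) : ℝ := 3 * min (root b1 b γ) (1 / 2)

/-- The curvature profile. -/
noncomputable def sW (w : ℝ) : ℝ := 9 * w - 9 * w ^ 2

/-- The quadratic. -/
noncomputable def Tf (γ w : ℝ) : ℝ := w - γ * sW w

variable {b1 b γ : ℝ}

theorem shiftB_ge (b1 b : ℝ) : b1 ≤ shiftB b1 b := le_max_right _ _

theorem shiftB_pos (hb1 : 0 < b1) (b : ℝ) : 0 < shiftB b1 b := hb1.trans_le (shiftB_ge b1 b)

theorem shiftB_eq (h : -b1 ≤ b) : shiftB b1 b = b + 2 * b1 := max_eq_left (by linarith)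

theorem disc_arg_pos (hb1 : 0 < b1) (b γ : ℝ) :
    0 < (1 - 9 * max γ 0) ^ 2 + 36 * max γ 0 * shiftB b1 b := by
  rcases (le_max_right γ 0).eq_or_lt with h | h
  · rw [← h]; norm_num
  · exact add_pos_of_nonneg_of_pos (sq_nonneg _) (by have := shiftB_pos hb1 b; positivity)

theorem disc_pos (hb1 : 0 < b1) (b γ : ℝ) : 0 < disc b1 b γ :=
  Real.sqrt_pos.2 (disc_arg_pos hb1 b γ)

theorem den_pos (hb1 : 0 < b1) (b γ : ℝ) : 0 < (1 - 9 * max γ 0) + disc b1 b γ := by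
  have hB := shiftB_pos hb1 b
  have hd := disc_pos hb1 b γ
  rcases le_or_gt (9 * max γ 0) 1 with h | h
  · linarith
  · have hγ : 0 < max γ 0 := by linarith
    have : |1 - 9 * max γ 0| < disc b1 b γ := by
      rw [← Real.sqrt_sq_eq_abs]
      refine Real.sqrt_lt_sqrt (sq_nonneg _) ?_
      linarith [show 0 < 36 * max γ 0 * shiftB b1 b by positivity]
    linarith [neg_abs_le (1 - 9 * max γ 0)]

theorem root_pos (hb1 : 0 < b1) (b γ : ℝ) : 0 < root b1 b γ :=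
  div_pos (by have := shiftB_pos hb1 b; linarith) (den_pos hb1 b γ)

theorem wφ_nonneg (hb1 : 0 < b1) (b γ : ℝ) : 0 ≤ wφ b1 b γ :=
  mul_nonneg (by norm_num) (le_min (root_pos hb1 b γ).le (by norm_num))

theorem wφ_le (b1 b γ : ℝ) : wφ b1 b γ ≤ 3 / 2 := by
  unfold wφ; linarith [min_le_right (root b1 b γ) (1 / 2)]

theorem wφ_le_root (b1 b γ : ℝ) : wφ b1 b γ ≤ 3 * root b1 b γ := by
  unfold wφ; linarith [min_le_left (root b1 b γ) (1 / 2)]

theorem one_le_wφ (h : 1 / 3 ≤ root b1 b γ) : 1 ≤ wφ b1 b γ := by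
  unfold wφ; linarith [le_min h (by norm_num : (1:ℝ) / 3 ≤ 1 / 2)]

theorem wφ_eq (h : root b1 b γ ≤ 1 / 2) : wφ b1 b γ = 3 * root b1 b γ := by
  unfold wφ; rw [min_eq_left h]

theorem continuous_disc (b1 : ℝ) : Continuous fun q : ℝ × ℝ => disc b1 q.1 q.2 := by
  unfold disc shiftB; fun_prop

theorem continuous_root (hb1 : 0 < b1) : Continuous fun q : ℝ × ℝ => root b1 q.1 q.2 := by
  unfold root
  refine Continuous.div (by unfold shiftB; fun_prop) ?_ fun q => (den_pos hb1 q.1 q.2).ne'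
  exact (by fun_prop : Continuous fun q : ℝ × ℝ => 1 - 9 * max q.2 0).add (continuous_disc b1)

theorem continuous_wφ (hb1 : 0 < b1) : Continuous fun q : ℝ × ℝ => wφ b1 q.1 q.2 := by
  unfold wφ
  exact continuous_const.mul ((continuous_root hb1).min continuous_const)

/-- The root solves the equation and the discriminant is the derivative there. -/
theorem root_spec (hb1 : 0 < b1) (b : ℝ) (hγ : 0 ≤ γ) :
    Tf γ (root b1 b γ) = shiftB b1 b ∧
      disc b1 b γ = 1 - γ * (9 - 18 * root b1 b γ) := by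
  have hd := den_pos hb1 b γ
  have hm : max γ 0 = γ := max_eq_left hγ
  rw [hm] at hd
  have hsq : disc b1 b γ ^ 2 = (1 - 9 * γ) ^ 2 + 36 * γ * shiftB b1 b := by
    have := disc_arg_pos hb1 b γ
    rw [disc, Real.sq_sqrt this.le, hm]
  have hr : root b1 b γ * ((1 - 9 * γ) + disc b1 b γ) = 2 * shiftB b1 b := by
    rw [root, hm, div_mul_cancel₀ _ hd.ne']
  have h2 : disc b1 b γ = 1 - γ * (9 - 18 * root b1 b γ) := by
    have : (disc b1 b γ - (1 - γ * (9 - 18 * root b1 b γ))) * ((1 - 9 * γ) + disc b1 b γ) = 0 := by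
      linear_combination hsq - 18 * γ * hr
    rcases mul_eq_zero.1 this with h | h
    · linarith
    · linarith
  refine ⟨?_, h2⟩
  rw [h2] at hr
  unfold Tf sW
  linear_combination hr / 2

/-- A nonnegative point above the level lies right of the root. -/
theorem root_le_of (hb1 : 0 < b1) (hγ : 0 ≤ γ) {w : ℝ} (hw : 0 ≤ w)
    (h : shiftB b1 b ≤ Tf γ w) : root b1 b γ ≤ w := by
  by_contra hlt
  push Not at hlt
  obtain ⟨hT, -⟩ := root_spec hb1 b hγ
  set q := root b1 b γ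
  have hq : 0 < q := lt_of_le_of_lt hw hlt
  have hB := shiftB_pos hb1 b
  unfold Tf sW at h hT
  have e : q * (w - γ * (9 * w - 9 * w ^ 2)) - w * (q - γ * (9 * q - 9 * q ^ 2))
      = 9 * γ * q * w * (w - q) := by ring
  have h1 : 9 * γ * q * w * (w - q) ≤ 0 :=
    mul_nonpos_of_nonneg_of_nonpos (by positivity) (by linarith)
  rw [hT] at e
  nlinarith [mul_le_mul_of_nonneg_left h hq.le, mul_lt_mul_of_pos_right hlt hB]

theorem sW_nonneg {w : ℝ} (h0 : 0 ≤ w) (h1 : w ≤ 1) : 0 ≤ sW w := by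
  unfold sW; nlinarith

theorem sW_le (w : ℝ) : sW w ≤ 9 / 4 := by
  unfold sW; nlinarith [sq_nonneg (2 * w - 1)]

theorem sW_ge {w : ℝ} (h0 : 0 ≤ w) (h1 : w ≤ 2 / 5) : 27 / 5 * w ≤ sW w := by
  unfold sW; nlinarith

theorem root_ge_shift (hb1 : 0 < b1) (hγ : 0 ≤ γ) (h : root b1 b γ ≤ 1) :
    shiftB b1 b ≤ root b1 b γ := by
  obtain ⟨hT, -⟩ := root_spec hb1 b hγ
  have h1 := mul_nonneg hγ (sW_nonneg (root_pos hb1 b γ).le h)
  unfold Tf at hT
  linarith

theorem disc_le_one (hb1 : 0 < b1) (hγ : 0 ≤ γ) (h : root b1 b γ ≤ 1 / 2) :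
    disc b1 b γ ≤ 1 := by
  obtain ⟨-, hD⟩ := root_spec hb1 b hγ
  have := mul_nonneg hγ (by linarith : 0 ≤ 9 - 18 * root b1 b γ)
  linarith

theorem disc_lower (hb1 : 0 < b1) (h8 : b1 ≤ 1 / 8) (b γ : ℝ) : √(2 * b1) ≤ disc b1 b γ := by
  refine Real.sqrt_le_sqrt ?_
  have hB := shiftB_ge b1 b
  have hg : 0 ≤ max γ 0 := le_max_right _ _
  rcases le_or_gt (max γ 0) (1 / 18) with h | h
  · nlinarith [mul_nonneg hg (hb1.le.trans hB)]
  · nlinarith [sq_nonneg (1 - 9 * max γ 0), mul_le_mul h.le hB hb1.le hg]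

theorem root_le_small (hb1 : 0 < b1) (b : ℝ) (hγ : 0 ≤ γ) (h : γ ≤ 1 / 18) :
    root b1 b γ ≤ 2 * shiftB b1 b := by
  have hd := disc_pos hb1 b γ
  have hB := shiftB_pos hb1 b
  have hm : max γ 0 = γ := max_eq_left hγ
  have h1 : |1 - 9 * γ| ≤ disc b1 b γ := by
    rw [disc, hm]
    exact Real.abs_le_sqrt (by nlinarith [mul_nonneg hγ hB.le])
  rw [abs_of_nonneg (by linarith)] at h1
  rw [root, hm, div_le_iff₀ (by linarith)]
  nlinarith [mul_le_mul_of_nonneg_left (show (1:ℝ) ≤ (1 - 9 * γ) + disc b1 b γ by linarith)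
    (by linarith : 0 ≤ 2 * shiftB b1 b)]

theorem wφ_mono (hb1 : 0 < b1) {γ' : ℝ} (hγ : 0 ≤ γ) (h : γ ≤ γ') :
    wφ b1 b γ ≤ wφ b1 b γ' := by
  have hγ' : 0 ≤ γ' := hγ.trans h
  rcases le_or_gt (1 / 2) (root b1 b γ') with h1 | h1
  · unfold wφ; rw [min_eq_right h1]; linarith [min_le_right (root b1 b γ) (1 / 2)]
  · have hw := root_pos hb1 b γ'
    obtain ⟨hT, -⟩ := root_spec hb1 b hγ'
    have hs := mul_nonneg (sub_nonneg.2 h) (sW_nonneg hw.le (by linarith : root b1 b γ' ≤ 1))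
    have : root b1 b γ ≤ root b1 b γ' := root_le_of hb1 hγ hw.le (by
      unfold Tf at hT ⊢; linarith)
    unfold wφ
    linarith [min_le_min this (le_refl (1 / 2 : ℝ))]

/-- The Lipschitz constant of the weight in the resolvent. -/
noncomputable def lipConst (b1 : ℝ) : ℝ := 27 / 4 / √(2 * b1)

theorem wφ_lip (hb1 : 0 < b1) (h8 : b1 ≤ 1 / 8) {γ' : ℝ} (hγ : 0 ≤ γ) (h : γ ≤ γ') :
    wφ b1 b γ' ≤ wφ b1 b γ + lipConst b1 * (γ' - γ) := by
  have hs : 0 < √(2 * b1) := Real.sqrt_pos.2 (by linarith)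
  have hL : 0 ≤ lipConst b1 * (γ' - γ) :=
    mul_nonneg (by unfold lipConst; positivity) (sub_nonneg.2 h)
  rcases le_or_gt (1 / 2) (root b1 b γ) with h1 | h1
  · have : wφ b1 b γ = 3 / 2 := by unfold wφ; rw [min_eq_right h1]; norm_num
    linarith [wφ_le b1 b γ']
  · obtain ⟨hT, hD⟩ := root_spec hb1 b hγ
    have hw := root_pos hb1 b γ
    set q := root b1 b γ
    set d := 9 / 4 / √(2 * b1) * (γ' - γ) with hd
    have hd0 : 0 ≤ d := mul_nonneg (by positivity) (sub_nonneg.2 h)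
    have hle : 9 / 4 * (γ' - γ) ≤ disc b1 b γ * d := by
      calc 9 / 4 * (γ' - γ) = √(2 * b1) * d := by rw [hd]; field_simp
        _ ≤ disc b1 b γ * d := mul_le_mul_of_nonneg_right (disc_lower hb1 h8 b γ) hd0
    have e : Tf γ' (q + d) = Tf γ q + (1 - γ * (9 - 18 * q)) * d + 9 * γ * d ^ 2
        - (γ' - γ) * sW (q + d) := by unfold Tf sW; ring
    rw [hT, ← hD] at e
    have hr : root b1 b γ' ≤ q + d := root_le_of hb1 (hγ.trans h) (by linarith) (by
      nlinarith [mul_le_mul_of_nonneg_left (sW_le (q + d)) (sub_nonneg.2 h),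
        mul_nonneg hγ (sq_nonneg d)])
    have h3 : lipConst b1 * (γ' - γ) = 3 * d := by rw [hd, lipConst]; ring
    have h2 := wφ_eq (b1 := b1) (b := b) (γ := γ) h1.le
    linarith [wφ_le_root b1 b γ']

/-- The third order remainder. -/
theorem abs_remainder_le {γ j K u s η R U : ℝ} (hR : 0 ≤ R) (hγ : 0 ≤ γ) (hγR : γ ≤ R)
    (hj : |j| ≤ R) (hK : |K| ≤ R) (hu : |u| ≤ U) (hs : |s| ≤ 9) (hη : 0 ≤ η) (hη1 : η ≤ 1) :
    |9 * γ * u * (2 * j + η * u) - s * K * u + 9 * K * (j + η * u) ^ 2|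
      ≤ 9 * R * U * (2 * R + U) + 9 * R * U + 9 * R * (R + U) ^ 2 := by
  have hU : 0 ≤ U := (abs_nonneg _).trans hu
  have h1 : |η * u| ≤ U := by
    rw [abs_mul, abs_of_nonneg hη]
    calc η * |u| ≤ 1 * U := mul_le_mul hη1 hu (abs_nonneg _) zero_le_one
      _ = U := one_mul U
  have h2 : |2 * j + η * u| ≤ 2 * R + U := by
    refine (abs_add_le _ _).trans (add_le_add ?_ h1)
    rw [abs_mul, abs_two]
    exact mul_le_mul_of_nonneg_left hj zero_le_two
  have h3 : |j + η * u| ≤ R + U := (abs_add_le _ _).trans (add_le_add hj h1)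
  refine (abs_add_le _ _).trans (add_le_add ((abs_sub _ _).trans (add_le_add ?_ ?_)) ?_)
  · rw [abs_mul, abs_mul, abs_of_nonneg (by positivity : 0 ≤ 9 * γ)]
    gcongr
  · rw [abs_mul, abs_mul]
    gcongr
  · rw [abs_mul, abs_mul, abs_pow, abs_of_nonneg (by norm_num : (0:ℝ) ≤ 9)]
    gcongr

/-- The second order coefficient is bounded. -/
theorem abs_second_le {γ j K s R : ℝ} (hR : 0 ≤ R) (hγ : 0 ≤ γ) (hγR : γ ≤ R)
    (hj : |j| ≤ R) (hK : |K| ≤ R) (hs : |s| ≤ 9) :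
    |-(9 * γ) * j ^ 2 + s * j * K| ≤ 9 * R * R ^ 2 + 9 * R * R := by
  refine (abs_add_le _ _).trans (add_le_add ?_ ?_)
  · rw [abs_mul, abs_neg, abs_of_nonneg (by positivity : 0 ≤ 9 * γ), abs_pow]
    gcongr
  · rw [abs_mul, abs_mul]
    gcongr

/-- Second order bound of the root in one step. -/
theorem exists_root_step (hb1 : 0 < b1) (h8 : b1 ≤ 1 / 8) {R : ℝ} (hR : 1 ≤ R) :
    ∃ Cst : ℝ, 0 ≤ Cst ∧ ∃ η0 : ℝ, 0 < η0 ∧ ∀ b γ j K db η : ℝ,
      -b1 ≤ b → -b1 ≤ b + db → 0 ≤ γ → γ ≤ R → 0 ≤ γ + η * K → root b1 b γ ≤ 1 / 2 →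
      |j| ≤ R → |K| ≤ R → 0 ≤ η → η ≤ η0 →
      db = η * (disc b1 b γ * j - sW (root b1 b γ) * K) →
      wφ b1 (b + db) (γ + η * K) ≤ 3 * root b1 b γ + η * (3 * j)
        + η ^ 2 * (3 * ((-(9 * γ) * j ^ 2 + (9 - 18 * root b1 b γ) * j * K) / disc b1 b γ))
        + η ^ 3 * Cst := by
  set d0 := √(2 * b1) with hd0
  have hd0p : 0 < d0 := Real.sqrt_pos.2 (by linarith)
  set q0 := (9 * R * R ^ 2 + 9 * R * R) / d0 with hq0
  have hq0p : 0 ≤ q0 := by positivity
  set U := q0 + 1 with hU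
  set e0 := 9 * R * U * (2 * R + U) + 9 * R * U + 9 * R * (R + U) ^ 2 with he0
  have he0p : 0 ≤ e0 := by positivity
  set c0 := e0 / d0 with hc0
  have hc0p : 0 ≤ c0 := by positivity
  refine ⟨3 * c0, by positivity, min 1 (min (b1 / (R + U)) (1 / (c0 + 1))), by positivity, ?_⟩
  intro b γ j K db η hb hb' hγ hγR hγ' hw hj hK hη hη0 hdb
  have hη1 : η ≤ 1 := hη0.trans (min_le_left _ _)
  have hη2 : η * (R + U) ≤ b1 :=
    (le_div_iff₀ (by positivity)).1 (hη0.trans ((min_le_right _ _).trans (min_le_left _ _)))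
  have hη3 : η * c0 ≤ 1 := by
    have := (le_div_iff₀ (by positivity)).1
      (hη0.trans ((min_le_right _ _).trans (min_le_right _ _)))
    linarith [mul_nonneg hη zero_le_one]
  obtain ⟨hT, hD⟩ := root_spec hb1 b hγ
  set w := root b1 b γ with hwdef
  set D := disc b1 b γ with hDdef
  have hDl : d0 ≤ D := disc_lower hb1 h8 b γ
  have hDp : 0 < D := hd0p.trans_le hDl
  have hwp : 0 < w := root_pos hb1 b γ
  have hwb : b1 ≤ w := (shiftB_ge b1 b).trans (root_ge_shift hb1 hγ (by rw [← hwdef]; linarith))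
  have hs' : |9 - 18 * w| ≤ 9 := abs_le.2 ⟨by linarith, by linarith⟩
  set Q := (-(9 * γ) * j ^ 2 + (9 - 18 * w) * j * K) / D with hQ
  have hQb : |Q| ≤ q0 := by
    rw [hQ, abs_div, abs_of_pos hDp, hq0]
    exact div_le_div₀ (by positivity) (abs_second_le (by linarith) hγ hγR hj hK hs') hd0p hDl
  set u := Q + η * c0 with hu
  have hub : |u| ≤ U := by
    refine (abs_add_le _ _).trans (add_le_add hQb ?_)
    rwa [abs_of_nonneg (mul_nonneg hη hc0p)]
  set w2 := w + η * (j + η * u) with hw2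
  have hw20 : 0 ≤ w2 := by
    have hδ : |j + η * u| ≤ R + U := by
      refine (abs_add_le _ _).trans (add_le_add hj ?_)
      rw [abs_mul, abs_of_nonneg hη]
      calc η * |u| ≤ 1 * U := mul_le_mul hη1 hub (abs_nonneg _) zero_le_one
        _ = U := one_mul U
    have h1 : |η * (j + η * u)| ≤ b1 := by
      rw [abs_mul, abs_of_nonneg hη]
      exact (mul_le_mul_of_nonneg_left hδ hη).trans hη2
    rw [hw2]
    linarith [neg_abs_le (η * (j + η * u))]
  set E := 9 * γ * u * (2 * j + η * u) - (9 - 18 * w) * K * u + 9 * K * (j + η * u) ^ 2 with hE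
  have e : Tf (γ + η * K) w2 = Tf γ w + db + η ^ 3 * (D * c0 + E) := by
    have hQD : D * Q = -(9 * γ) * j ^ 2 + (9 - 18 * w) * j * K := by
      rw [hQ]; field_simp
    rw [hdb, hw2, hE, hu]
    unfold Tf sW
    rw [hD] at hQD ⊢
    linear_combination η ^ 2 * hQD
  have hEb : |E| ≤ e0 := abs_remainder_le (by linarith) hγ hγR hj hK hub hs' hη hη1
  have hDc : e0 ≤ D * c0 := by
    rw [hc0, ← mul_div_assoc, le_div_iff₀ hd0p, mul_comm]
    exact mul_le_mul_of_nonneg_right hDl he0p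
  have hge : shiftB b1 (b + db) ≤ Tf (γ + η * K) w2 := by
    rw [e, hT, shiftB_eq hb, shiftB_eq hb']
    have : 0 ≤ η ^ 3 * (D * c0 + E) :=
      mul_nonneg (pow_nonneg hη 3) (by linarith [neg_abs_le E])
    linarith
  refine (wφ_le_root _ _ _).trans ?_
  have := root_le_of hb1 hγ' hw20 hge
  rw [hw2, hu] at this
  linarith

end Vale.Agent.P078.Tracial.Four
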