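import Vale.Agent.P078.Tracial.StepAux
import Vale.Agent.P078.Tracial.Four.Profile

/-! The potential of the sparse paving step: definitions and basic bounds. -/

namespace Vale.Agent.P078.Tracial.Four

set_option linter.unusedSectionVars false

open Filter Topology ComplexOrder
open Scalar (f f' continuous_f continuous_f' le_f' f'_le f_convex f_nonneg)

/-- The level of the barrier. -/
noncomputable def u4 : ℝ := 20

/-- The parameters: the root of the compression, its bound, the shift and the barrier. -/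
structure Prm (M : Type*) where
  p : M
  R : ℝ
  b1 : ℝ
  σ : ℝ
  l : ℝ
  ν : ℝ
  g : ℝ
  Λ : ℝ
  one_le_R : 1 ≤ R
  b1_pos : 0 < b1
  b1_le : b1 ≤ 1 / 8
  σ_pos : 0 < σ
  l_pos : 0 < l
  l_le : l ≤ 1
  ν_pos : 0 < ν
  g_pos : 0 < g
  g_le : g ≤ Λ

/-- The data of one colour. -/
structure Col (M X : Type*) [Monoid M] [TopologicalSpace X] where
  act : C(X, ℝ)
  ass : C(X, ℝ)
  b : C(X, ℝ)
  G : Mˣ

variable {M X : Type*} [CStarAlgebra M] [PartialOrder M] [StarOrderedRing M]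
variable [TopologicalSpace X] [CompactSpace X] [T2Space X] [TotallyDisconnectedSpace X]

/-- The hypotheses on the compression. -/
structure Prm.Ok (P : Prm M) (C : Core M X) : Prop where
  p_nonneg : 0 ≤ P.p
  pp_le : P.p * P.p ≤ algebraMap ℝ M P.R
  pp_ge : algebraMap ℝ M (1 / 2) ≤ P.p * P.p
  Er_le : ∀ x, C.Er (P.p * P.p) x ≤ 1

/-- Validity of the data of one colour. -/
structure Col.Ok (s : Col M X) (P : Prm M) : Prop where
  act_01 : ∀ x, s.act x = 0 ∨ s.act x = 1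
  ass_01 : ∀ x, s.ass x = 0 ∨ s.ass x = 1
  act_b : ∀ x, s.act x = 1 → -P.b1 ≤ s.b x
  G_nonneg : 0 ≤ (s.G : M)

/-- One colour of a state. -/
def col {r : ℕ} (s : Config M X r) (c : Fin r) : Col M X := ⟨s.act c, s.ass c, s.b c, s.G c⟩

/-- Validity of a state: the total budget is four times the unassigned set. -/
structure StateOk {r : ℕ} (P : Prm M) (s : Config M X r) : Prop where
  ass_01 : ∀ c x, s.ass c x = 0 ∨ s.ass c x = 1
  act_01 : ∀ c x, s.act c x = 0 ∨ s.act c x = 1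
  U_01 : ∀ x, s.U x = 0 ∨ s.U x = 1
  act_le : ∀ c x, s.act c x ≤ s.U x
  b_sum : ∑ c, s.b c = (4 : ℝ) • s.U
  b_supp : ∀ c x, s.U x = 0 → s.b c x = 0
  b_drop : ∀ c x, s.act c x = 0 → s.b c x ≤ 0
  b_act : ∀ c x, s.act c x = 1 → -P.b1 ≤ s.b c x
  G_nonneg : ∀ c, 0 ≤ (s.G c : M)

theorem StateOk.col {r : ℕ} {P : Prm M} {s : Config M X r} (h : StateOk P s) (c : Fin r) :
    (Four.col s c).Ok P :=
  ⟨h.act_01 c, h.ass_01 c, h.b_act c, h.G_nonneg c⟩

namespace Prm

variable (P : Prm M) (C : Core M X)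

/-- The compressed resolvent. -/
noncomputable def γ (s : Col M X) : C(X, ℝ) := C.gam P.p s.G

/-- The root. -/
noncomputable def W (s : Col M X) : C(X, ℝ) :=
  ⟨fun x => root P.b1 (s.b x) (P.γ C s x),
    (continuous_root P.b1_pos).comp ((map_continuous s.b).prodMk (map_continuous (P.γ C s)))⟩

/-- The discriminant. -/
noncomputable def D (s : Col M X) : C(X, ℝ) :=
  ⟨fun x => disc P.b1 (s.b x) (P.γ C s x),
    (continuous_disc P.b1).comp ((map_continuous s.b).prodMk (map_continuous (P.γ C s)))⟩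

/-- The weight function. -/
noncomputable def φ (s : Col M X) : C(X, ℝ) :=
  ⟨fun x => wφ P.b1 (s.b x) (P.γ C s x),
    (continuous_wφ P.b1_pos).comp ((map_continuous s.b).prodMk (map_continuous (P.γ C s)))⟩

/-- The inverse of the discriminant. -/
noncomputable def iD (s : Col M X) : C(X, ℝ) :=
  ⟨fun x => (P.D C s x)⁻¹, (map_continuous (P.D C s)).inv₀ fun _ => (disc_pos P.b1_pos _ _).ne'⟩

/-- The weight of one colour. -/
noncomputable def wt (s : Col M X) : C(X, ℝ) := s.act * P.φ C s + s.ass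

/-- The matrix of one colour. -/
noncomputable def mat (s : Col M X) : M := (↑s.G⁻¹ : M) + P.p * C.r (P.wt C s) * P.p

/-- The potential of one colour. -/
noncomputable def pot (s : Col M X) : ℝ :=
  C.tr (cfc (f u4 P.σ P.l) (P.mat C s)) + P.ν * C.tr (s.G : M)

/-- The total potential. -/
noncomputable def Psi {r : ℕ} (s : Config M X r) : ℝ := ∑ c, P.pot C (col s c)

/-- The derivative of the barrier at the matrix of one colour. -/
noncomputable def dmat (s : Col M X) : M := cfc (f' u4 P.σ P.l) (P.mat C s)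

/-- The density of the derivative of the barrier. -/
noncomputable def V (s : Col M X) : C(X, ℝ) := C.Er (P.p * P.dmat C s * P.p)

/-- The compressed resolvent as an element. -/
noncomputable def cG (s : Col M X) : M := P.p * (s.G : M) * P.p

/-- The profile at the root. -/
noncomputable def sWc (s : Col M X) : C(X, ℝ) :=
  ⟨fun x => sW (P.W C s x), by unfold sW; fun_prop⟩

/-- The derivative of the profile at the root. -/
noncomputable def sDc (s : Col M X) : C(X, ℝ) :=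
  ⟨fun x => 9 - 18 * P.W C s x, by fun_prop⟩

/-- The coefficient of the direction at the budget. -/
noncomputable def mFn (s : Col M X) : C(X, ℝ) := (1 / 3 : ℝ) • (s.act * P.D C s)

/-- The coefficient of the induced change of the compressed resolvent. -/
noncomputable def nFn (s : Col M X) : C(X, ℝ) := s.act * P.sWc C s

/-- The direction of the budget. -/
noncomputable def dir (s : Col M X) (k h : C(X, ℝ)) : C(X, ℝ) :=
  P.mFn C s * k - P.nFn C s * C.K (P.cG s) k - s.act * h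

/-- The first order change of the weight besides `k`. -/
noncomputable def ρ (s : Col M X) (h : C(X, ℝ)) : C(X, ℝ) := (3 : ℝ) • (P.iD C s * h)

/-- The scale of the noise of one colour. -/
noncomputable def μFn (s : Col M X) : C(X, ℝ) :=
  s.act * ⟨fun x => √(P.W C s x * P.D C s x
      / (max (P.γ C s x) (P.g / 2) * max (P.V C s x) (P.l / 2))), by
    refine Real.continuous_sqrt.comp (Continuous.div (by fun_prop) (by fun_prop) fun x => ?_)
    have := P.g_pos
    have := P.l_pos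
    positivity⟩

/-- The linear part of the change of the potential of one colour. -/
noncomputable def lin (s : Col M X) (k h : C(X, ℝ)) : ℝ :=
  C.tr (P.dmat C s * (-(P.p * C.r (s.act * P.ρ C s h) * P.p)))
    + P.ν * C.tr ((s.G : M) * (P.p * C.r k * P.p) * s.G)

/-- The loss form of one colour. -/
noncomputable def loss (s : Col M X) (k : C(X, ℝ)) : ℝ :=
  C.tr (C.r k * P.cG s * C.r k * (P.p * P.dmat C s * P.p))

/-- The coefficient of the gain. -/
noncomputable def gainFn (s : Col M X) : C(X, ℝ) :=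
  s.act * P.V C s * P.γ C s * P.iD C s

/-- The coefficient of the cross term. -/
noncomputable def crossFn (s : Col M X) : C(X, ℝ) :=
  s.act * P.V C s * P.sDc C s * P.iD C s

/-- The second order change of the potential of one colour. -/
noncomputable def second (s : Col M X) (k : C(X, ℝ)) : ℝ :=
  P.loss C s k - 29 / 10 * C.ig (P.gainFn C s * (k * k))
    + C.ig (P.crossFn C s * k * C.K (P.cG s) k)

/-- The weight of the squared change of the compressed resolvent. -/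
noncomputable def χFn (s : Col M X) : C(X, ℝ) :=
  (3 / 2 : ℝ) • (s.act * P.V C s * P.sWc C s * P.iD C s
    * ⟨fun x => (max (P.γ C s x) (P.g / 2))⁻¹, by
      refine Continuous.inv₀ (by fun_prop) fun x => ?_
      have := P.g_pos
      positivity⟩)

@[simp] theorem W_apply (s : Col M X) (x : X) :
    P.W C s x = root P.b1 (s.b x) (P.γ C s x) := rfl

@[simp] theorem D_apply (s : Col M X) (x : X) :
    P.D C s x = disc P.b1 (s.b x) (P.γ C s x) := rfl

@[simp] theorem φ_apply (s : Col M X) (x : X) :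
    P.φ C s x = wφ P.b1 (s.b x) (P.γ C s x) := rfl

@[simp] theorem iD_apply (s : Col M X) (x : X) : P.iD C s x = (P.D C s x)⁻¹ := rfl

@[simp] theorem sWc_apply (s : Col M X) (x : X) : P.sWc C s x = sW (P.W C s x) := rfl

@[simp] theorem sDc_apply (s : Col M X) (x : X) : P.sDc C s x = 9 - 18 * P.W C s x := rfl

/-- A colour whose active points are inside the window. -/
structure Window (s : Col M X) : Prop where
  low : ∀ x, s.act x = 1 → -P.b1 / 2 ≤ s.b x
  high : ∀ x, s.act x = 1 → P.W C s x ≤ 2 / 5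

/-- The resolvent lies between the two clipping levels. -/
def Bounded (s : Col M X) : Prop :=
  algebraMap ℝ M P.g ≤ (s.G : M) ∧ (s.G : M) ≤ algebraMap ℝ M P.Λ

/-- The resolvent is an approximate minimiser for its colour. -/
def ResMin (s : Col M X) (ζ : ℝ) : Prop :=
  ∀ G' : Mˣ, 0 ≤ (G' : M) → P.pot C s ≤ P.pot C { s with G := G' } + ζ

variable {P C}

theorem tr_f'_mul_ge {A Z : M} (hA : IsSelfAdjoint A) (hZ : 0 ≤ Z) :
    P.l * C.tr Z ≤ C.tr (cfc (f' u4 P.σ P.l) A * Z) := by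
  have h : algebraMap ℝ M P.l ≤ cfc (f' u4 P.σ P.l) A :=
    algebraMap_le_cfc _ _ _ (fun x _ => le_f' P.σ_pos x) (continuous_f' P.σ_pos).continuousOn hA
  have := C.tr_mul_nonneg (sub_nonneg.2 h) hZ
  rw [sub_mul, C.tr_sub, Algebra.algebraMap_eq_smul_one, smul_mul_assoc, one_mul, C.tr_smul]
    at this
  linarith

theorem tr_f'_mul_le {A Z : M} (hA : IsSelfAdjoint A) (hZ : 0 ≤ Z) :
    C.tr (cfc (f' u4 P.σ P.l) A * Z) ≤ (2 + P.l) * C.tr Z := by
  have h : cfc (f' u4 P.σ P.l) A ≤ algebraMap ℝ M (2 + P.l) :=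
    cfc_le_algebraMap _ _ _ (fun x _ => f'_le P.σ_pos x) (continuous_f' P.σ_pos).continuousOn hA
  have := C.tr_mul_nonneg (sub_nonneg.2 h) hZ
  rw [sub_mul, C.tr_sub, Algebra.algebraMap_eq_smul_one, smul_mul_assoc, one_mul, C.tr_smul]
    at this
  linarith

/-- Moving down by `D` and up by `E` changes the barrier by at most this much. -/
theorem tr_f_sub_add_le {A D E : M} (hA : IsSelfAdjoint A) (hD : 0 ≤ D) (hE : 0 ≤ E) :
    C.tr (cfc (f u4 P.σ P.l) (A - D + E))
      ≤ C.tr (cfc (f u4 P.σ P.l) A) - P.l * C.tr D + (2 + P.l) * C.tr E := by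
  have hA' : IsSelfAdjoint (A - D + E) :=
    (hA.sub (IsSelfAdjoint.of_nonneg hD)).add (IsSelfAdjoint.of_nonneg hE)
  have h := C.klein_lower continuous_f (continuous_f' (l := P.l) P.σ_pos)
    (f_convex (u := u4) (l := P.l) P.σ_pos) hA' hA
  rw [show A - (A - D + E) = D - E by abel, mul_sub, C.tr_sub] at h
  linarith [tr_f'_mul_ge (P := P) (C := C) hA' hD, tr_f'_mul_le (P := P) (C := C) hA' hE]

theorem tr_f_mono {A B : M} (hB : IsSelfAdjoint B) (h : A ≤ B) :
    C.tr (cfc (f u4 P.σ P.l) A) ≤ C.tr (cfc (f u4 P.σ P.l) B) := by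
  have h' := tr_f_sub_add_le (P := P) (C := C) hB (sub_nonneg.2 h) (le_refl (0 : M))
  rw [show B - (B - A) + 0 = A by abel, C.tr_zero, mul_zero, add_zero] at h'
  nlinarith [C.tr_nonneg (sub_nonneg.2 h), P.l_pos]

theorem tr_f_add_le {A E : M} (hA : IsSelfAdjoint A) (hE : 0 ≤ E) :
    C.tr (cfc (f u4 P.σ P.l) (A + E))
      ≤ C.tr (cfc (f u4 P.σ P.l) A) + (2 + P.l) * C.tr E := by
  have h' := tr_f_sub_add_le (P := P) (C := C) hA (le_refl (0 : M)) hE
  rw [show A - 0 + E = A + E by abel, C.tr_zero, mul_zero, sub_zero] at h'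
  exact h'

theorem φ_nonneg (s : Col M X) : 0 ≤ P.φ C s :=
  ContinuousMap.le_def.2 fun _ => wφ_nonneg P.b1_pos _ _

theorem wt_nonneg {s : Col M X} (h : s.Ok P) : 0 ≤ P.wt C s := by
  refine ContinuousMap.le_def.2 fun x => ?_
  have := wφ_nonneg P.b1_pos (s.b x) (P.γ C s x)
  rcases h.act_01 x with ha | ha <;> rcases h.ass_01 x with he | he <;>
    simp [wt, ha, he] <;> linarith

theorem mat_isSelfAdjoint (hP : P.Ok C) {s : Col M X} (h : 0 ≤ (s.G : M)) :
    IsSelfAdjoint (P.mat C s) :=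
  (IsSelfAdjoint.of_nonneg (Core.units_inv_nonneg h)).add
    ((C.r_isSelfAdjoint _).conjugate_self (IsSelfAdjoint.of_nonneg hP.p_nonneg))

theorem mat_nonneg (hP : P.Ok C) {s : Col M X} (h : s.Ok P) : 0 ≤ P.mat C s :=
  add_nonneg (Core.units_inv_nonneg h.G_nonneg)
    (conjugate_nonneg_of_nonneg (C.r_nonneg (wt_nonneg h)) hP.p_nonneg)

theorem dmat_nonneg (s : Col M X) : 0 ≤ P.dmat C s :=
  cfc_nonneg fun t _ => P.l_pos.le.trans (le_f' P.σ_pos t)

theorem norm_dmat_le (s : Col M X) : ‖P.dmat C s‖ ≤ 3 := by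
  refine norm_cfc_le (by norm_num) fun t _ => ?_
  rw [Real.norm_of_nonneg (P.l_pos.le.trans (le_f' P.σ_pos t))]
  linarith [f'_le (u := u4) (l := P.l) P.σ_pos t, P.l_le]

theorem pot_nonneg (hP : P.Ok C) {s : Col M X} (h : s.Ok P) : 0 ≤ P.pot C s := by
  refine add_nonneg (C.tr_nonneg (cfc_nonneg fun x hx => ?_))
    (mul_nonneg P.ν_pos.le (C.tr_nonneg h.G_nonneg))
  exact f_nonneg P.l_pos.le (spectrum_nonneg_of_nonneg (mat_nonneg hP h) hx)

theorem Psi_nonneg (hP : P.Ok C) {r : ℕ} {s : Config M X r} (hs : StateOk P s) :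
    0 ≤ P.Psi C s :=
  Finset.sum_nonneg fun c _ => pot_nonneg hP (hs.col c)

/-- A smaller weight gives a smaller potential. -/
theorem pot_mono (hP : P.Ok C) {s s' : Col M X} (hG : 0 ≤ (s.G : M)) (he : s'.G = s.G)
    (h : P.wt C s' ≤ P.wt C s) : P.pot C s' ≤ P.pot C s := by
  unfold pot
  rw [he]
  gcongr
  refine tr_f_mono (mat_isSelfAdjoint hP hG) ?_
  unfold mat
  rw [he]
  gcongr
  exact conjugate_le_conjugate_of_nonneg (C.r_mono h) hP.p_nonneg

theorem norm_pp_le (hP : P.Ok C) : ‖P.p‖ * ‖P.p‖ ≤ P.R := by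
  rw [← sq, ← (IsSelfAdjoint.of_nonneg hP.p_nonneg).norm_mul_self]
  exact Core.norm_le_of_nonneg_le (by linarith [P.one_le_R])
    ((algebraMap_nonneg M (by norm_num : (0:ℝ) ≤ 1 / 2)).trans hP.pp_ge) hP.pp_le

theorem norm_pzp_le (hP : P.Ok C) (z : M) : ‖P.p * z * P.p‖ ≤ P.R * ‖z‖ :=
  calc ‖P.p * z * P.p‖ ≤ ‖P.p‖ * ‖z‖ * ‖P.p‖ := norm_mul₃_le
    _ = ‖P.p‖ * ‖P.p‖ * ‖z‖ := by ring
    _ ≤ P.R * ‖z‖ := mul_le_mul_of_nonneg_right (norm_pp_le hP) (norm_nonneg z)

theorem n2sq_pzp_le (hP : P.Ok C) (z : M) : C.n2sq (P.p * z * P.p) ≤ P.R ^ 2 * C.n2sq z := by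
  have h1 := (C.n2sq_mul_le P.p (P.p * z)).2
  have h2 := (C.n2sq_mul_le P.p z).1
  calc C.n2sq (P.p * z * P.p) ≤ ‖P.p‖ ^ 2 * (‖P.p‖ ^ 2 * C.n2sq z) :=
        h1.trans (mul_le_mul_of_nonneg_left h2 (sq_nonneg _))
    _ = (‖P.p‖ * ‖P.p‖) ^ 2 * C.n2sq z := by ring
    _ ≤ P.R ^ 2 * C.n2sq z := mul_le_mul_of_nonneg_right
        (pow_le_pow_left₀ (mul_self_nonneg _) (norm_pp_le hP) 2) (C.n2sq_nonneg' z)

theorem tr_pzp_le (hP : P.Ok C) {z : M} (hz : 0 ≤ z) : C.tr (P.p * z * P.p) ≤ P.R * C.tr z := by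
  have h := C.tr_mul_nonneg hz (sub_nonneg.2 hP.pp_le)
  rw [mul_sub, C.tr_sub, Algebra.algebraMap_eq_smul_one, mul_smul_comm, mul_one, C.tr_smul] at h
  rw [C.tr_cycle, C.tr_comm]
  linarith

/-- Since `E (p²) ≤ 1`, compressing a function does not increase its integral. -/
theorem tr_prp_le (hP : P.Ok C) {f : C(X, ℝ)} (hf : 0 ≤ f) :
    C.tr (P.p * C.r f * P.p) ≤ C.ig f := by
  have hpp : IsSelfAdjoint (P.p * P.p) :=
    IsSelfAdjoint.of_nonneg ((algebraMap_nonneg M (by norm_num : (0:ℝ) ≤ 1 / 2)).trans hP.pp_ge)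
  rw [C.tr_cycle, C.tr_comm, C.tr_r_mul f hpp]
  refine C.ig_mono (ContinuousMap.le_def.2 fun x => ?_)
  rw [ContinuousMap.mul_apply]
  exact mul_le_of_le_one_right (ContinuousMap.le_def.1 hf x) (hP.Er_le x)

theorem Er_pp_ge (hP : P.Ok C) (x : X) : 1 / 2 ≤ C.Er (P.p * P.p) x := by
  have := ContinuousMap.le_def.1 (C.Er_mono hP.pp_ge) x
  simpa [C.Er_algebraMap] using this

theorem Er_pzp_bounds (hP : P.Ok C) {z : M} {a b : ℝ} (ha : 0 ≤ a) (hb : 0 ≤ b)
    (h1 : algebraMap ℝ M a ≤ z) (h2 : z ≤ algebraMap ℝ M b) (x : X) :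
    a / 2 ≤ C.Er (P.p * z * P.p) x ∧ C.Er (P.p * z * P.p) x ≤ b := by
  have e : ∀ t : ℝ, C.Er (P.p * algebraMap ℝ M t * P.p) x = t * C.Er (P.p * P.p) x := fun t => by
    rw [Algebra.algebraMap_eq_smul_one, mul_smul_comm, mul_one, smul_mul_assoc, C.Er_smul]
    rfl
  have l1 := ContinuousMap.le_def.1
    (C.Er_mono (conjugate_le_conjugate_of_nonneg h1 hP.p_nonneg)) x
  have l2 := ContinuousMap.le_def.1
    (C.Er_mono (conjugate_le_conjugate_of_nonneg h2 hP.p_nonneg)) x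
  rw [e] at l1 l2
  constructor
  · linarith [mul_le_mul_of_nonneg_left (Er_pp_ge hP x) ha]
  · linarith [mul_le_mul_of_nonneg_left (hP.Er_le x) hb]

theorem γ_bounds (hP : P.Ok C) {s : Col M X} (h : P.Bounded s) (x : X) :
    P.g / 2 ≤ P.γ C s x ∧ P.γ C s x ≤ P.Λ :=
  Er_pzp_bounds hP P.g_pos.le (P.g_pos.le.trans P.g_le) h.1 h.2 x

theorem γ_nonneg (hP : P.Ok C) {s : Col M X} (h : 0 ≤ (s.G : M)) : 0 ≤ P.γ C s :=
  C.gam_nonneg hP.p_nonneg h

theorem V_bounds (hP : P.Ok C) {s : Col M X} (h : 0 ≤ (s.G : M)) (x : X) :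
    P.l / 2 ≤ P.V C s x ∧ P.V C s x ≤ 3 :=
  Er_pzp_bounds hP P.l_pos.le (by norm_num)
    (algebraMap_le_cfc _ _ _ (fun t _ => le_f' P.σ_pos t) (continuous_f' P.σ_pos).continuousOn
      (mat_isSelfAdjoint hP h))
    (cfc_le_algebraMap _ _ _ (fun t _ => by linarith [f'_le (u := u4) (l := P.l) P.σ_pos t, P.l_le])
      (continuous_f' P.σ_pos).continuousOn (mat_isSelfAdjoint hP h)) x

theorem norm_cG_le (hP : P.Ok C) {s : Col M X} (h : 0 ≤ (s.G : M)) (hb : P.Bounded s) :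
    ‖P.cG s‖ ≤ P.R * P.Λ :=
  (norm_pzp_le hP _).trans (mul_le_mul_of_nonneg_left
    (Core.norm_le_of_nonneg_le (P.g_pos.le.trans P.g_le) h hb.2) (by linarith [P.one_le_R]))

end Prm

end Vale.Agent.P078.Tracial.Four
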