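import Vale.Agent.P078.Tracial.Iterate
import Vale.Agent.P078.Tracial.Clean
import Vale.Agent.P078.Tracial.DiagA

/-! A partition into `r` pieces making all rows of a compression small. -/

namespace Vale.Agent.P078.Tracial

set_option linter.unusedSectionVars false

open Filter Topology ComplexOrder

/-- Zero-one choices with a quadratic form at most its average at the density `t`. -/
theorem exists_zero_one {ι : Type*} [DecidableEq ι] (s : Finset ι) {t : ℝ} (ht1 : t ≤ 1) :
    ∀ (a : ι → ℝ) (A : ι → ι → ℝ), 0 ≤ t → ∃ σ : ι → ℝ, (∀ i, σ i = 0 ∨ σ i = 1) ∧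
      ∑ i ∈ s, σ i * a i + ∑ i ∈ s, ∑ j ∈ s, σ i * σ j * A i j ≤
        t * ∑ i ∈ s, a i + t ^ 2 * ∑ i ∈ s, ∑ j ∈ s, A i j + (t - t ^ 2) * ∑ i ∈ s, A i i := by
  induction s using Finset.induction_on with
  | empty => exact fun a A _ => ⟨fun _ => 0, fun _ => Or.inl rfl, by simp⟩
  | insert k s hk ih =>
    intro a A ht0
    obtain ⟨σ, hσ, hle⟩ := ih (fun i => a i + t * (A k i + A i k)) A ht0
    set L := a k + A k k + ∑ i ∈ s, σ i * (A k i + A i k) with hL
    obtain ⟨c, hc, hcL⟩ : ∃ c : ℝ, (c = 0 ∨ c = 1) ∧ c * L ≤ t * L := by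
      rcases le_total L 0 with h | h
      · exact ⟨1, Or.inr rfl, mul_le_mul_of_nonpos_right ht1 h⟩
      · exact ⟨0, Or.inl rfl, by rw [zero_mul]; exact mul_nonneg ht0 h⟩
    refine ⟨Function.update σ k c, fun i => ?_, ?_⟩
    · by_cases hi : i = k
      · subst hi; simpa using hc
      · simpa [Function.update_of_ne hi] using hσ i
    have he : ∀ i ∈ s, Function.update σ k c i = σ i := fun i hi =>
      Function.update_of_ne (fun h : i = k => hk (h ▸ hi)) _ _
    simp (disch := assumption) only [Finset.sum_insert, Function.update_self]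
    simp +contextual only [he]
    have hcc : c * c = c := by rcases hc with h | h <;> simp [h]
    simp only [mul_add, Finset.sum_add_distrib, mul_assoc, ← Finset.mul_sum, mul_left_comm (σ _) c,
      mul_left_comm (σ _) t] at hle hL ⊢
    rw [hL] at hcL
    linear_combination hle + hcL + A k k * hcc

variable {M X : Type*} [CStarAlgebra M] [PartialOrder M] [StarOrderedRing M]
variable [TopologicalSpace X] [CompactSpace X] [T2Space X] [TotallyDisconnectedSpace X]

namespace Core

variable (C : Core M X)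

/-- The energy of a partition. -/
noncomputable def rowEnergy (x : M) {r : ℕ} (f : Fin r → C(X, ℝ)) : ℝ :=
  ∑ c, C.ig (f c * C.K x (f c))

theorem K_sum {α : Type*} (a : M) (s : Finset α) (f : α → C(X, ℝ)) :
    C.K a (∑ i ∈ s, f i) = ∑ i ∈ s, C.K a (f i) :=
  map_sum (AddMonoidHom.mk' (C.K a) (C.K_add a)) f s

theorem IsCol.sum_apply {κ : Type*} [Fintype κ] {P : κ → C(X, ℝ)} (hP : IsCol P) (z : X) :
    ∑ i, P i z = 1 := by
  simpa using congrArg (fun f : C(X, ℝ) => f z) hP.2

theorem IsCol.apply_nonneg {κ : Type*} [Fintype κ] {P : κ → C(X, ℝ)} (hP : IsCol P) (i : κ) (z : X) :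
    0 ≤ P i z := by
  rcases hP.1 i z with h | h <;> simp [h]

theorem IsCol.sum_mul_apply {κ : Type*} [Fintype κ] {P : κ → C(X, ℝ)} (hP : IsCol P)
    (w : κ → ℝ) (z : X) : ∃ i, P i z = 1 ∧ ∑ j, P j z * w j = w i := by
  classical
  obtain ⟨i, hi⟩ : ∃ i, P i z = 1 := by
    by_contra hne
    push Not at hne
    have h0 : ∑ i, P i z = 0 :=
      Finset.sum_eq_zero fun i _ => (hP.1 i z).resolve_right (hne i)
    linarith [hP.sum_apply z]
  refine ⟨i, hi, ?_⟩
  rw [Fintype.sum_eq_single i]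
  · rw [hi, one_mul]
  · intro j hj
    have := congrArg (fun f : C(X, ℝ) => f z) (hP.mul_ne hj)
    simp [hi] at this
    simp [this]

theorem rowEnergy_add {x : M} (hx : IsSelfAdjoint x) {r : ℕ} (f d : Fin r → C(X, ℝ)) :
    C.rowEnergy x (fun c => f c + d c) = C.rowEnergy x f +
      ∑ c, (2 * C.ig (d c * C.K x (f c)) + C.ig (d c * C.K x (d c))) := by
  rw [rowEnergy, rowEnergy, ← Finset.sum_add_distrib]
  refine Finset.sum_congr rfl fun c _ => ?_
  have h : C.ig (f c * C.K x (d c)) = C.ig (d c * C.K x (f c)) := by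
    rw [C.ig_K_adjoint, hx.star_eq, mul_comm]
  rw [C.K_add]
  simp only [mul_add, add_mul, C.ig_add, h]
  ring

theorem exists_cell_choice {x : M} (hx : IsSelfAdjoint x) (hE : C.Er x = 0) {r : ℕ}
    (f d : Fin r → C(X, ℝ)) {t ε : ℝ} (ht0 : 0 ≤ t) (ht1 : t ≤ 1) (hε : 0 < ε) :
    ∃ s : C(X, ℝ), (∀ z, s z = 0 ∨ s z = 1) ∧
      C.rowEnergy x (fun c => f c + s * d c) ≤ C.rowEnergy x f +
        2 * t * ∑ c, C.ig (d c * C.K x (f c)) + t ^ 2 * ∑ c, C.ig (d c * C.K x (d c)) + ε := by
  classical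
  have hE0 : C.E x = 0 := by rw [C.E_eq_toC_Er hx, hE, toC_zero]
  have hlim : Tendsto (fun π : DiscreteQuotient X => ∑ c, ∑ i : π,
      C.tr (C.e π i * (C.r (d c) * x * C.r (d c)) * C.e π i * x)) atBot (𝓝 0) := by
    have h := tendsto_finsetSum Finset.univ fun c (_ : c ∈ (Finset.univ : Finset (Fin r))) =>
      C.tendsto_diag (C.r (d c) * x * C.r (d c)) x
    simpa [hE0, C.tr_zero] using h
  obtain ⟨π, hπ⟩ := (hlim.eventually (gt_mem_nhds hε)).exists
  set A : π → π → ℝ := fun i j =>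
    ∑ c, C.ig (cellFn π i * d c * C.K x (cellFn π j * d c)) with hA
  set a : π → ℝ := fun i => 2 * ∑ c, C.ig (cellFn π i * (d c * C.K x (f c))) with ha
  obtain ⟨σ, hσ, hle⟩ := exists_zero_one (Finset.univ : Finset π) ht1 a A ht0
  set s : C(X, ℝ) := ∑ i : π, σ i • cellFn π i with hs
  have hdiag : ∑ i, A i i ≤ ε := by
    refine le_of_eq_of_le ?_ hπ.le
    rw [Finset.sum_comm]
    refine Finset.sum_congr rfl fun c _ => Finset.sum_congr rfl fun i _ => ?_
    have hself : IsSelfAdjoint (x * C.r (cellFn π i * d c) * star x) :=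
      (C.r_isSelfAdjoint _).conjugate x
    rw [K, ← C.tr_r_mul _ hself, hx.star_eq, C.r_mul]
    show C.tr (C.e π i * C.r (d c) * (x * (C.e π i * C.r (d c)) * x)) = _
    conv_lhs => arg 2; arg 2; arg 1; arg 2; rw [e, C.r_comm]
    simp only [e, mul_assoc]
  have hsum_a : ∑ i, a i = 2 * ∑ c, C.ig (d c * C.K x (f c)) := by
    rw [ha, ← Finset.mul_sum, Finset.sum_comm]
    congr 1
    refine Finset.sum_congr rfl fun c _ => ?_
    rw [← C.ig_sum, ← Finset.sum_mul, sum_cellFn, one_mul]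
  have hsum_A : ∑ i, ∑ j, A i j = ∑ c, C.ig (d c * C.K x (d c)) := by
    rw [Finset.sum_congr rfl fun i _ => Finset.sum_comm, Finset.sum_comm]
    refine Finset.sum_congr rfl fun c _ => ?_
    simp only [← C.ig_sum, ← Finset.mul_sum, ← C.K_sum, ← Finset.sum_mul, sum_cellFn, one_mul]
  refine ⟨s, fun z => ?_, ?_⟩
  · have : s z = σ (π.proj z) := by simp [hs, cellFn_apply]
    rw [this]
    exact hσ _
  rw [C.rowEnergy_add hx, Finset.sum_add_distrib]
  have e1 : ∑ c, 2 * C.ig (s * d c * C.K x (f c)) = ∑ i, σ i * a i := by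
    simp only [ha, hs, Finset.sum_mul, C.ig_sum, smul_mul_assoc, C.ig_smul, Finset.mul_sum]
    rw [Finset.sum_comm]
    exact Finset.sum_congr rfl fun i _ => Finset.sum_congr rfl fun c _ => by
      rw [mul_assoc (cellFn π i)]; ring
  have e2 : ∑ c, C.ig (s * d c * C.K x (s * d c)) = ∑ i, ∑ j, σ i * σ j * A i j := by
    have hsd : ∀ c, s * d c = ∑ i : π, σ i • (cellFn π i * d c) := fun c => by
      simp only [hs, Finset.sum_mul, smul_mul_assoc]
    calc ∑ c, C.ig (s * d c * C.K x (s * d c))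
        = ∑ c, ∑ i, ∑ j, σ i * σ j * C.ig (cellFn π i * d c * C.K x (cellFn π j * d c)) := by
          refine Finset.sum_congr rfl fun c _ => ?_
          rw [hsd c, C.K_sum, Finset.sum_mul, C.ig_sum]
          refine Finset.sum_congr rfl fun i _ => ?_
          rw [smul_mul_assoc, C.ig_smul, Finset.mul_sum, C.ig_sum, Finset.mul_sum]
          refine Finset.sum_congr rfl fun j _ => ?_
          rw [C.K_smul, mul_smul_comm, C.ig_smul, ← mul_assoc (σ i)]
      _ = _ := by
          rw [Finset.sum_comm]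
          refine Finset.sum_congr rfl fun i _ => ?_
          rw [Finset.sum_comm]
          exact Finset.sum_congr rfl fun j _ => by simp only [hA, Finset.mul_sum]
  rw [e1, e2]
  rw [hsum_a, hsum_A] at hle
  nlinarith [hle, mul_le_mul_of_nonneg_left hdiag (by nlinarith : (0:ℝ) ≤ t - t ^ 2), hε.le,
    mul_nonneg hε.le (sq_nonneg t), mul_le_mul_of_nonneg_left ht1 hε.le]

theorem sum_ig_K_diff_le {x : M} (hx : IsSelfAdjoint x) (hx1 : ∀ z, C.Er (x * x) z ≤ 1)
    {r : ℕ} (d : Fin r → C(X, ℝ)) (b : C(X, ℝ)) (hd1 : ∀ c z, |d c z| ≤ 1)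
    (hd : ∀ z, ∑ c, |d c z| ≤ 2 * b z) :
    ∑ c, C.ig (d c * C.K x (d c)) ≤ 2 * C.ig b := by
  set D : Fin r → C(X, ℝ) := fun c => ⟨fun z => |d c z|, by fun_prop⟩ with hD
  have h1 : ∀ c, C.ig (d c * C.K x (d c)) ≤ C.ig (D c) := fun c => by
    refine C.ig_mono (ContinuousMap.le_def.2 fun z => ?_)
    have ha : C.K x (d c) ≤ C.K x 1 :=
      C.K_mono x (ContinuousMap.le_def.2 fun w => (abs_le.1 (hd1 c w)).2)
    have hb : C.K x (-1 : C(X, ℝ)) ≤ C.K x (d c) :=
      C.K_mono x (ContinuousMap.le_def.2 fun w => (abs_le.1 (hd1 c w)).1)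
    have hk : C.K x 1 z ≤ 1 := by simpa [K, C.r_one, hx.star_eq] using hx1 z
    have hn : C.K x (-1 : C(X, ℝ)) z = -C.K x 1 z := by
      simp [K, C.r_neg, C.r_one, C.Er_neg]
    have ha' := ContinuousMap.le_def.1 ha z
    have hb' := ContinuousMap.le_def.1 hb z
    rw [hn] at hb'
    calc d c z * C.K x (d c) z ≤ |d c z * C.K x (d c) z| := le_abs_self _
      _ = |d c z| * |C.K x (d c) z| := abs_mul _ _
      _ ≤ |d c z| := mul_le_of_le_one_right (abs_nonneg _) (abs_le.2 ⟨by linarith, by linarith⟩)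
  refine (Finset.sum_le_sum fun c _ => h1 c).trans ?_
  rw [← C.ig_sum, ← C.ig_smul]
  exact C.ig_mono (ContinuousMap.le_def.2 fun z => by simpa [hD] using hd z)

theorem Er_spinch_sq {x : M} (hx : IsSelfAdjoint x) {κ : Type*} [Fintype κ] {f : κ → C(X, ℝ)}
    (hf : IsCol f) :
    C.Er (C.spinch f x * C.spinch f x) = ∑ c, f c * C.K x (f c) := by
  classical
  have h1 : C.spinch f x * C.spinch f x =
      ∑ c, C.r (f c) * (x * C.r (f c) * star x) * C.r (f c) := by
    rw [spinch, Finset.sum_mul]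
    refine Finset.sum_congr rfl fun i _ => ?_
    rw [Finset.mul_sum, Finset.sum_eq_single i]
    · rw [show C.r (f i) * x * C.r (f i) * (C.r (f i) * x * C.r (f i)) =
        C.r (f i) * x * (C.r (f i) * C.r (f i)) * x * C.r (f i) by simp only [mul_assoc],
        ← C.r_mul, hf.mul_self, hx.star_eq]
      simp only [mul_assoc]
    · intro j _ hj
      rw [show C.r (f i) * x * C.r (f i) * (C.r (f j) * x * C.r (f j)) =
        C.r (f i) * x * (C.r (f i) * C.r (f j)) * x * C.r (f j) by simp only [mul_assoc],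
        ← C.r_mul, hf.mul_ne (Ne.symm hj), C.r_zero]
      simp
    · simp
  rw [h1, C.Er_sum]
  refine Finset.sum_congr rfl fun c _ => ?_
  rw [C.Er_bimod, K, mul_right_comm, hf.mul_self]

theorem exists_rowSplit {x : M} (hx : IsSelfAdjoint x) (hx1 : ‖x‖ ≤ 1) (hE : C.Er x = 0)
    {r : ℕ} (hr : 0 < r) {δ : ℝ} (hδ : 0 < δ) :
    ∃ (f : Fin r → C(X, ℝ)) (y : M), IsCol f ∧ IsSelfAdjoint y ∧ ‖y‖ ≤ 1 ∧
      (∀ t, C.Er (y * y) t ≤ 2 / r) ∧ C.n2sq (C.spinch f x - y) ≤ δ := by
  classical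
  have hr1 : (1 : ℝ) ≤ r := by exact_mod_cast hr
  have hxx : ∀ z, C.Er (x * x) z ≤ 1 := fun z => by
    have h := C.norm_Er_le (IsSelfAdjoint.mul_self_nonneg hx).isSelfAdjoint
    refine ((abs_le.1 ((C.Er (x * x)).norm_coe_le_norm z)).2.trans h).trans ?_
    exact (norm_mul_le x x).trans (mul_le_one₀ hx1 (norm_nonneg x) hx1)
  set ε : ℝ := δ / (4 * (128 * r ^ 2)) with hεdef
  have hε : 0 < ε := by positivity
  obtain ⟨f, hf, hfmin⟩ : ∃ f : Fin r → C(X, ℝ), IsCol f ∧
      ∀ f' : Fin r → C(X, ℝ), IsCol f' → C.rowEnergy x f ≤ C.rowEnergy x f' + ε := by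
    set V := {v : ℝ | ∃ g : Fin r → C(X, ℝ), IsCol g ∧ C.rowEnergy x g = v}
    have hne : V.Nonempty := by
      refine ⟨_, fun c => if c = ⟨0, hr⟩ then 1 else 0, ⟨fun c z => ?_, ?_⟩, rfl⟩
      · by_cases hc : c = ⟨0, hr⟩ <;> simp [hc]
      · simp
    have hbd : BddBelow V := ⟨0, by
      rintro v ⟨g, hg, rfl⟩
      refine Finset.sum_nonneg fun c _ => C.ig_nonneg ?_
      have h0 : (0 : C(X, ℝ)) ≤ g c := ContinuousMap.le_def.2 fun z => hg.apply_nonneg c z
      exact ContinuousMap.le_def.2 fun z => mul_nonneg (hg.apply_nonneg c z)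
        (ContinuousMap.le_def.1 (C.K_nonneg x h0) z)⟩
    obtain ⟨v, ⟨g, hg, rfl⟩, hv⟩ := exists_lt_of_csInf_lt hne (lt_add_of_pos_right (sInf V) hε)
    exact ⟨g, hg, fun g' hg' => by linarith [csInf_le hbd ⟨g', hg', rfl⟩]⟩
  set u : Fin r → C(X, ℝ) := fun c => C.K x (f c) with hu
  set h : C(X, ℝ) := ∑ c, f c * u c with hh
  have husum : ∀ z, ∑ c, u c z ≤ 1 := fun z => by
    have e : ∑ c, u c = C.Er (x * x) := by
      rw [hu, ← C.K_sum, hf.2, K, C.r_one, mul_one, hx.star_eq]
    simpa [← e] using hxx z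
  obtain ⟨B, hB, hBge, hBle⟩ := exists_clopen_of_closed_subset_open
    (isClosed_le (continuous_const (y := 2 / (r : ℝ))) h.continuous)
    (isOpen_lt (continuous_const (y := 3 / (2 * (r : ℝ)))) h.continuous)
    fun z (hz : 2 / (r : ℝ) ≤ h z) => show 3 / (2 * (r : ℝ)) < h z from
      lt_of_lt_of_le (by rw [div_lt_div_iff₀] <;> linarith) hz
  have hcl : ∀ c, ∃ V : Set X, IsClopen V ∧ {z | u c z ≤ 1 / r} ⊆ V ∧
      V ⊆ {z | u c z < 5 / (4 * r)} := fun c =>
    exists_clopen_of_closed_subset_open (isClosed_le (u c).continuous continuous_const)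
      (isOpen_lt (u c).continuous continuous_const) fun z (hz : u c z ≤ 1 / r) =>
        show u c z < 5 / (4 * r) from
          lt_of_le_of_lt hz (by rw [div_lt_div_iff₀] <;> linarith)
  choose S hS hSge hSle using hcl
  obtain ⟨e, he01, heS, hesum⟩ := exists_disjointify S hS
  have he : IsCol e := by
    refine ⟨he01, ?_⟩
    ext z
    rcases hesum z with ⟨-, hn⟩ | h1
    · exfalso
      have hlt : ∀ c, 1 / (r : ℝ) < u c z := fun c => not_le.1 fun hle => hn c (hSge c hle)
      have := Finset.sum_lt_sum_of_nonempty (s := Finset.univ) ⟨⟨0, hr⟩, Finset.mem_univ _⟩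
        fun c _ => hlt c
      simp [hr.ne'] at this
      linarith [husum z]
    · simpa using h1
  set b : C(X, ℝ) := ind B hB with hb
  set d : Fin r → C(X, ℝ) := fun c => (e c - f c) * b with hd
  have hb01 : ∀ z, b z = 0 ∨ b z = 1 := fun z => by simp only [hb, ind_apply]; split_ifs <;> simp
  have hfirst : ∑ c, C.ig (d c * u c) ≤ -(1 / (4 * r)) * C.ig b := by
    rw [← C.ig_sum, ← C.ig_smul]
    refine C.ig_mono (ContinuousMap.le_def.2 fun z => ?_)
    by_cases hz : z ∈ B
    · obtain ⟨i, hi, hei⟩ := he.sum_mul_apply (fun c => u c z) z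
      have hlt : u i z < 5 / (4 * r) := hSle i (heS i z hi)
      have hge : 3 / (2 * (r : ℝ)) < h z := hBle hz
      have hh' : h z = ∑ c, f c z * u c z := by simp [hh]
      simp only [hd, hb, ContinuousMap.coe_sum, Finset.sum_apply, ContinuousMap.mul_apply,
        ContinuousMap.sub_apply, ind_mem hB hz, mul_one, sub_mul, Finset.sum_sub_distrib,
        ContinuousMap.smul_apply, smul_eq_mul]
      rw [hei, ← hh']
      have e5 : (5 : ℝ) / (4 * r) = 3 / (2 * r) - 1 / (4 * r) := by field_simp; norm_num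
      linarith
    · simp [hd, hb, ind_notMem hB hz]
  have hd1 : ∀ c z, |d c z| ≤ 1 := fun c z => by
    rcases he01 c z with h1 | h1 <;> rcases hf.1 c z with h2 | h2 <;>
      rcases hb01 z with h3 | h3 <;> simp [hd, h1, h2, h3]
  have hd2 : ∀ z, ∑ c, |d c z| ≤ 2 * b z := fun z => by
    have hb0 : 0 ≤ b z := by rcases hb01 z with h3 | h3 <;> simp [h3]
    calc ∑ c, |d c z| ≤ ∑ c, (e c z + f c z) * b z := by
          refine Finset.sum_le_sum fun c _ => ?_
          simp only [hd, ContinuousMap.mul_apply, ContinuousMap.sub_apply, abs_mul, abs_of_nonneg hb0]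
          refine mul_le_mul_of_nonneg_right ?_ hb0
          rw [abs_le]
          constructor <;> linarith [he.apply_nonneg c z, hf.apply_nonneg c z]
      _ = 2 * b z := by
          rw [← Finset.sum_mul, Finset.sum_add_distrib, he.sum_apply, hf.sum_apply]
          norm_num
  set t : ℝ := 1 / (16 * r) with ht
  have ht0 : 0 < t := by positivity
  have ht1 : t ≤ 1 := by rw [ht, div_le_one] <;> linarith
  obtain ⟨s, hs01, hsle⟩ := C.exists_cell_choice hx hE f d ht0.le ht1 hε
  have hf' : IsCol (fun c => f c + s * d c) := by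
    refine ⟨fun c z => ?_, ?_⟩
    · rcases hs01 z with h0 | h0 <;> rcases hb01 z with h3 | h3
      all_goals simp [hd, h0, h3]
      all_goals first | exact hf.1 c z | exact he01 c z
    · simp only [hd, Finset.sum_add_distrib, ← Finset.mul_sum, ← Finset.sum_mul,
        Finset.sum_sub_distrib, he.2, hf.2, sub_self, zero_mul, mul_zero, add_zero]
  have hmin := hfmin _ hf'
  have hsec := C.sum_ig_K_diff_le hx hxx d b hd1 hd2
  have hbsmall : C.ig b ≤ δ / 4 := by
    have h1 : 2 * t * (1 / (4 * (r : ℝ))) * C.ig b - t ^ 2 * (2 * C.ig b) ≤ 2 * ε := by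
      have h1 := mul_le_mul_of_nonneg_left hfirst (by positivity : (0:ℝ) ≤ 2 * t)
      have h2 := mul_le_mul_of_nonneg_left hsec (sq_nonneg t)
      simp only [hu] at h1
      linarith
    rw [ht] at h1
    have e6 : (δ : ℝ) / 4 = 128 * (r : ℝ) ^ 2 * ε := by rw [hεdef]; field_simp
    rw [e6]
    field_simp at h1
    nlinarith [h1, hε.le]
  set g : C(X, ℝ) := 1 - b with hg
  have hg01 : ∀ z, g z = 0 ∨ g z = 1 := fun z => by
    rcases hb01 z with h3 | h3 <;> simp [hg, h3]
  have hgg : g * g = g := by ext z; rcases hg01 z with h0 | h0 <;> simp [h0]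
  have hg1 : ‖C.r g‖ ≤ 1 := (C.norm_r_le g).trans <| (ContinuousMap.norm_le _ zero_le_one).2
    fun z => by rcases hg01 z with h0 | h0 <;> simp [h0]
  set W := C.spinch f x with hW
  have hWs : IsSelfAdjoint W := C.spinch_isSelfAdjoint f hx
  have hW1 : ‖W‖ ≤ 1 := (C.norm_spinch_le hf hx).trans hx1
  refine ⟨f, C.r g * W * C.r g, hf,
    by simpa [C.star_r] using hWs.conjugate (C.r g), ?_, fun z => ?_, ?_⟩
  · exact norm_mul₃_le.trans (mul_le_one₀ (mul_le_one₀ hg1 (norm_nonneg _) hW1) (norm_nonneg _) hg1)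
  · have e1 : C.r g * W * C.r g * (C.r g * W * C.r g) = C.r g * (W * C.r g * W) * C.r g := by
      rw [show C.r g * W * C.r g * (C.r g * W * C.r g)
        = C.r g * W * (C.r g * C.r g) * W * C.r g by simp only [mul_assoc], ← C.r_mul, hgg]
      simp only [mul_assoc]
    have hle : W * C.r g * W ≤ W * W := by
      have h1 : C.r g ≤ 1 := by
        rw [← C.r_one]
        exact C.r_mono (ContinuousMap.le_def.2 fun z => by
          rcases hg01 z with h0 | h0 <;> simp [h0])
      have := star_left_conjugate_le_conjugate h1 W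
      simpa [hWs.star_eq] using this
    have h2 : C.r g * (W * C.r g * W) * C.r g ≤ C.r g * (W * W) * C.r g := by
      have := star_left_conjugate_le_conjugate hle (C.r g)
      simpa [C.star_r] using this
    rw [e1]
    refine (ContinuousMap.le_def.1 (C.Er_mono h2) z).trans ?_
    rw [C.Er_bimod, C.Er_spinch_sq hx hf]
    show g z * h z * g z ≤ _
    by_cases hz : z ∈ B
    · simp [hg, hb, ind_mem hB hz]
      positivity
    · have hlt : h z < 2 / r := not_le.1 fun hle' => hz (hBge hle')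
      simpa [hg, hb, ind_notMem hB hz] using hlt.le
  · have e2 : W - C.r g * W * C.r g = C.r b * W + C.r g * (W * C.r b) := by
      have hbg : C.r b = 1 - C.r g := by rw [hg, C.r_sub, C.r_one]; abel
      rw [hbg]
      simp only [sub_mul, mul_sub, one_mul, mul_one, mul_assoc]
      abel
    have hn : C.n2sq (C.r b) = C.ig b := by
      rw [n2sq, C.star_r, ← C.r_mul, ig]
      congr 2
      ext z; rcases hb01 z with h3 | h3 <;> simp [h3]
    have hb0 : 0 ≤ C.ig b := hn ▸ C.n2sq_nonneg' _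
    have h1 : C.n2sq (C.r b * W) ≤ C.ig b := hn ▸ (C.n2sq_mul_le W (C.r b)).2.trans
      (mul_le_of_le_one_left (C.n2sq_nonneg' _) (pow_le_one₀ (norm_nonneg _) hW1))
    have h2 : C.n2sq (C.r g * (W * C.r b)) ≤ C.ig b := by
      refine (C.n2sq_mul_le (C.r g) _).1.trans
        ((mul_le_of_le_one_left (C.n2sq_nonneg' _) (pow_le_one₀ (norm_nonneg _) hg1)).trans ?_)
      exact hn ▸ (C.n2sq_mul_le W (C.r b)).1.trans
        (mul_le_of_le_one_left (C.n2sq_nonneg' _) (pow_le_one₀ (norm_nonneg _) hW1))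
    rw [e2]
    refine (C.n2sq_add_le_two _ _).trans ?_
    linarith

end Core

end Vale.Agent.P078.Tracial
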