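import Vale.Agent.P078.Tracial.Four.Start
import Vale.Agent.P078.Tracial.Four.RowSplit
import Vale.Agent.P078.Tracial.Semifinite

/-! Quartically many pieces suffice. -/

namespace Vale.Agent.P078.Tracial.Four

set_option linter.unusedSectionVars false

open Filter Topology ComplexOrder

theorem sq_clip_le {c s : ℝ} (hc : 0 ≤ c) :
    (s - max (-c) (min s c)) ^ 2 ≤ max (s ^ 2 - c ^ 2) 0 := by
  rcases le_total s (-c) with h | h
  · rw [min_eq_left (by linarith), max_eq_left h]
    refine le_trans ?_ (le_max_left _ _)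
    nlinarith
  · rcases le_total s c with h' | h'
    · rw [min_eq_left h', max_eq_right h]
      simp
    · rw [min_eq_right h', max_eq_right (by linarith)]
      refine le_trans ?_ (le_max_left _ _)
      nlinarith

section

variable {M X : Type*} [CStarAlgebra M] [PartialOrder M] [StarOrderedRing M]
variable [TopologicalSpace X] [CompactSpace X] [T2Space X] [TotallyDisconnectedSpace X]

/-- A self-adjoint element whose square is almost below `c²` is almost of norm at most `c`. -/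
theorem exists_clip_of_sq (C : Core M X) {S Z : M} (hS : IsSelfAdjoint S) (hZ : IsSelfAdjoint Z)
    {c : ℝ} (hc : 0 ≤ c) (h : S * S ≤ algebraMap ℝ M (c ^ 2) + Z) :
    ∃ z, IsSelfAdjoint z ∧ ‖z‖ ≤ c ∧ C.n2sq (S - z) ≤ √(C.n2sq Z) := by
  refine ⟨cfc (fun t : ℝ => max (-c) (min t c)) S, cfc_predicate (R := ℝ) _ S, ?_, ?_⟩
  · refine norm_cfc_le hc fun t _ => ?_
    rw [Real.norm_eq_abs, abs_le]
    exact ⟨le_max_left _ _, max_le (by linarith) (min_le_right _ _)⟩
  set F : ℝ → ℝ := fun t => max (t - c ^ 2) 0 with hF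
  have hSS : cfc F (S * S) = cfc (fun t => F (t ^ 2)) S := by
    rw [cfc_comp_pow F 2 S, sq]
  have e : star (S - cfc (fun t : ℝ => max (-c) (min t c)) S)
      * (S - cfc (fun t : ℝ => max (-c) (min t c)) S)
      ≤ cfc F (S * S) := by
    have e1 : S - cfc (fun t : ℝ => max (-c) (min t c)) S
        = cfc (fun t : ℝ => t - max (-c) (min t c)) S := by
      rw [cfc_sub (fun t : ℝ => t) (fun t => max (-c) (min t c)) S, cfc_id' ℝ S]
    rw [e1, (IsSelfAdjoint.cfc).star_eq, ← cfc_mul _ _ S, hSS]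
    refine cfc_mono fun t _ => ?_
    simp only [hF, ← sq]
    exact sq_clip_le hc
  refine (C.tr_mono e).trans ?_
  have hS2 : IsSelfAdjoint (S * S) := by
    rw [IsSelfAdjoint, star_mul, hS.star_eq]
  have h2 : C.n2sq (cfc F (S * S)) ≤ C.n2sq Z :=
    C.n2sq_posPart_le hS2 (B := S * S - Z) (by rwa [sub_le_iff_le_add]) (hS2.sub hZ)
      |>.trans_eq (by rw [sub_sub_cancel])
  have h3 := C.abs_tr_mul_le (cfc F (S * S)) 1
  rw [mul_one, show C.n2sq (1 : M) = 1 by simp [Core.n2sq, C.tr_one], Real.sqrt_one, mul_one] at h3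
  exact ((le_abs_self _).trans h3).trans (Real.sqrt_le_sqrt h2)

/-- Conjugating by the pieces of a partition and squaring. -/
theorem spinch_sq_le (C : Core M X) {κ : Type*} [Fintype κ] {e : κ → C(X, ℝ)}
    (he : Core.IsCol e) {y : M} (hy : IsSelfAdjoint y) :
    C.spinch e y * C.spinch e y ≤ C.spinch e (y * y) := by
  classical
  have hp : ∀ i, C.r (e i) * C.r (e i) = C.r (e i) := fun i => by rw [← C.r_mul, he.mul_self]
  have h1 : C.spinch e y * C.spinch e y
      = ∑ i, C.r (e i) * (y * C.r (e i) * y) * C.r (e i) := by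
    rw [Core.spinch, Finset.sum_mul]
    refine Finset.sum_congr rfl fun i _ => ?_
    rw [Finset.mul_sum, Finset.sum_eq_single i]
    · rw [show C.r (e i) * y * C.r (e i) * (C.r (e i) * y * C.r (e i)) =
        C.r (e i) * y * (C.r (e i) * C.r (e i)) * y * C.r (e i) by simp only [mul_assoc], hp]
      simp only [mul_assoc]
    · intro j _ hj
      rw [show C.r (e i) * y * C.r (e i) * (C.r (e j) * y * C.r (e j)) =
        C.r (e i) * y * (C.r (e i) * C.r (e j)) * y * C.r (e j) by simp only [mul_assoc],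
        ← C.r_mul, he.mul_ne (Ne.symm hj), C.r_zero]
      simp
    · simp
  rw [h1]
  refine Finset.sum_le_sum fun i _ => ?_
  have h2 : y * C.r (e i) * y ≤ y * y := by
    have h3 : C.r (e i) ≤ 1 := C.r_comp_le_one fun t => by rcases he.1 i t with h | h <;> simp [h]
    have := star_left_conjugate_le_conjugate h3 y
    rwa [hy.star_eq, mul_one] at this
  have := star_left_conjugate_le_conjugate h2 (C.r (e i))
  rwa [C.star_r] at this

end

theorem pavingConclusion_quartic.{u, v} {ε : ℝ} (hε : 0 < ε) {r : ℕ} (hr : 0 < r)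
    (h : 320 ≤ r * ε ^ 2) : PavingConclusion.{u, v} ε (r * (15 * r)) := by
  intro M X _ _ _ _ _ _ _ C x hx hx1 δ hδ
  have hrR : (1 : ℝ) ≤ r := Nat.one_le_cast.2 hr
  have hr0 : (0 : ℝ) < r := by linarith
  set x' := (1 / 2 : ℝ) • (x - C.r (C.Er x)) with hx'
  have hx's : IsSelfAdjoint x' :=
    (IsSelfAdjoint.all _).smul (hx.sub (C.r_isSelfAdjoint _))
  have hx'1 : ‖x'‖ ≤ 1 := by
    rw [hx', norm_smul]
    have := norm_sub_le x (C.r (C.Er x))
    have := (C.norm_r_le (C.Er x)).trans (C.norm_Er_le hx)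
    norm_num
    linarith
  have hE : C.Er x' = 0 := by
    rw [hx', C.Er_smul, C.Er_sub, C.Er_r, sub_self, smul_zero]
  obtain ⟨f, y, hf, hys, hy1, hrow, hfy⟩ :=
    C.exists_rowSplit hx's hx'1 hE hr (δ := δ / 16) (by positivity)
  set X0 := ((r : ℝ) / 4) • (y * y) + algebraMap ℝ M (1 / 2) with hX0
  have hyy : 0 ≤ y * y := by
    have := star_mul_self_nonneg y
    rwa [hys.star_eq] at this
  have hlo : algebraMap ℝ M (1 / 2) ≤ X0 :=
    le_add_of_nonneg_left (smul_nonneg (by positivity) hyy)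
  have hhi : X0 ≤ algebraMap ℝ M r := by
    have h1 : y * y ≤ 1 := by
      refine (CStarAlgebra.norm_le_one_iff_of_nonneg (y * y) hyy).1 ?_
      exact (norm_mul_le _ _).trans (mul_le_one₀ hy1 (norm_nonneg _) hy1)
    rw [hX0]
    refine (add_le_add (smul_le_smul_of_nonneg_left h1 (by positivity)) le_rfl).trans ?_
    rw [Algebra.algebraMap_eq_smul_one, Algebra.algebraMap_eq_smul_one, ← add_smul]
    exact smul_le_smul_of_nonneg_right (by linarith) zero_le_one
  have hE0 : ∀ t, C.Er X0 t ≤ 1 := fun t => by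
    have h2 := mul_le_mul_of_nonneg_left (hrow t) (show (0:ℝ) ≤ r / 4 by positivity)
    have h3 : (r : ℝ) / 4 * (2 / r) = 1 / 2 := by field_simp; ring
    rw [hX0, C.Er_add, C.Er_smul, C.Er_algebraMap]
    simp only [ContinuousMap.add_apply, ContinuousMap.smul_apply, smul_eq_mul,
      ContinuousMap.const_apply]
    linarith
  obtain ⟨e, Z, he, hZ, hle, hn2⟩ := exists_sparse C (n := 15 * r) hrR hlo hhi hE0
    (by push_cast; exact le_rfl) (δ := (δ / 16 * (r / 4)) ^ 2) (by positivity)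
  set S := C.spinch e y with hS
  have hSs : IsSelfAdjoint S := C.spinch_isSelfAdjoint e hys
  set c := √(80 / r) with hc
  have hsq : S * S ≤ algebraMap ℝ M (c ^ 2) + (4 / r : ℝ) • Z := by
    refine (spinch_sq_le C he hys).trans ?_
    have e1 : y * y = (4 / r : ℝ) • (X0 - algebraMap ℝ M (1 / 2)) := by
      rw [hX0, add_sub_cancel_right, smul_smul]
      rw [show (4 / r : ℝ) * (r / 4) = 1 by field_simp, one_smul]
    rw [e1, C.spinch_smul, C.spinch_sub, ← C.r_const, C.spinch_r he, C.r_const,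
      Real.sq_sqrt (by positivity)]
    have h1 : C.spinch e X0 - algebraMap ℝ M (1 / 2) ≤ algebraMap ℝ M 20 + Z :=
      (sub_le_self _ (algebraMap_nonneg M (by norm_num))).trans hle
    refine (smul_le_smul_of_nonneg_left h1 (by positivity)).trans_eq ?_
    rw [smul_add, Algebra.algebraMap_eq_smul_one, Algebra.algebraMap_eq_smul_one, smul_smul,
      show (4 / r : ℝ) * 20 = 80 / r by ring]
  obtain ⟨z, hzs, hz, hSz⟩ := exists_clip_of_sq C hSs
    ((IsSelfAdjoint.all _).smul (IsSelfAdjoint.of_nonneg hZ)) (Real.sqrt_nonneg _) hsq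
  have hSz' : C.n2sq (S - z) ≤ δ / 16 := by
    refine hSz.trans ?_
    rw [C.n2sq_real_smul, Real.sqrt_mul (sq_nonneg _), Real.sqrt_sq (by positivity)]
    calc 4 / (r : ℝ) * √(C.n2sq Z) ≤ 4 / r * √((δ / 16 * (r / 4)) ^ 2) :=
          mul_le_mul_of_nonneg_left (Real.sqrt_le_sqrt hn2) (by positivity)
      _ = δ / 16 := by rw [Real.sqrt_sq (by positivity)]; field_simp
  let eqv : Fin (r * (15 * r)) ≃ Fin (15 * r) × Fin r :=
    (finCongr (mul_comm r (15 * r))).trans finProdFinEquiv.symm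
  refine ⟨(fun q => e q.1 * f q.2) ∘ eqv, (2 : ℝ) • z, ((he.prod hf).comp_equiv eqv).1,
    ((he.prod hf).comp_equiv eqv).2, (IsSelfAdjoint.all _).smul hzs, ?_, ?_⟩
  · rw [norm_smul, Real.norm_two]
    have h1 : (2 * c) ^ 2 ≤ ε ^ 2 := by
      rw [mul_pow, Real.sq_sqrt (by positivity), ← mul_div_assoc, div_le_iff₀ hr0]
      linarith
    have h2 := (sq_le_sq₀ (by positivity) hε.le).1 h1
    linarith
  · change C.n2sq (C.spinch ((fun q => e q.1 * f q.2) ∘ eqv) x - C.r (C.Er x) - (2 : ℝ) • z) ≤ δ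
    rw [C.spinch_comp_equiv, C.spinch_prod]
    have key : C.spinch e (C.spinch f x) - C.r (C.Er x) - (2 : ℝ) • z
        = (2 : ℝ) • (C.spinch e (C.spinch f x' - y) + (S - z)) := by
      rw [hx', hS, C.spinch_sub e _ y, C.spinch_smul, C.spinch_sub, C.spinch_r hf,
        C.spinch_smul, C.spinch_sub, C.spinch_r he]
      module
    rw [key, C.n2sq_real_smul]
    have h1 := C.n2sq_add_le_two (C.spinch e (C.spinch f x' - y)) (S - z)
    have h2 := C.n2sq_spinch_le he ((C.spinch_isSelfAdjoint f hx's).sub hys)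
    linarith

/-- Quartically many pieces so-pave every self-adjoint element over every masa of every von
Neumann algebra with a faithful normal semifinite trace, given by vectors. -/
theorem soPavableIn_semifinite_quartic :
    ∃ C : ℝ, 0 < C ∧ ∀ ε : ℝ, 0 < ε → ε ≤ 1 → ∃ n : ℕ, (n : ℝ) ≤ C * (1 / ε) ^ 4 ∧
      ∀ (H : Type) [NormedAddCommGroup H] [InnerProductSpace ℂ H] [CompleteSpace H]
        (M : VonNeumannAlgebra H) (A : StarSubalgebra ℂ (H →L[ℂ] H)),
        (∀ a ∈ A, a ∈ M) → (∀ x ∈ M, (∀ a ∈ A, a * x = x * a) → x ∈ A) →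
        (∀ a ∈ A, ∀ b ∈ A, a * b = b * a) →
        ∀ (I : Type) (ξ : I → H), SemifiniteTrace M ξ →
        ∀ x ∈ M, IsSelfAdjoint x → SoPavableIn M A x ε n := by
  refine ⟨15 * 1281 ^ 2 + 2, by norm_num, fun ε hε hε1 => ?_⟩
  set r := ⌈1280 / ε ^ 2⌉₊ with hr
  have hr0 : 0 < r := Nat.ceil_pos.2 (by positivity)
  have hh : 320 ≤ (r : ℝ) * (ε / 2) ^ 2 := by
    have : 1280 / ε ^ 2 ≤ (r : ℝ) := Nat.le_ceil _
    rw [div_le_iff₀ (by positivity)] at this
    linarith
  refine ⟨r * (15 * r) + (⌊1 / ε⌋₊ + 1), ?_, fun H _ _ _ M A h1 h2 h3 I ξ hτ x hx hxs =>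
    soPavableIn_of_paving_semifinite M A h1 h2 h3 hτ hε
      (pavingConclusion_quartic (by positivity) hr0 hh) hx hxs⟩
  set a := 1 / ε with ha
  have he : 1 ≤ a := one_le_one_div hε hε1
  have h1 : (⌊a⌋₊ : ℝ) ≤ a := Nat.floor_le (by linarith)
  have h2 : (r : ℝ) ≤ 1281 * a ^ 2 := by
    have h3 : (r : ℝ) < 1280 / ε ^ 2 + 1 := Nat.ceil_lt_add_one (by positivity)
    have h4 : 1280 / ε ^ 2 = 1280 * a ^ 2 := by rw [ha]; field_simp
    have h5 : 1 ≤ a ^ 2 := one_le_pow₀ he
    linarith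
  have h6 : (r : ℝ) ^ 2 ≤ 1281 ^ 2 * a ^ 4 := by
    have := pow_le_pow_left₀ (Nat.cast_nonneg r) h2 2
    linarith [show (1281 * a ^ 2) ^ 2 = 1281 ^ 2 * a ^ 4 by ring]
  have h7 : a ≤ a ^ 4 := le_self_pow₀ he (by norm_num)
  push_cast
  linarith

end Vale.Agent.P078.Tracial.Four
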