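import Vale.Agent.P078.Tracial.Four.Step
import Vale.Agent.P078.Tracial.Start
import Vale.Agent.P078.Tracial.Iterate

/-! The paving of a positive element with small diagonal into few pieces. -/

namespace Vale.Agent.P078.Tracial.Four

set_option linter.unusedSectionVars false

open Filter Topology ComplexOrder
open Scalar (f f' continuous_f f_le_of_le f_ge_posPart)

variable {M X : Type*} [CStarAlgebra M] [PartialOrder M] [StarOrderedRing M]
variable [TopologicalSpace X] [CompactSpace X] [T2Space X] [TotallyDisconnectedSpace X]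
variable {C : Core M X} {P : Prm M} {n : ℕ}

/-- The scalar unit `1 / 18`. -/
noncomputable def G4 (M : Type*) [CStarAlgebra M] : Mˣ :=
  Units.map (algebraMap ℝ M).toMonoidHom (Units.mk0 (1 / 18 : ℝ) (by norm_num))

@[simp] theorem G4_val : (G4 M : M) = algebraMap ℝ M (1 / 18) := rfl

@[simp] theorem G4_inv : (↑(G4 M)⁻¹ : M) = algebraMap ℝ M 18 := by simp [G4]

/-- The initial state. -/
noncomputable def start4 (M X : Type*) [CStarAlgebra M] [TopologicalSpace X] (n : ℕ) :
    Config M X n :=
  ⟨fun _ => 0, fun _ => 1, fun _ => ContinuousMap.const X (4 / n : ℝ), fun _ => G4 M⟩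

theorem start4_ok (hn : 0 < n) : StateOk P (start4 M X n) where
  ass_01 _ _ := Or.inl rfl
  act_01 _ _ := Or.inr rfl
  U_01 x := Or.inr (by simp [Config.U, start4])
  act_le c x := by simp [Config.U, start4]
  b_sum := by
    ext x
    have : (n : ℝ) ≠ 0 := by positivity
    simp [Config.U, start4]
    field_simp
  b_supp c x h := by simp [Config.U, start4] at h
  b_drop c x h := by simp [start4] at h
  b_act c x _ := by
    have : (0 : ℝ) ≤ 4 / n := by positivity
    show -P.b1 ≤ 4 / (n : ℝ)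
    linarith [P.b1_pos]
  G_nonneg c := by
    show 0 ≤ (G4 M : M)
    rw [G4_val]
    exact algebraMap_nonneg M (by norm_num)

/-- The potential of the initial state. -/
theorem Psi_start_le (hP : P.Ok C) (hn : 15 * P.R ≤ n) (hb : P.b1 = 1 / (2 * n)) :
    P.Psi C (start4 M X n) ≤ n * (P.σ + P.l * 20 + P.ν) := by
  have hn0 : (0 : ℝ) < n := by linarith [P.one_le_R]
  have hcol : ∀ c, P.pot C (col (start4 M X n) c) ≤ P.σ + P.l * 20 + P.ν := fun c => by
    set s := col (start4 M X n) c with hs
    have hG : 0 ≤ (s.G : M) :=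
      (start4_ok (P := P) (M := M) (X := X) (Nat.cast_pos.1 hn0)).G_nonneg c
    have hγ : ∀ x, 0 ≤ P.γ C s x ∧ P.γ C s x ≤ 1 / 18 := fun x => by
      have h := Prm.Er_pzp_bounds hP (z := (s.G : M)) (a := 1 / 18) (b := 1 / 18) (by norm_num)
        (by norm_num) le_rfl le_rfl x
      exact ⟨ContinuousMap.le_def.1 (Prm.γ_nonneg hP hG) x, h.2⟩
    have hw : P.wt C s ≤ ContinuousMap.const X (30 / (n : ℝ)) := by
      refine ContinuousMap.le_def.2 fun x => ?_
      have h1 := wφ_le_root P.b1 (4 / n : ℝ) (P.γ C s x)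
      have h2 := root_le_small P.b1_pos (4 / n : ℝ) (hγ x).1 (hγ x).2
      have e : shiftB P.b1 (4 / n : ℝ) = 5 / n := by
        have : (0 : ℝ) ≤ 4 / n := by positivity
        rw [shiftB_eq (by linarith [P.b1_pos]), hb]
        field_simp
        norm_num
      rw [e] at h2
      have h3 : P.wt C s x = wφ P.b1 (4 / n : ℝ) (P.γ C s x) := by
        simp [Prm.wt, hs, col, start4]
      rw [h3, ContinuousMap.const_apply]
      have h4 : (30 : ℝ) / n = 3 * (2 * (5 / n)) := by ring
      linarith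
    have hmat : P.mat C s ≤ algebraMap ℝ M 20 := by
      unfold Prm.mat
      have e : (↑s.G⁻¹ : M) = algebraMap ℝ M 18 := G4_inv
      rw [e, show (20 : ℝ) = 18 + 2 by norm_num, map_add]
      gcongr
      refine (conjugate_le_conjugate_of_nonneg (C.r_mono hw) hP.p_nonneg).trans ?_
      rw [C.r_const, Algebra.algebraMap_eq_smul_one, mul_smul_comm, mul_one, smul_mul_assoc]
      refine (smul_le_smul_of_nonneg_left hP.pp_le (by positivity)).trans ?_
      rw [Algebra.algebraMap_eq_smul_one, Algebra.algebraMap_eq_smul_one, smul_smul]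
      refine smul_le_smul_of_nonneg_right ?_ zero_le_one
      rw [div_mul_eq_mul_div, div_le_iff₀ hn0]
      linarith
    have h5 : C.tr (cfc (f u4 P.σ P.l) (P.mat C s)) ≤ P.σ + P.l * 20 := by
      refine (Prm.tr_f_mono (IsSelfAdjoint.algebraMap M (.all (20:ℝ))) hmat).trans ?_
      rw [cfc_algebraMap, C.tr_algebraMap]
      exact f_le_of_le P.σ_pos.le P.l_pos.le le_rfl
    have h6 : P.ν * C.tr (s.G : M) ≤ P.ν := by
      have e : C.tr (s.G : M) = 1 / 18 := C.tr_algebraMap _
      rw [e]
      linarith [P.ν_pos]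
    unfold Prm.pot
    linarith
  calc P.Psi C (start4 M X n) ≤ ∑ _c : Fin n, (P.σ + P.l * 20 + P.ν) :=
        Finset.sum_le_sum fun c _ => hcol c
    _ = _ := by rw [Finset.sum_const, Finset.card_univ, Fintype.card_fin, nsmul_eq_mul]

/-- A state with small potential and small unassigned set gives a paving. -/
theorem exists_paving_of_state (hP : P.Ok C) (hn : 0 < n) {s : Config M X n} (hs : StateOk P s)
    {η : ℝ} (hη : P.Psi C s + 3 * C.ig s.U ≤ η) :
    ∃ (e : Fin n → C(X, ℝ)) (Z : M), Core.IsCol e ∧ 0 ≤ Z ∧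
      C.spinch e (P.p * P.p) ≤ algebraMap ℝ M 20 + Z ∧
      C.n2sq Z ≤ (n : ℝ) ^ 2 * (P.R * η) := by
  classical
  set c0 : Fin n := ⟨0, hn⟩
  set Q : Fin n → C(X, ℝ) := fun c => s.ass c + if c = c0 then s.U else 0 with hQdef
  have hass0 : ∀ x, s.U x = 1 → ∀ c, s.ass c x = 0 := fun x hx c => by
    have h0 : ∀ d ∈ (Finset.univ : Finset (Fin n)), 0 ≤ s.ass d x := fun d _ => by
      rcases hs.ass_01 d x with h' | h' <;> simp [h']
    have h1 : ∑ d, s.ass d x = 0 := by rw [Config.U_apply] at hx; linarith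
    exact (Finset.sum_eq_zero_iff_of_nonneg h0).1 h1 c (Finset.mem_univ c)
  have hQ01 : ∀ i t, Q i t = 0 ∨ Q i t = 1 := fun i t => by
    rcases hs.U_01 t with h | h
    · by_cases hc : i = c0 <;> simpa [hQdef, hc, h] using hs.ass_01 _ t
    · by_cases hc : i = c0 <;> simp [hQdef, hc, h, hass0 t h]
  have hQsum : ∑ i, Q i = 1 := by simp [hQdef, Finset.sum_add_distrib, Config.U]
  set e : Fin n → M := fun c => C.r (Q c) with he
  have hee : ∀ c, e c * e c = e c := fun c => by
    simp only [he, ← C.r_mul]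
    congr 1
    ext t
    rcases hQ01 c t with h | h <;> simp [h]
  have he1 : ∀ c, e c ≤ 1 := fun c => C.r_comp_le_one fun t => by
    rcases hQ01 c t with h | h <;> simp [h]
  have he0 : ∀ c, 0 ≤ e c := fun c => C.r_nonneg <| ContinuousMap.le_def.2 fun t => by
    rcases hQ01 c t with h | h <;> simp [h]
  have hps : star P.p = P.p := (IsSelfAdjoint.of_nonneg hP.p_nonneg).star_eq
  set T := P.p * P.p with hT
  have hT0 : 0 ≤ T := (algebraMap_nonneg M (by norm_num : (0:ℝ) ≤ 1 / 2)).trans hP.pp_ge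
  set g : ℝ → ℝ := fun t => max (t - u4) 0 with hg
  have hgc : Continuous g := by fun_prop
  set y : Fin n → M := fun c => cfc g (e c * T * e c) with hy
  have hsa : ∀ c, IsSelfAdjoint (e c * T * e c) := fun c =>
    (IsSelfAdjoint.of_nonneg hT0).conjugate_self (C.r_isSelfAdjoint _)
  have hy0 : ∀ c, 0 ≤ y c := fun c => cfc_nonneg fun t _ => le_max_right _ _
  have hyb : ∀ c, C.n2sq (y c) ≤ P.R * η := fun c => by
    have hT1 : e c * T * e c ≤ algebraMap ℝ M P.R := by
      refine (conjugate_le_conjugate_of_nonneg hP.pp_le (he0 c)).trans ?_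
      rw [Algebra.algebraMap_eq_smul_one, mul_smul_comm, mul_one, smul_mul_assoc, hee c]
      exact smul_le_smul_of_nonneg_left (he1 c) (by linarith [P.one_le_R])
    have hy2 : star (y c) * y c ≤ P.R • y c := by
      rw [(IsSelfAdjoint.cfc : IsSelfAdjoint (y c)).star_eq, hy, ← cfc_mul g g _,
        ← cfc_smul P.R g _]
      refine cfc_mono fun t ht => ?_
      have ht1 : t ≤ P.R := (le_algebraMap_iff_spectrum_le (hsa c)).1 hT1 t ht
      have h0 : 0 ≤ g t := le_max_right _ _
      have h1 : g t ≤ P.R := max_le (by simp only [u4]; linarith) (by linarith [P.one_le_R])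
      rw [smul_eq_mul]
      exact mul_le_mul_of_nonneg_right h1 h0
    refine (C.tr_mono hy2).trans ?_
    rw [C.tr_smul]
    refine mul_le_mul_of_nonneg_left ?_ (by linarith [P.one_le_R])
    -- compare with the potential
    set z := e c * P.p with hz
    have hzz : star z * z = P.p * e c * P.p := by
      rw [hz, star_mul, hps, (C.r_isSelfAdjoint (Q c)).star_eq, mul_assoc, ← mul_assoc (e c),
        hee c, ← mul_assoc]
    have hzz' : z * star z = e c * T * e c := by
      rw [hz, star_mul, hps, (C.r_isSelfAdjoint (Q c)).star_eq, hT]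
      simp only [he, mul_assoc]
    have hup : C.tr (cfc (f u4 P.σ P.l) (star z * z)) ≤ η := by
      rw [hzz]
      have hm : P.p * C.r (s.ass c) * P.p ≤ P.mat C (col s c) := by
        refine le_trans ?_ (le_add_of_nonneg_left (Core.units_inv_nonneg (hs.G_nonneg c)))
        refine conjugate_le_conjugate_of_nonneg (C.r_mono ?_) hP.p_nonneg
        refine ContinuousMap.le_def.2 fun t => ?_
        have h' := wφ_nonneg P.b1_pos (s.b c t) (C.gam P.p (s.G c) t)
        rcases hs.act_01 c t with h | h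
        · simp [Prm.wt, col, h]
        · simp [Prm.wt, col, h, Prm.γ, h']
      have hA : IsSelfAdjoint (P.p * C.r (s.ass c) * P.p) :=
        (C.r_isSelfAdjoint _).conjugate_self (IsSelfAdjoint.of_nonneg hP.p_nonneg)
      have h1 := Prm.tr_f_mono (P := P) (C := C)
        (Prm.mat_isSelfAdjoint (s := col s c) hP (hs.G_nonneg c)) hm
      have h2 : C.tr (cfc (f u4 P.σ P.l) (P.mat C (col s c))) ≤ P.Psi C s := by
        refine le_trans ?_ (Finset.single_le_sum (f := fun d => P.pot C (col s d))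
          (fun d _ => Prm.pot_nonneg hP (hs.col d)) (Finset.mem_univ c))
        simp only [Prm.pot]
        have := mul_nonneg P.ν_pos.le (C.tr_nonneg (hs.G_nonneg c))
        simp only [col] at *
        linarith
      have hU0 : 0 ≤ s.U := ContinuousMap.le_def.2 fun t => by
        rcases hs.U_01 t with h | h <;> simp [h]
      set E := P.p * C.r (if c = c0 then s.U else 0) * P.p
      have hE0 : 0 ≤ (if c = c0 then s.U else 0) := by split_ifs <;> simp [hU0]
      have h3 := Prm.tr_f_add_le (P := P) (C := C) hA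
        (conjugate_nonneg_of_nonneg (C.r_nonneg hE0) hP.p_nonneg)
      have h4 : C.tr E ≤ C.ig s.U := (Prm.tr_prp_le hP hE0).trans (C.ig_mono (by
        split_ifs <;> simp [hU0]))
      have h5 : P.p * e c * P.p = P.p * C.r (s.ass c) * P.p + E := by
        simp only [E, he, hQdef, C.r_add, mul_add, add_mul]
      rw [h5]
      have h6 : (2 + P.l) * C.tr E ≤ 3 * C.ig s.U :=
        mul_le_mul (by linarith [P.l_le]) h4
          (C.tr_nonneg (conjugate_nonneg_of_nonneg (C.r_nonneg hE0) hP.p_nonneg)) (by norm_num)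
      linarith
    rw [C.tr_cfc_star_mul continuous_f z, hzz'] at hup
    refine le_trans ?_ hup
    refine C.tr_mono (cfc_mono (fun t ht => ?_) hgc.continuousOn continuous_f.continuousOn)
    have ht0 := spectrum_nonneg_of_nonneg (conjugate_nonneg_of_nonneg hT0 (he0 c)) ht
    have := f_ge_posPart (u := u4) (σ := P.σ) P.l_pos.le ht0
    simp only [hg]
    linarith [le_max_right (t - u4) 0]
  refine ⟨Q, ∑ c, e c * y c * e c, ⟨hQ01, hQsum⟩,
    Finset.sum_nonneg fun c _ => conjugate_nonneg_of_nonneg (hy0 c) (he0 c), ?_, ?_⟩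
  · have : ∀ c, e c * T * e c ≤ (20 : ℝ) • e c + e c * y c * e c := fun c => by
      have h : e c * T * e c ≤ algebraMap ℝ M 20 + y c := by
        nth_rewrite 1 [← cfc_id' ℝ (e c * T * e c) (hsa c)]
        rw [hy, ← cfc_const_add (20 : ℝ) g _]
        exact cfc_mono fun t _ => by simp only [hg, u4]; linarith [le_max_left (t - 20) 0]
      have h' := conjugate_le_conjugate_of_nonneg h (he0 c)
      have hl : e c * (e c * T * e c) * e c = e c * T * e c := by
        simp only [mul_assoc, hee c]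
        simp only [← mul_assoc, hee c]
      rw [hl, mul_add, add_mul, Algebra.algebraMap_eq_smul_one, mul_smul_comm, mul_one,
        smul_mul_assoc, hee c] at h'
      exact h'
    refine (Finset.sum_le_sum fun c _ => this c).trans_eq ?_
    rw [Finset.sum_add_distrib, ← Finset.smul_sum, ← C.r_sum, hQsum, C.r_one,
      Algebra.algebraMap_eq_smul_one]
  · have hn2 : ∀ c, C.n2sq (e c * y c * e c) ≤ P.R * η := fun c => by
      refine (C.n2sq_conj_le_of_norm ?_).trans (hyb c)
      refine (C.norm_r_le _).trans ((ContinuousMap.norm_le _ zero_le_one).2 fun t => ?_)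
      rcases hQ01 c t with h | h <;> simp [h]
    set a := √(P.R * η)
    have hle : √(C.n2sq (∑ c, e c * y c * e c)) ≤ n * a := by
      refine (C.sqrt_n2sq_sum_le _ _).trans ?_
      refine (Finset.sum_le_sum fun c _ => Real.sqrt_le_sqrt (hn2 c)).trans_eq ?_
      rw [Finset.sum_const, Finset.card_univ, Fintype.card_fin, nsmul_eq_mul]
    have hRη : 0 ≤ P.R * η := le_trans (C.n2sq_nonneg' _) (hyb c0)
    have := pow_le_pow_left₀ (Real.sqrt_nonneg _) hle 2
    rw [Real.sq_sqrt (C.n2sq_nonneg' _), mul_pow, Real.sq_sqrt hRη] at this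
    exact this

theorem exists_sparse (C : Core M X) {X0 : M} {R : ℝ} {n : ℕ} (hR : 1 ≤ R)
    (hlo : algebraMap ℝ M (1 / 2) ≤ X0) (hhi : X0 ≤ algebraMap ℝ M R)
    (hE : ∀ x, C.Er X0 x ≤ 1) (hn : 15 * R ≤ n) {δ : ℝ} (hδ : 0 < δ) :
    ∃ (e : Fin n → C(X, ℝ)) (Z : M), Core.IsCol e ∧ 0 ≤ Z ∧
      C.spinch e X0 ≤ algebraMap ℝ M 20 + Z ∧ C.n2sq Z ≤ δ := by
  have hnR : (0 : ℝ) < n := by linarith
  have hn0 : 0 < n := Nat.cast_pos.1 hnR
  set η := δ / ((n : ℝ) ^ 2 * R) with hη
  have hη0 : 0 < η := by positivity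
  set t := min 1 (η / (50 * n)) with ht
  have ht0 : 0 < t := lt_min one_pos (by positivity)
  have ht1 : t ≤ 1 := min_le_left _ _
  set b1 : ℝ := 1 / (2 * n) with hb1
  have hb10 : 0 < b1 := by positivity
  have hb18 : b1 ≤ 1 / 8 := one_div_le_one_div_of_le (by norm_num) (by linarith)
  have hL : 0 ≤ lipConst b1 := by unfold lipConst; positivity
  set L := 3 * lipConst b1 * R + 1 with hLdef
  have hL1 : 1 ≤ L := by
    have : 0 ≤ 3 * lipConst b1 * R := by positivity
    linarith
  set g := t / L with hgdef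
  have hg : 0 < g := by positivity
  have hgΛ : g ≤ 3 / t := by
    rw [le_div_iff₀ ht0, hgdef, div_mul_eq_mul_div, div_le_iff₀ (by positivity)]
    nlinarith
  set P : Prm M := ⟨CFC.sqrt X0, R, b1, t, t, t, g, 3 / t, hR, hb10, hb18, ht0, ht0, ht1, ht0,
    hg, hgΛ⟩ with hPdef
  have hX0 : 0 ≤ X0 := (algebraMap_nonneg M (by norm_num : (0:ℝ) ≤ 1 / 2)).trans hlo
  have hpp : P.p * P.p = X0 := CFC.sqrt_mul_sqrt_self X0 hX0
  have hP : P.Ok C := ⟨CFC.sqrt_nonneg X0, hpp.le.trans hhi, hlo.trans hpp.ge,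
    fun x => hpp.symm ▸ hE x⟩
  obtain ⟨ζ, hζ, hU⟩ := U_small hP (show 0 < η / 6 by positivity) n
  obtain ⟨s0, hs0, hstart, hmin⟩ :=
    exists_near_min hP (start4 M X n) (start4_ok hn0) hζ
  obtain ⟨s, hs, hcl, hb, hle⟩ := exists_improve hP
    (by
      show (2 + t) / (3 / t) ^ 2 ≤ t
      rw [div_le_iff₀ (by positivity), div_pow, ← mul_div_assoc, le_div_iff₀ (by positivity)]
      nlinarith)
    (by
      show (2 + t) * lipConst b1 * R + t ≤ t / g ^ 2
      have h1 : (2 + t) * lipConst b1 * R + t ≤ L := by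
        have : (2 + t) * lipConst b1 * R ≤ 3 * lipConst b1 * R := by
          gcongr; linarith
        linarith
      refine h1.trans ?_
      rw [hgdef, div_pow, div_div_eq_mul_div, le_div_iff₀ (by positivity)]
      have h2 : t ^ 2 * 1 ≤ t * L := by
        rw [sq, mul_one]; exact mul_le_mul_of_nonneg_left (ht1.trans hL1) ht0.le
      calc L * t ^ 2 ≤ L * (t * L) :=
            mul_le_mul_of_nonneg_left (by linarith) (by linarith)
        _ = t * L ^ 2 := by ring) s0 hs0
  have hUle : C.ig s.U ≤ η / 6 := hU s hs hcl hb fun u hu => hle.trans (hmin u hu)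
  have h1 := Psi_start_le (C := C) (X := X) hP (n := n) hn rfl
  have h3 : P.Psi C (start4 M X n) ≤ η / 2 := by
    refine h1.trans ?_
    show (n : ℝ) * (t + t * 20 + t) ≤ η / 2
    have h4 : t * (50 * n) ≤ η := by
      rw [← le_div_iff₀ (by positivity)]; exact min_le_right _ _
    nlinarith [mul_nonneg ht0.le hnR.le]
  obtain ⟨e, Z, he, hZ, hle', hn2⟩ := exists_paving_of_state hP hn0 hs (η := η)
    (by linarith [hle.trans hstart])
  refine ⟨e, Z, he, hZ, hpp ▸ hle', hn2.trans (le_of_eq ?_)⟩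
  show (n : ℝ) ^ 2 * (R * η) = δ
  rw [hη]
  field_simp

end Vale.Agent.P078.Tracial.Four
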