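import Vale.Agent.P078.Tracial.Four.Defs
import Vale.Agent.P078.Tracial.Cov
import Vale.Agent.P078.Tracial.Stationary

/-! An approximate minimiser in the resolvent is approximately stationary. -/

namespace Vale.Agent.P078.Tracial.Four

set_option linter.unusedSectionVars false

open Filter Topology ComplexOrder
open Scalar (f f' continuous_f continuous_f' le_f' f'_le f_quad)

variable {M X : Type*} [CStarAlgebra M] [PartialOrder M] [StarOrderedRing M]
variable [TopologicalSpace X] [CompactSpace X] [T2Space X] [TotallyDisconnectedSpace X]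
variable {C : Core M X} {P : Prm M}

/-- A small decrease of the compressed resolvent lowers the weight to first order. -/
theorem exists_wφ_drop {b1 : ℝ} (hb1 : 0 < b1) (h8 : b1 ≤ 1 / 8) {B : ℝ} (hB : 1 ≤ B) :
    ∃ c : ℝ, 0 ≤ c ∧ ∃ t0 : ℝ, 0 < t0 ∧ ∀ b γ γ' Q t : ℝ, -b1 ≤ b → 0 ≤ γ → γ ≤ B → 0 ≤ γ' →
      root b1 b γ ≤ 1 / 2 → |γ' - γ| ≤ t * B → γ' - γ ≤ -(t * Q) + t ^ 2 * B → 0 < t → t ≤ t0 →
      wφ b1 b γ' ≤ 3 * root b1 b γ - t * (3 * (sW (root b1 b γ) * (disc b1 b γ)⁻¹) * Q)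
        + t ^ 2 * c := by
  set d0 := √(2 * b1)
  have hd0 : 0 < d0 := Real.sqrt_pos.2 (by linarith)
  set R := B * (1 + 9 / 4 / d0) with hR
  have hBR : B ≤ R := by
    rw [hR, mul_add, mul_one]
    exact le_add_of_nonneg_right (by positivity)
  have hR1 : 1 ≤ R := hB.trans hBR
  obtain ⟨C₀, hC₀, η0, hη0, hstep⟩ := exists_root_step hb1 h8 hR1
  refine ⟨3 * (9 / 4 / d0) * B + 3 * ((9 * R * R ^ 2 + 9 * R * R) / d0) + C₀, by positivity,
    min 1 η0, lt_min one_pos hη0, ?_⟩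
  intro b γ γ' Q t hb hγ hγB hγ' hw hΔ hup ht ht0
  set w := root b1 b γ with hwdef
  set D := disc b1 b γ
  have hw0 : 0 < w := root_pos hb1 b γ
  have hD : d0 ≤ D := disc_lower hb1 h8 b γ
  have hDp : 0 < D := hd0.trans_le hD
  have hs0 : 0 ≤ sW w := sW_nonneg hw0.le (by linarith)
  have hsD : sW w * D⁻¹ ≤ 9 / 4 / d0 := by
    rw [← div_eq_mul_inv]
    exact div_le_div₀ (by norm_num) (sW_le w) hd0 hD
  have hsD0 : 0 ≤ sW w * D⁻¹ := mul_nonneg hs0 (inv_nonneg.2 hDp.le)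
  set K := (γ' - γ) / t with hKdef
  have htK : t * K = γ' - γ := mul_div_cancel₀ _ ht.ne'
  have hK : |K| ≤ B := by
    rw [hKdef, abs_div, abs_of_pos ht, div_le_iff₀ ht, mul_comm B]
    exact hΔ
  have hj : |sW w * D⁻¹ * K| ≤ R := by
    rw [abs_mul, abs_of_nonneg hsD0]
    calc sW w * D⁻¹ * |K| ≤ 9 / 4 / d0 * B := mul_le_mul hsD hK (abs_nonneg _) (by positivity)
      _ ≤ R := by rw [hR]; linarith [show 9 / 4 / d0 * B = B * (9 / 4 / d0) from mul_comm _ _]
  have h := hstep b γ (sW w * D⁻¹ * K) K 0 t hb (by linarith) hγ (hγB.trans hBR)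
    (by rw [htK]; linarith) hw hj (hK.trans hBR) ht.le (ht0.trans (min_le_right _ _))
    (by field_simp; ring)
  rw [add_zero, htK, add_sub_cancel] at h
  have hq : (-(9 * γ) * (sW w * D⁻¹ * K) ^ 2 + (9 - 18 * w) * (sW w * D⁻¹ * K) * K) / D
      ≤ (9 * R * R ^ 2 + 9 * R * R) / d0 :=
    (le_abs_self _).trans (by
      rw [abs_div, abs_of_pos hDp]
      exact div_le_div₀ (by positivity) (abs_second_le (by linarith) hγ (hγB.trans hBR) hj
        (hK.trans hBR) (abs_le.2 ⟨by linarith, by linarith⟩)) hd0 hD)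
  have h3 : t ^ 3 * C₀ ≤ t ^ 2 * C₀ :=
    mul_le_mul_of_nonneg_right
      (pow_le_pow_of_le_one ht.le (ht0.trans (min_le_left _ _)) (by norm_num)) hC₀
  have h1 : t * (3 * (sW w * D⁻¹ * K)) ≤
      -(t * (3 * (sW w * D⁻¹) * Q)) + 3 * (9 / 4 / d0) * B * t ^ 2 := by
    rw [show t * (3 * (sW w * D⁻¹ * K)) = 3 * (sW w * D⁻¹) * (t * K) by ring, htK]
    have e1 := mul_le_mul_of_nonneg_left hup (by positivity : 0 ≤ 3 * (sW w * D⁻¹))
    have e2 := mul_le_mul_of_nonneg_right hsD (by positivity : 0 ≤ 3 * (t ^ 2 * B))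
    linarith
  have h2 := mul_le_mul_of_nonneg_left (mul_le_mul_of_nonneg_left hq (by norm_num : (0:ℝ) ≤ 3))
    (sq_nonneg t)
  linarith

/-- The sum of the forms along orthogonal cells is bounded independently of the partition. -/
theorem sum_cell_conj_le {A : M} {b N : ℝ} (hb : 0 ≤ b) (hA : A ≤ algebraMap ℝ M b)
    {μ : C(X, ℝ)} (hμ : ‖μ‖ ≤ N) (π : DiscreteQuotient X) :
    ∑ i : π, C.r (μ * cellFn π i) * A * C.r (μ * cellFn π i) ≤ algebraMap ℝ M (b * N ^ 2) := by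
  have hs : ∑ i : π, μ * cellFn π i * (μ * cellFn π i) = μ * μ := by
    calc ∑ i : π, μ * cellFn π i * (μ * cellFn π i) = ∑ i : π, μ * μ * cellFn π i := by
          refine Finset.sum_congr rfl fun i _ => ContinuousMap.ext fun x => ?_
          rcases cellFn_zero_or_one π i x with h | h <;> simp [h]
      _ = μ * μ := by rw [← Finset.mul_sum, sum_cellFn, mul_one]
  calc ∑ i : π, C.r (μ * cellFn π i) * A * C.r (μ * cellFn π i)
      ≤ ∑ i : π, b • C.r (μ * cellFn π i * (μ * cellFn π i)) := Finset.sum_le_sum fun i _ => by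
        have h := star_left_conjugate_le_conjugate hA (C.r (μ * cellFn π i))
        rwa [C.star_r, Algebra.algebraMap_eq_smul_one, mul_smul_comm, mul_one, smul_mul_assoc,
          ← C.r_mul] at h
    _ = b • C.r (μ * μ) := by rw [← Finset.smul_sum, ← C.r_sum, hs]
    _ ≤ b • C.r (ContinuousMap.const X (N ^ 2)) := by
        refine smul_le_smul_of_nonneg_left (C.r_mono (ContinuousMap.le_def.2 fun x => ?_)) hb
        have h := abs_apply_le hμ x
        simp only [ContinuousMap.mul_apply, ContinuousMap.const_apply]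
        rw [← abs_mul_abs_self, sq]
        exact mul_self_le_mul_self (abs_nonneg _) h
    _ = algebraMap ℝ M (b * N ^ 2) := by rw [C.r_const, map_mul, Algebra.smul_def]

/-- The squared changes of the compressed resolvent along orthogonal cells cost at most half
the loss. -/
theorem exists_chi_le (hP : P.Ok C) (N : ℝ) :
    ∃ Cst : ℝ, 0 ≤ Cst ∧ ∃ t0 : ℝ, 0 < t0 ∧ ∀ (s : Col M X), s.Ok P → P.Window C s →
      P.Bounded s → ∀ (μ : C(X, ℝ)), ‖μ‖ ≤ N → μ * s.act = μ →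
      ∀ (π : DiscreteQuotient X) (t ζ : ℝ), 0 < t → t ≤ t0 → P.ResMin C s ζ →
      ∑ i : π, C.ig (P.χFn C s
          * (C.K (P.cG s) (μ * cellFn π i) * C.K (P.cG s) (μ * cellFn π i)))
        ≤ 1 / 2 * ∑ i : π, P.loss C s (μ * cellFn π i) + ζ / t + Cst * t := by
  have hΛ : 0 < P.Λ := P.g_pos.trans_le P.g_le
  have hR1 := P.one_le_R
  have hR0 : 0 ≤ P.R := by linarith
  set Zb := P.R * (P.R * P.Λ * N ^ 2) with hZb
  have hZb0 : 0 ≤ Zb := by positivity
  set B := max 1 (max P.Λ (max (P.R * (P.Λ * Zb * P.Λ))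
    (P.R * (P.Λ * Zb * P.Λ * Zb * P.Λ)))) with hB
  have hB1 : 1 ≤ B := le_max_left _ _
  have hBΛ : P.Λ ≤ B := (le_max_left _ _).trans (le_max_right _ _)
  have hBQ : P.R * (P.Λ * Zb * P.Λ) ≤ B :=
    ((le_max_left _ _).trans (le_max_right _ _)).trans (le_max_right _ _)
  have hBd : P.R * (P.Λ * Zb * P.Λ * Zb * P.Λ) ≤ B :=
    ((le_max_right _ _).trans (le_max_right _ _)).trans (le_max_right _ _)
  obtain ⟨c₀, hc₀, t₀, ht₀, hdrop⟩ := exists_wφ_drop P.b1_pos P.b1_le hB1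
  have hL : 0 ≤ lipConst P.b1 := by unfold lipConst; positivity
  set Db := Zb + P.R * (lipConst P.b1 * B) + c₀ * P.R with hDb
  have hσ := P.σ_pos
  refine ⟨3 * (c₀ * P.R) + 1 / P.σ / 2 * Db ^ 2, by positivity, min 1 t₀, lt_min one_pos ht₀, ?_⟩
  intro s hs hW hb μ hμ _hμa π t ζ ht ht0 hmin
  have ht1 : t ≤ 1 := ht0.trans (min_le_left _ _)
  have hp := hP.p_nonneg
  have hpsa : IsSelfAdjoint P.p := IsSelfAdjoint.of_nonneg hp
  have hG := hs.G_nonneg
  have hGn : ‖(s.G : M)‖ ≤ P.Λ := Core.norm_le_of_nonneg_le hΛ.le hG hb.2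
  have hζ : 0 ≤ ζ := by linarith [show P.pot C s ≤ P.pot C s + ζ from hmin s.G hG]
  -- the direction of the move
  have hcG : 0 ≤ P.cG s := conjugate_nonneg_of_nonneg hG hp
  have hcGle : P.cG s ≤ algebraMap ℝ M (P.R * P.Λ) :=
    (IsSelfAdjoint.of_nonneg hcG).le_algebraMap_norm_self.trans
      (algebraMap_mono M (Prm.norm_cG_le hP hG hb))
  set k : π → C(X, ℝ) := fun i => μ * cellFn π i with hk
  set S := ∑ i : π, C.r (k i) * P.cG s * C.r (k i) with hS
  have hS0 : 0 ≤ S := Finset.sum_nonneg fun i _ => (C.r_isSelfAdjoint _).conjugate_nonneg hcG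
  have hSn : ‖S‖ ≤ P.R * P.Λ * N ^ 2 := Core.norm_le_of_nonneg_le (by positivity) hS0
    (sum_cell_conj_le (by positivity) hcGle hμ π)
  set Z := P.p * S * P.p with hZ
  have hZ0 : 0 ≤ Z := conjugate_nonneg_of_nonneg hS0 hp
  have hZn : ‖Z‖ ≤ Zb := (Prm.norm_pzp_le hP S).trans (mul_le_mul_of_nonneg_left hSn hR0)
  -- the moved resolvent
  have htZ : 0 ≤ t • Z := smul_nonneg ht.le hZ0
  have hGi := Core.units_inv_nonneg hG
  have hsum : (↑s.G⁻¹ : M) ≤ ↑s.G⁻¹ + t • Z := le_add_of_nonneg_right htZ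
  have hu : IsUnit ((↑s.G⁻¹ : M) + t • Z) :=
    CStarAlgebra.isUnit_of_le (↑s.G⁻¹ : M) hsum (s.G⁻¹.isUnit.isStrictlyPositive hGi)
  set G' : Mˣ := hu.unit⁻¹ with hG'def
  have hi : (↑G'⁻¹ : M) = ↑s.G⁻¹ + t • Z := by rw [hG'def, inv_inv, IsUnit.unit_spec]
  have hG' : 0 ≤ (G' : M) :=
    Core.units_inv_nonneg (G := hu.unit) (by rw [IsUnit.unit_spec]; exact add_nonneg hGi htZ)
  have hle : (G' : M) ≤ s.G := by
    have h' := CStarAlgebra.inv_le_inv (a := s.G⁻¹) (b := G'⁻¹) hGi (by rw [hi]; exact hsum)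
    rwa [inv_inv, inv_inv] at h'
  have hG'n : ‖(G' : M)‖ ≤ P.Λ :=
    (CStarAlgebra.norm_le_norm_of_nonneg_of_le hG' hle).trans hGn
  have d1 : (s.G : M) - G' = (s.G : M) * (t • Z) * G' := by
    have : (s.G : M) = s.G * ((↑G'⁻¹ : M) * G') := by rw [Units.inv_mul, mul_one]
    nth_rewrite 1 [this]
    rw [hi, add_mul, mul_add, ← mul_assoc, Units.mul_inv, one_mul, ← mul_assoc,
      add_sub_cancel_left]
  have d2 : (s.G : M) - G' = (G' : M) * (t • Z) * s.G := by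
    have : (s.G : M) = (G' : M) * (↑G'⁻¹ : M) * s.G := by rw [Units.mul_inv, one_mul]
    nth_rewrite 1 [this]
    rw [hi, mul_add, add_mul, mul_assoc, Units.inv_mul, mul_one, add_sub_cancel_left]
  set Y := (s.G : M) * Z * s.G with hY
  have hY0 : 0 ≤ Y := conjugate_nonneg_of_nonneg hZ0 hG
  set Dg := (G' : M) - s.G + t • Y with hDg
  have hDg' : Dg = (t ^ 2) • ((s.G : M) * Z * G' * Z * s.G) := by
    have e1 : Dg = (s.G : M) * (t • Z) * ((s.G : M) - G') := by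
      rw [mul_sub, ← d1, hDg, hY, mul_smul_comm, smul_mul_assoc]; abel
    rw [e1, d2]
    simp only [mul_smul_comm, smul_mul_assoc, smul_smul, mul_assoc, sq]
  have hDg0 : 0 ≤ Dg := by
    rw [hDg']
    refine smul_nonneg (sq_nonneg t) ?_
    have := star_left_conjugate_le_conjugate hG' (Z * s.G)
    rw [star_mul, (IsSelfAdjoint.of_nonneg hG).star_eq,
      (IsSelfAdjoint.of_nonneg hZ0).star_eq] at this
    simpa [mul_assoc] using this
  have hDgn : ‖Dg‖ ≤ t ^ 2 * (P.Λ * Zb * P.Λ * Zb * P.Λ) := by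
    rw [hDg', norm_smul, Real.norm_of_nonneg (sq_nonneg t)]
    refine mul_le_mul_of_nonneg_left ?_ (sq_nonneg t)
    calc ‖(s.G : M) * Z * G' * Z * s.G‖
        ≤ ‖(s.G : M)‖ * ‖Z‖ * ‖(G' : M)‖ * ‖Z‖ * ‖(s.G : M)‖ :=
          (norm_mul_le _ _).trans (mul_le_mul_of_nonneg_right ((norm_mul_le _ _).trans
            (mul_le_mul_of_nonneg_right norm_mul₃_le (norm_nonneg _))) (norm_nonneg _))
      _ ≤ P.Λ * Zb * P.Λ * Zb * P.Λ := by gcongr
  have hYn : ‖Y‖ ≤ P.Λ * Zb * P.Λ :=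
    calc ‖(s.G : M) * Z * s.G‖ ≤ ‖(s.G : M)‖ * ‖Z‖ * ‖(s.G : M)‖ := norm_mul₃_le
      _ ≤ P.Λ * Zb * P.Λ := by gcongr
  -- the compressed resolvents
  set s' : Col M X := { s with G := G' } with hs'
  set Q := C.Er (P.p * Y * P.p) with hQ
  set dd := C.Er (P.p * Dg * P.p) with hdd
  have hDsa : IsSelfAdjoint (P.p * Dg * P.p) :=
    (IsSelfAdjoint.of_nonneg hDg0).conjugate_self hpsa
  have hYsa : IsSelfAdjoint (P.p * Y * P.p) :=
    (IsSelfAdjoint.of_nonneg hY0).conjugate_self hpsa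
  have hQn : ∀ x, Q x ≤ B := fun x =>
    (((le_abs_self _).trans ((C.Er (P.p * Y * P.p)).norm_coe_le_norm x)).trans
      (((C.norm_Er_le hYsa).trans (Prm.norm_pzp_le hP _)).trans
        (mul_le_mul_of_nonneg_left hYn hR0))).trans hBQ
  have hddn : ∀ x, dd x ≤ t ^ 2 * B := fun x => by
    refine (((le_abs_self _).trans ((C.Er (P.p * Dg * P.p)).norm_coe_le_norm x)).trans
      (((C.norm_Er_le hDsa).trans (Prm.norm_pzp_le hP _)).trans
        (mul_le_mul_of_nonneg_left hDgn hR0))).trans ?_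
    rw [mul_left_comm]
    exact mul_le_mul_of_nonneg_left hBd (sq_nonneg t)
  have hQ0 : ∀ x, 0 ≤ Q x := fun x =>
    ContinuousMap.le_def.1 (C.Er_nonneg (conjugate_nonneg_of_nonneg hY0 hp)) x
  have hdd0 : ∀ x, 0 ≤ dd x := fun x =>
    ContinuousMap.le_def.1 (C.Er_nonneg (conjugate_nonneg_of_nonneg hDg0 hp)) x
  have hΔ : ∀ x, P.γ C s' x - P.γ C s x = -(t * Q x) + dd x := by
    intro x
    have : (G' : M) = s.G - t • Y + Dg := by rw [hDg]; abel
    simp only [Prm.γ, Core.gam, hs', this, hQ, hdd]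
    rw [mul_add, add_mul, mul_sub, sub_mul, mul_smul_comm, smul_mul_assoc, C.Er_add, C.Er_sub,
      C.Er_smul]
    simp only [ContinuousMap.add_apply, ContinuousMap.sub_apply, ContinuousMap.smul_apply,
      smul_eq_mul]
    ring
  have hγle : ∀ x, P.γ C s' x ≤ P.γ C s x := ContinuousMap.le_def.1 (C.gam_mono hp hle)
  have hγ0 : ∀ x, 0 ≤ P.γ C s x := ContinuousMap.le_def.1 (Prm.γ_nonneg hP hG)
  have hγ'0 : ∀ x, 0 ≤ P.γ C s' x :=
    ContinuousMap.le_def.1 (Prm.γ_nonneg hP (s := s') hG')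
  -- the weights
  set φγ : C(X, ℝ) := (3 : ℝ) • (s.act * P.sWc C s * P.iD C s) with hφγ
  set hh := φγ * Q with hhh
  have hφγ_one : ∀ x, s.act x = 1 →
      φγ x = 3 * (sW (root P.b1 (s.b x) (P.γ C s x)) * (disc P.b1 (s.b x) (P.γ C s x))⁻¹) :=
    fun x hx => by simp [hφγ, hx]
  have hφγ_zero : ∀ x, s.act x = 0 → φγ x = 0 := fun x hx => by simp [hφγ, hx]
  have hφγb : ∀ x, 0 ≤ φγ x ∧ φγ x ≤ lipConst P.b1 := fun x => by
    rcases hs.act_01 x with hx | hx
    · rw [hφγ_zero x hx]; exact ⟨le_rfl, hL⟩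
    · rw [hφγ_one x hx]
      have hw : root P.b1 (s.b x) (P.γ C s x) ≤ 2 / 5 := hW.high x hx
      have h0 := sW_nonneg (root_pos P.b1_pos (s.b x) (P.γ C s x)).le (by linarith)
      have hd := disc_pos P.b1_pos (s.b x) (P.γ C s x)
      refine ⟨by positivity, ?_⟩
      have h := div_le_div₀ (by norm_num) (sW_le (root P.b1 (s.b x) (P.γ C s x)))
        (Real.sqrt_pos.2 (by linarith [P.b1_pos])) (disc_lower P.b1_pos P.b1_le (s.b x) (P.γ C s x))
      rw [div_eq_mul_inv (sW _)] at h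
      rw [lipConst, show (27 / 4 : ℝ) / √(2 * P.b1) = 3 * (9 / 4 / √(2 * P.b1)) by ring]
      linarith
  have hh0 : ∀ x, 0 ≤ hh x := fun x => mul_nonneg (hφγb x).1 (hQ0 x)
  have hhn : ∀ x, hh x ≤ lipConst P.b1 * B := fun x =>
    mul_le_mul (hφγb x).2 (hQn x) (hQ0 x) hL
  have hw : P.wt C s' ≤ P.wt C s - t • hh + ContinuousMap.const X (t ^ 2 * c₀) := by
    refine ContinuousMap.le_def.2 fun x => ?_
    simp only [Prm.wt, hhh, ContinuousMap.add_apply, ContinuousMap.sub_apply,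
      ContinuousMap.mul_apply, ContinuousMap.smul_apply, ContinuousMap.const_apply, smul_eq_mul,
      Prm.φ_apply, hs']
    rcases hs.act_01 x with hx | hx
    · rw [hφγ_zero x hx, hx]
      linarith [mul_nonneg (sq_nonneg t) hc₀]
    · have hw25 : root P.b1 (s.b x) (P.γ C s x) ≤ 2 / 5 := hW.high x hx
      have hw2 : root P.b1 (s.b x) (P.γ C s x) ≤ 1 / 2 := by linarith
      rw [hφγ_one x hx, hx, wφ_eq hw2, one_mul, one_mul]
      have h := hdrop (s.b x) (P.γ C s x) (P.γ C s' x) (Q x) t (hs.act_b x hx) (hγ0 x)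
        ((Prm.γ_bounds hP hb x).2.trans hBΛ) (hγ'0 x) hw2 ?_ ?_ ht
        (ht0.trans (min_le_right _ _))
      · simp only [hs'] at h
        linarith
      · rw [abs_le]
        constructor
        · linarith [hΔ x, hdd0 x, mul_le_mul_of_nonneg_left (hQn x) ht.le]
        · linarith [hγle x, mul_nonneg ht.le (zero_le_one.trans hB1)]
      · linarith [hΔ x, hddn x]
  -- the matrices
  set c := t ^ 2 * c₀ * P.R with hc
  have hc0 : 0 ≤ c := by positivity
  set W' := P.p * C.r hh * P.p with hW'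
  set D := t • (Z - W') + algebraMap ℝ M c with hD
  have hA : IsSelfAdjoint (P.mat C s) := Prm.mat_isSelfAdjoint hP hG
  have hWsa : IsSelfAdjoint W' := (C.r_isSelfAdjoint hh).conjugate_self hpsa
  have hDs : IsSelfAdjoint D :=
    ((IsSelfAdjoint.all t).smul ((IsSelfAdjoint.of_nonneg hZ0).sub hWsa)).add
      (IsSelfAdjoint.algebraMap M (IsSelfAdjoint.all c))
  have hm : P.mat C s' ≤ P.mat C s + D := by
    have h1 : P.p * C.r (P.wt C s') * P.p ≤
        P.p * C.r (P.wt C s) * P.p - t • W' + (t ^ 2 * c₀) • (P.p * P.p) := by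
      refine (conjugate_le_conjugate_of_nonneg (C.r_mono hw) hp).trans_eq ?_
      rw [C.r_add, C.r_sub, C.r_smul, C.r_const, Algebra.algebraMap_eq_smul_one]
      simp only [mul_add, add_mul, mul_sub, sub_mul, mul_smul_comm, smul_mul_assoc, mul_one, hW']
    have h2 : (t ^ 2 * c₀) • (P.p * P.p) ≤ algebraMap ℝ M c := by
      rw [hc, map_mul _ (t ^ 2 * c₀), ← Algebra.smul_def]
      exact smul_le_smul_of_nonneg_left hP.pp_le (by positivity)
    calc P.mat C s'
        ≤ (↑s.G⁻¹ + t • Z) + (P.p * C.r (P.wt C s) * P.p - t • W' + algebraMap ℝ M c) := by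
          rw [Prm.mat, show (↑s'.G⁻¹ : M) = ↑G'⁻¹ from rfl, hi]
          gcongr
          exact h1.trans (add_le_add_right h2 _)
      _ = P.mat C s + D := by rw [Prm.mat, hD, smul_sub]; abel
  -- the barrier
  have hk' := C.klein_upper (L := 1 / P.σ) (f := f u4 P.σ P.l) (f' := f' u4 P.σ P.l) continuous_f
    (continuous_f' P.σ_pos) (f_quad P.σ_pos) hA (hA.add hDs)
  rw [add_sub_cancel_left] at hk'
  have hmono := Prm.tr_f_mono (P := P) (C := C) (hA.add hDs) hm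
  have hdsa : IsSelfAdjoint (P.dmat C s) := IsSelfAdjoint.of_nonneg (Prm.dmat_nonneg s)
  have hWV : C.tr (P.dmat C s * W') = C.ig (hh * P.V C s) := by
    rw [Prm.V, ← C.tr_r_mul hh (hdsa.conjugate_self hpsa), hW', ← mul_assoc, ← mul_assoc,
      C.tr_cycle _ (C.r hh) P.p, C.tr_comm _ (C.r hh), ← mul_assoc P.p]
  have hWZ : C.tr (P.dmat C s * Z) = ∑ i : π, P.loss C s (k i) := by
    rw [hZ, hS, Finset.mul_sum, Finset.sum_mul, Finset.mul_sum, C.tr_sum]
    refine Finset.sum_congr rfl fun i _ => ?_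
    rw [Prm.loss, ← mul_assoc, ← mul_assoc, C.tr_cycle, C.tr_comm _ (P.p * P.dmat C s * P.p)]
    simp only [mul_assoc]
  have hlin : C.tr (cfc (f' u4 P.σ P.l) (P.mat C s) * D) ≤
      t * ∑ i : π, P.loss C s (k i) - t * C.ig (hh * P.V C s) + 3 * c := by
    rw [show cfc (f' u4 P.σ P.l) (P.mat C s) = P.dmat C s from rfl, hD, mul_add, C.tr_add,
      mul_smul_comm, C.tr_smul, mul_sub, C.tr_sub, Algebra.algebraMap_eq_smul_one, mul_smul_comm,
      C.tr_smul, mul_one, hWV, hWZ]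
    have h2 : C.tr (P.dmat C s) ≤ 3 := by
      have := Prm.tr_f'_mul_le (P := P) (C := C) hA zero_le_one
      rw [mul_one, C.tr_one, mul_one] at this
      exact this.trans (by linarith [P.l_le])
    linarith [mul_le_mul_of_nonneg_left h2 hc0]
  have hDn : ‖D‖ ≤ t * Db := by
    have hrn : ‖C.r hh‖ ≤ lipConst P.b1 * B :=
      (C.norm_r_le hh).trans ((ContinuousMap.norm_le _ (by positivity)).2 fun x => by
        rw [Real.norm_of_nonneg (hh0 x)]; exact hhn x)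
    have hcn : ‖algebraMap ℝ M c‖ ≤ c :=
      Core.norm_le_of_nonneg_le hc0 (algebraMap_nonneg M hc0) le_rfl
    have hct : c ≤ t * (c₀ * P.R) := by
      rw [hc, mul_assoc]
      exact mul_le_mul_of_nonneg_right (pow_le_of_le_one ht.le ht1 two_ne_zero) (by positivity)
    calc ‖D‖ ≤ ‖t • (Z - W')‖ + ‖algebraMap ℝ M c‖ := norm_add_le _ _
      _ ≤ t * (Zb + P.R * (lipConst P.b1 * B)) + t * (c₀ * P.R) := by
          refine add_le_add ?_ (hcn.trans hct)
          rw [norm_smul, Real.norm_of_nonneg ht.le]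
          exact mul_le_mul_of_nonneg_left ((norm_sub_le _ _).trans (add_le_add hZn
            ((Prm.norm_pzp_le hP _).trans (mul_le_mul_of_nonneg_left hrn hR0)))) ht.le
      _ = t * Db := by rw [hDb]; ring
  have hquad : 1 / P.σ / 2 * C.n2sq D ≤ 1 / P.σ / 2 * (t * Db) ^ 2 :=
    mul_le_mul_of_nonneg_left
      ((C.n2sq_le_norm_sq D).trans (pow_le_pow_left₀ (norm_nonneg D) hDn 2)) (by positivity)
  have hν : P.ν * C.tr (G' : M) ≤ P.ν * C.tr (s.G : M) :=
    mul_le_mul_of_nonneg_left (C.tr_mono hle) P.ν_pos.le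
  have hmin' : P.pot C s ≤ P.pot C s' + ζ := hmin G' hG'
  simp only [Prm.pot, show s'.G = G' from rfl] at hmin'
  have hfin : t * C.ig (hh * P.V C s) ≤ t * ∑ i : π, P.loss C s (k i) + ζ
      + t * ((3 * (c₀ * P.R) + 1 / P.σ / 2 * Db ^ 2) * t) := by
    rw [show t * ((3 * (c₀ * P.R) + 1 / P.σ / 2 * Db ^ 2) * t)
        = 3 * c + 1 / P.σ / 2 * (t * Db) ^ 2 by rw [hc]; ring]
    linarith
  have hig : C.ig (hh * P.V C s) ≤ ∑ i : π, P.loss C s (k i) + ζ / t
      + (3 * (c₀ * P.R) + 1 / P.σ / 2 * Db ^ 2) * t := by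
    rw [← mul_le_mul_iff_of_pos_left ht, mul_add, mul_add, mul_div_cancel₀ _ ht.ne']
    exact hfin
  -- Schwarz
  have hQsum : Q = ∑ i : π, C.Er (P.cG s * (C.r (k i) * P.cG s * C.r (k i)) * P.cG s) := by
    rw [hQ, ← C.Er_sum]
    congr 1
    rw [hY, hZ, hS, ← Finset.sum_mul, ← Finset.mul_sum]
    simp only [Prm.cG, mul_assoc]
  have hsch : ∀ i x, C.K (P.cG s) (k i) x ^ 2 ≤
      P.γ C s x * C.Er (P.cG s * (C.r (k i) * P.cG s * C.r (k i)) * P.cG s) x :=
    fun i x => C.Er_schwarz hcG (k i) x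
  have hpt : ∑ i : π, P.χFn C s * (C.K (P.cG s) (k i) * C.K (P.cG s) (k i))
      ≤ (1 / 2 : ℝ) • (hh * P.V C s) := by
    rw [hhh, hQsum, Finset.mul_sum, Finset.sum_mul, Finset.smul_sum]
    refine Finset.sum_le_sum fun i _ => ContinuousMap.le_def.2 fun x => ?_
    simp only [ContinuousMap.mul_apply, ContinuousMap.smul_apply, smul_eq_mul, Prm.χFn,
      ContinuousMap.coe_mk]
    have hgγ := (Prm.γ_bounds hP hb x).1
    have hgp : 0 < max (P.γ C s x) (P.g / 2) := lt_max_of_lt_right (by linarith [P.g_pos])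
    have hV0 : 0 ≤ P.V C s x := le_trans (by linarith [P.l_pos]) (Prm.V_bounds hP hG x).1
    rcases hs.act_01 x with hx | hx
    · rw [hφγ_zero x hx, hx]; simp
    rw [hφγ_one x hx, hx, max_eq_left hgγ]
    rw [max_eq_left hgγ] at hgp
    simp only [one_mul, Prm.sWc_apply, Prm.W_apply, Prm.iD_apply, Prm.D_apply, ← sq]
    have hc3 : 0 ≤ sW (root P.b1 (s.b x) (P.γ C s x))
        * (disc P.b1 (s.b x) (P.γ C s x))⁻¹ :=
      mul_nonneg (sW_nonneg (root_pos P.b1_pos _ _).le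
        (by linarith [show root P.b1 (s.b x) (P.γ C s x) ≤ 2 / 5 from hW.high x hx]))
        (inv_nonneg.2 (disc_pos P.b1_pos _ _).le)
    have h1 : (P.γ C s x)⁻¹ * C.K (P.cG s) (k i) x ^ 2 ≤
        C.Er (P.cG s * (C.r (k i) * P.cG s * C.r (k i)) * P.cG s) x := by
      rw [inv_mul_le_iff₀ hgp]
      exact hsch i x
    have h2 := mul_le_mul_of_nonneg_left h1
      (by positivity : (0:ℝ) ≤ 3 / 2 * (P.V C s x
        * (sW (root P.b1 (s.b x) (P.γ C s x)) * (disc P.b1 (s.b x) (P.γ C s x))⁻¹)))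
    linarith
  have hmain := C.ig_mono hpt
  rw [C.ig_sum, C.ig_smul] at hmain
  have hζt : 0 ≤ ζ / t := div_nonneg hζ ht.le
  have hC0 : 0 ≤ (3 * (c₀ * P.R) + 1 / P.σ / 2 * Db ^ 2) * t := by positivity
  show ∑ i : π, C.ig (P.χFn C s * (C.K (P.cG s) (k i) * C.K (P.cG s) (k i))) ≤ _
  linarith

end Vale.Agent.P078.Tracial.Four
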