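import Vale.Agent.P078.Tracial.Four.Defs
import Vale.Agent.P078.Tracial.Cov
import Vale.Agent.P078.Tracial.StepColour

/-! The change of the potential of one colour in one step. -/

namespace Vale.Agent.P078.Tracial.Four

set_option linter.unusedSectionVars false

open Filter Topology ComplexOrder

variable {M X : Type*} [CStarAlgebra M] [PartialOrder M] [StarOrderedRing M]
variable [TopologicalSpace X] [CompactSpace X] [T2Space X] [TotallyDisconnectedSpace X]
variable {C : Core M X} {P : Prm M}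

/-- A step of a positive unit by `η G Z G` and the expansion of its inverse. -/
theorem exists_inv_step {G : Mˣ} (hG : 0 ≤ (G : M)) {g L N : ℝ} (hg : 0 < g)
    (hGl : algebraMap ℝ M g ≤ (G : M)) (hGL : ‖(G : M)‖ ≤ L) {Z : M} (hZ : IsSelfAdjoint Z)
    (hN : ‖Z‖ ≤ N) {η : ℝ} (hη : 0 ≤ η) (hη1 : η * (L * N * L) ≤ g / 2) :
    ∃ G' : Mˣ, 0 ≤ (G' : M) ∧ (G' : M) = G + η • ((G : M) * Z * G) ∧
      ‖(↑G'⁻¹ : M) - (↑G⁻¹ - η • Z + η ^ 2 • (Z * G * Z))‖
        ≤ η ^ 3 * ((N * L) ^ 3 * (2 / g)) := by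
  have hN0 : 0 ≤ N := (norm_nonneg _).trans hN
  have hL0 : 0 ≤ L := (norm_nonneg _).trans hGL
  set D := η • ((G : M) * Z * G) with hD
  have hDsa : IsSelfAdjoint D :=
    (IsSelfAdjoint.all η).smul (hZ.conjugate_self (IsSelfAdjoint.of_nonneg hG))
  have hnD : ‖D‖ ≤ g / 2 := by
    rw [hD, norm_smul, Real.norm_of_nonneg hη]
    refine le_trans (mul_le_mul_of_nonneg_left ?_ hη) hη1
    exact norm_mul₃_le.trans (by gcongr)
  have hlow : algebraMap ℝ M (g / 2) ≤ (G : M) + D := by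
    have h1 : algebraMap ℝ M (-(g / 2)) ≤ D := by
      refine le_trans ?_ (IsSelfAdjoint.neg_algebraMap_norm_le_self hDsa)
      rw [← map_neg]
      exact algebraMap_mono M (neg_le_neg hnD)
    calc algebraMap ℝ M (g / 2) = algebraMap ℝ M g + algebraMap ℝ M (-(g / 2)) := by
          rw [← map_add]; congr 1; ring
      _ ≤ (G : M) + D := add_le_add hGl h1
  have hlow0 : IsStrictlyPositive (algebraMap ℝ M (g / 2)) := by
    refine IsStrictlyPositive.iff_of_unital.2 ⟨algebraMap_nonneg M (by linarith), ?_⟩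
    exact (isUnit_iff_ne_zero.2 (by positivity : g / 2 ≠ 0)).map (algebraMap ℝ M)
  obtain ⟨G', hG'⟩ := CStarAlgebra.isUnit_of_le _ hlow hlow0
  have hG'0 : 0 ≤ (G' : M) := by rw [hG']; exact hlow0.nonneg.trans hlow
  refine ⟨G', hG'0, hG', ?_⟩
  have hninv : ‖(↑G'⁻¹ : M)‖ ≤ 2 / g := by
    rw [← cfc_inv_id (R := ℝ) G' (IsSelfAdjoint.of_nonneg hG'0)]
    refine norm_cfc_le (by positivity) fun t ht => ?_
    have : g / 2 ≤ t := (algebraMap_le_iff_le_spectrum
      (IsSelfAdjoint.of_nonneg hG'0)).1 (hG' ▸ hlow) t ht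
    rw [Real.norm_of_nonneg (inv_nonneg.2 (by linarith))]
    exact (inv_anti₀ (by positivity) this).trans_eq (inv_div g 2)
  set Y := η • (Z * G) with hY
  set F := (↑G⁻¹ : M) - η • Z + η ^ 2 • (Z * G * Z) with hF
  have hprod : F * (G' : M) = 1 + Y * Y * Y := by
    rw [hF, hG', hD, hY]
    simp only [mul_add, add_mul, sub_mul, smul_mul_assoc, mul_smul_comm, smul_smul,
      mul_assoc, Units.inv_mul, Units.inv_mul_cancel_left]
    match_scalars <;> ring
  have hdiff : (↑G'⁻¹ : M) - F = -(Y * Y * Y * ↑G'⁻¹) := by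
    have h2 := congrArg (fun z => z * (↑G'⁻¹ : M)) hprod
    simp only [Units.mul_inv_cancel_right, add_mul, one_mul] at h2
    rw [h2]; abel
  rw [hdiff, norm_neg]
  have hnY : ‖Y‖ ≤ η * (N * L) := by
    rw [hY, norm_smul, Real.norm_of_nonneg hη]
    exact mul_le_mul_of_nonneg_left
      ((norm_mul_le _ _).trans (mul_le_mul hN hGL (norm_nonneg _) hN0)) hη
  calc ‖Y * Y * Y * (↑G'⁻¹ : M)‖ ≤ ‖Y‖ * ‖Y‖ * ‖Y‖ * ‖(↑G'⁻¹ : M)‖ :=
        (norm_mul_le _ _).trans (mul_le_mul_of_nonneg_right norm_mul₃_le (norm_nonneg _))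
    _ ≤ η * (N * L) * (η * (N * L)) * (η * (N * L)) * (2 / g) := by gcongr
    _ = η ^ 3 * ((N * L) ^ 3 * (2 / g)) := by ring

theorem tr_mul_conj (W p z : M) : C.tr (W * (p * z * p)) = C.tr (z * (p * W * p)) := by
  rw [show W * (p * z * p) = W * p * z * p by simp only [mul_assoc], C.tr_comm,
    show p * (W * p * z) = p * W * p * z by simp only [mul_assoc], C.tr_comm]

/-- The pointwise bound of the second order coefficient of the weight. -/
theorem second_pt {γ Λ V e i k ρ s K δ : ℝ} (hγ : 0 ≤ γ) (hγΛ : γ ≤ Λ) (hV : 0 ≤ V) (hV3 : V ≤ 3)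
    (hi : 0 ≤ i) (hie : i ≤ e) (hs : |s| ≤ 9) (hδ : 0 < δ) :
    i * (-3 * (γ * ((k - ρ) * (k - ρ))) + s * (k - ρ) * K) * V
      ≤ -(59 / 20) * (V * γ * i * (k * k)) + V * s * i * k * K
        + 3 * e * (180 * Λ + 81 / (4 * δ)) * (ρ * ρ) + 3 * e * δ * (K * K) := by
  have h1 : -3 * (γ * ((k - ρ) * (k - ρ))) ≤ -(59 / 20) * (γ * (k * k)) + 180 * Λ * (ρ * ρ) := by
    nlinarith [mul_nonneg hγ (sq_nonneg (k - 60 * ρ)),
      mul_le_mul_of_nonneg_right hγΛ (mul_self_nonneg ρ), mul_nonneg hγ (mul_self_nonneg ρ)]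
  have h2 : -(s * ρ * K) ≤ δ * (K * K) + 81 / (4 * δ) * (ρ * ρ) := by
    have h3 : -(s * ρ * K) ≤ 9 * (|ρ| * |K|) := by
      refine (neg_le_abs _).trans ?_
      rw [abs_mul, abs_mul, mul_assoc]
      exact mul_le_mul_of_nonneg_right hs (by positivity)
    have e1 : δ * (K * K) + 81 / (4 * δ) * (ρ * ρ) - 9 * (|ρ| * |K|)
        = (2 * δ * |K| - 9 * |ρ|) ^ 2 / (4 * δ) := by
      rw [← abs_mul_abs_self K, ← abs_mul_abs_self ρ]
      field_simp
      ring
    have e2 : 0 ≤ (2 * δ * |K| - 9 * |ρ|) ^ 2 / (4 * δ) := by positivity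
    linarith
  have hΛ : 0 ≤ Λ := hγ.trans hγΛ
  have hS : 0 ≤ (180 * Λ + 81 / (4 * δ)) * (ρ * ρ) + δ * (K * K) :=
    add_nonneg (mul_nonneg (by positivity) (mul_self_nonneg _))
      (mul_nonneg hδ.le (mul_self_nonneg _))
  have hiV : i * V ≤ e * 3 := mul_le_mul hie hV3 hV (hi.trans hie)
  nlinarith [mul_le_mul_of_nonneg_left (add_le_add h1 h2) (mul_nonneg hi hV),
    mul_le_mul_of_nonneg_right hiV hS]

namespace Prm

variable (P : Prm M) (C : Core M X)

/-- The part of the gain given to the change of the compressed resolvent. -/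
noncomputable def splitδ : ℝ := P.l * P.g * √(2 * P.b1) / (240 * (P.R * P.Λ) ^ 4)

/-- The constant in front of the squared correction. -/
noncomputable def secK : ℝ :=
  3 * (1 / √(2 * P.b1)) * (180 * P.Λ + 81 / (4 * P.splitδ))

/-- The second order term of the weight. -/
noncomputable def q2Fn (s : Col M X) (k h : C(X, ℝ)) : C(X, ℝ) :=
  s.act * (P.iD C s * ((-3 : ℝ) • (P.γ C s * ((k - P.ρ C s h) * (k - P.ρ C s h)))
    + P.sDc C s * (k - P.ρ C s h) * C.K (P.cG s) k))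

variable {P C}

theorem Λ_pos : 0 < P.Λ := P.g_pos.trans_le P.g_le

theorem splitδ_pos : 0 < P.splitδ := by
  have := P.g_pos
  have := P.l_pos
  have := P.b1_pos
  have := P.one_le_R
  have := Λ_pos (P := P)
  have : 0 < P.R := by linarith
  unfold splitδ
  positivity

theorem secK_nonneg : 0 ≤ P.secK := by
  have := P.b1_pos
  have := Λ_pos (P := P)
  have := splitδ_pos (P := P)
  unfold secK
  positivity

theorem iD_bounds (s : Col M X) (x : X) :
    0 ≤ P.iD C s x ∧ P.iD C s x ≤ 1 / √(2 * P.b1) := by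
  have h := disc_lower P.b1_pos P.b1_le (s.b x) (P.γ C s x)
  refine ⟨inv_nonneg.2 (disc_pos P.b1_pos _ _).le, ?_⟩
  rw [iD_apply, D_apply, one_div]
  exact inv_anti₀ (Real.sqrt_pos.2 (by linarith [P.b1_pos])) h

theorem sq_iD_le (s : Col M X) (x : X) : P.iD C s x * P.iD C s x ≤ 1 / (2 * P.b1) := by
  obtain ⟨h0, h1⟩ := iD_bounds (P := P) (C := C) s x
  refine (mul_le_mul h1 h1 h0 (h0.trans h1)).trans_eq ?_
  rw [div_mul_div_comm, one_mul, Real.mul_self_sqrt (by linarith [P.b1_pos])]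

/-- The correction is controlled by the residual. -/
theorem ig_ρ_sq_le (s : Col M X) (h : C(X, ℝ)) :
    C.ig ((s.act * P.ρ C s h) * (s.act * P.ρ C s h))
      ≤ 9 / (2 * P.b1) * C.ig ((s.act * h) * (s.act * h)) := by
  rw [← C.ig_smul]
  refine C.ig_mono (ContinuousMap.le_def.2 fun x => ?_)
  simp only [ρ, ContinuousMap.mul_apply, ContinuousMap.smul_apply, smul_eq_mul]
  have := mul_le_mul_of_nonneg_right (sq_iD_le (P := P) (C := C) s x)
    (mul_self_nonneg (s.act x * h x))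
  rw [show 9 / (2 * P.b1) = 9 * (1 / (2 * P.b1)) by ring]
  linarith

/-- Pointwise facts on an active point. -/
theorem act_facts (hP : P.Ok C) {s : Col M X} (hs : s.Ok P) (hw : P.Window C s) {x : X}
    (ha : s.act x = 1) :
    0 < P.W C s x ∧ P.W C s x ≤ 2 / 5 ∧ P.D C s x ≤ 1 ∧ |P.sDc C s x| ≤ 9 := by
  have hγ : 0 ≤ P.γ C s x := ContinuousMap.le_def.1 (γ_nonneg hP hs.G_nonneg) x
  have hW : P.W C s x ≤ 2 / 5 := hw.high x ha
  have hW0 : 0 < P.W C s x := root_pos P.b1_pos _ _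
  have hW' : root P.b1 (s.b x) (P.γ C s x) ≤ 1 / 2 := by simp at hW; linarith
  refine ⟨hW0, hW, disc_le_one P.b1_pos hγ hW', ?_⟩
  rw [sDc_apply]
  exact abs_le.2 ⟨by linarith, by linarith⟩

/-- The second order term of the weight against the density. -/
theorem ig_q2Fn_le (hP : P.Ok C) {s : Col M X} (hs : s.Ok P) (hw : P.Window C s)
    (hb : P.Bounded s) {k : C(X, ℝ)} (hk : k * s.act = k) (h : C(X, ℝ)) :
    C.ig (P.q2Fn C s k h * P.V C s)
      ≤ -(29 / 10) * C.ig (P.gainFn C s * (k * k))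
        + C.ig (P.crossFn C s * k * C.K (P.cG s) k)
        + P.secK * C.ig ((s.act * P.ρ C s h) * (s.act * P.ρ C s h)) := by
  set K := C.K (P.cG s) k
  set c := 3 * (1 / √(2 * P.b1)) * P.splitδ with hc
  have hb1 : 0 < √(2 * P.b1) := Real.sqrt_pos.2 (by linarith [P.b1_pos])
  have hδ := splitδ_pos (P := P)
  have hc0 : 0 ≤ c := by positivity
  have h1 : P.q2Fn C s k h * P.V C s ≤ (-(59 / 20) : ℝ) • (P.gainFn C s * (k * k))
      + P.crossFn C s * k * K
      + P.secK • ((s.act * P.ρ C s h) * (s.act * P.ρ C s h)) + c • (K * K) := by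
    refine ContinuousMap.le_def.2 fun x => ?_
    have hkx := congrArg (fun f : C(X, ℝ) => f x) hk
    simp only [ContinuousMap.mul_apply] at hkx
    rcases hs.act_01 x with ha | ha
    · rw [ha, mul_zero] at hkx
      have := mul_nonneg hc0 (mul_self_nonneg (K x))
      simp [q2Fn, gainFn, crossFn, ha, ← hkx]
      linarith
    obtain ⟨hW0, hW, hD, hsD⟩ := act_facts hP hs hw ha
    obtain ⟨hV0, hV3⟩ := V_bounds hP (C := C) hs.G_nonneg x
    obtain ⟨hi0, hi1⟩ := iD_bounds (P := P) (C := C) s x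
    have := second_pt (k := k x) (ρ := P.ρ C s h x) (K := K x)
      (ContinuousMap.le_def.1 (γ_nonneg hP hs.G_nonneg) x) (γ_bounds hP hb x).2
      (le_trans (by linarith [P.l_pos]) hV0) hV3 hi0 hi1 hsD hδ
    simp only [q2Fn, gainFn, crossFn, secK, hc, ContinuousMap.add_apply, ContinuousMap.mul_apply,
      ContinuousMap.sub_apply, ContinuousMap.smul_apply, smul_eq_mul, ha, one_mul]
    linarith
  have h2 : k * k ≤ (4 / (P.l * P.g)) • (P.gainFn C s * (k * k)) := by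
    refine ContinuousMap.le_def.2 fun x => ?_
    have hkx := congrArg (fun f : C(X, ℝ) => f x) hk
    simp only [ContinuousMap.mul_apply] at hkx
    rcases hs.act_01 x with ha | ha
    · rw [ha, mul_zero] at hkx; simp [← hkx]
    obtain ⟨-, -, hD, -⟩ := act_facts hP hs hw ha
    have hV := (V_bounds hP (C := C) hs.G_nonneg x).1
    have hγ := (γ_bounds hP hb x).1
    have hi : 1 ≤ P.iD C s x := by
      rw [iD_apply]; exact (one_le_inv₀ (disc_pos P.b1_pos _ _)).2 hD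
    have hprod : P.l / 2 * (P.g / 2) * 1 ≤ P.V C s x * P.γ C s x * P.iD C s x := by
      have := P.g_pos
      have := P.l_pos
      have : 0 ≤ P.V C s x := le_trans (by positivity) hV
      have : 0 ≤ P.γ C s x := le_trans (by positivity) hγ
      gcongr
    have hlg : 0 < P.l * P.g := mul_pos P.l_pos P.g_pos
    simp only [gainFn, ContinuousMap.mul_apply, ContinuousMap.smul_apply, smul_eq_mul, ha,
      one_mul]
    rw [div_mul_eq_mul_div, le_div_iff₀ hlg]
    nlinarith [mul_le_mul_of_nonneg_right hprod (mul_self_nonneg (k x))]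
  have h3 := C.ig_mono h1
  rw [C.ig_add, C.ig_add, C.ig_add, C.ig_smul, C.ig_smul, C.ig_smul] at h3
  have h4 := C.ig_mono h2
  rw [C.ig_smul] at h4
  have hcG : IsSelfAdjoint (P.cG s) :=
    (IsSelfAdjoint.of_nonneg hs.G_nonneg).conjugate_self (IsSelfAdjoint.of_nonneg hP.p_nonneg)
  have hRΛ : 0 < P.R * P.Λ := mul_pos (by linarith [P.one_le_R]) Λ_pos
  have h5 : c * C.ig (K * K) ≤ 1 / 20 * C.ig (P.gainFn C s * (k * k)) := by
    have hk0 : 0 ≤ C.ig (k * k) :=
      C.ig_nonneg (ContinuousMap.le_def.2 fun x => by simpa using mul_self_nonneg (k x))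
    calc c * C.ig (K * K) ≤ c * (‖P.cG s‖ ^ 4 * C.ig (k * k)) :=
          mul_le_mul_of_nonneg_left (C.cov_sq_K_le hcG k) hc0
      _ ≤ c * ((P.R * P.Λ) ^ 4 * (4 / (P.l * P.g) * C.ig (P.gainFn C s * (k * k)))) := by
          refine mul_le_mul_of_nonneg_left (mul_le_mul ?_ h4 hk0 (by positivity)) hc0
          exact pow_le_pow_left₀ (norm_nonneg _) (norm_cG_le hP hs.G_nonneg hb) 4
      _ = 1 / 20 * C.ig (P.gainFn C s * (k * k)) := by
          have := P.l_pos
          have := P.g_pos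
          have hR : P.R ≠ 0 := by linarith [P.one_le_R]
          have hΛ : P.Λ ≠ 0 := Λ_pos.ne'
          rw [hc, splitδ]
          field_simp
          ring
  linarith

end Prm

open Prm in
/-- One step of one colour. The constant of the residual does not depend on the bound `B` of
the direction. -/
theorem exists_colour_step (hP : P.Ok C) :
    ∃ K : ℝ, 0 ≤ K ∧ ∀ B : ℝ, ∃ Cst : ℝ, 0 ≤ Cst ∧ ∃ η0 : ℝ, 0 < η0 ∧
      ∀ (s : Col M X), s.Ok P → P.Window C s → P.Bounded s →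
      ∀ (k h0 : C(X, ℝ)), ‖k‖ ≤ B → ‖h0‖ ≤ B → k * s.act = k →
      ∀ η : ℝ, 0 < η → η ≤ η0 →
        (∀ x, s.act x = 1 → -P.b1 ≤ s.b x + η * P.dir C s k h0 x) ∧
        ∃ G' : Mˣ, 0 ≤ (G' : M) ∧
          P.pot C ⟨s.act, s.ass, s.b + η • P.dir C s k h0, G'⟩
            ≤ P.pot C s + η * P.lin C s k h0
              + η ^ 2 * (P.second C s k + K * C.ig ((s.act * h0) * (s.act * h0)))
              + η ^ 3 * Cst := by
  have hb1 := P.b1_pos
  have hσ := P.σ_pos
  have hg := P.g_pos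
  have hΛ : 0 < P.Λ := Λ_pos
  have hR0 : 0 < P.R := by linarith [P.one_le_R]
  have hd0 : 0 < √(2 * P.b1) := Real.sqrt_pos.2 (by linarith)
  have hsK := secK_nonneg (P := P)
  refine ⟨9 / (2 * P.b1) * (1 / P.σ * P.R ^ 2 + P.secK), by positivity, fun B => ?_⟩
  set B0 := max B 1
  have hB0 : 0 < B0 := lt_max_of_lt_right one_pos
  set Kb := (P.R * P.Λ) ^ 2 * B0 with hKb0
  set R1 := 1 + P.Λ + Kb + B0 * (1 + 1 / √(2 * P.b1)) with hR1def
  have hKbp : 0 ≤ Kb := by positivity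
  have hBd : 0 ≤ B0 * (1 / √(2 * P.b1)) := by positivity
  have hR1 : 1 ≤ R1 := by rw [hR1def, mul_add]; linarith
  obtain ⟨Cw, hCw, ηw, hηw, hstep⟩ := exists_root_step hb1 P.b1_le hR1
  set dB := 2 * B0 + 9 / 4 * Kb + 1 with hdB
  set N := P.R * B0 with hNdef
  set Q := 3 * ((9 * R1 * R1 ^ 2 + 9 * R1 * R1) / √(2 * P.b1)) with hQdef
  have hQ0 : 0 ≤ Q := by positivity
  set N2 := P.R * (B0 * (P.R * P.Λ) * B0) + P.R * Q with hN2def
  set N3 := (N * P.Λ) ^ 3 * (2 / P.g) + Cw * P.R with hN3def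
  have hN30 : 0 ≤ N3 := by positivity
  refine ⟨3 * N3 + 1 / P.σ * (N2 + N3) ^ 2, by positivity,
    min (min 1 ηw) (min (P.b1 / 2 / dB) (P.g / 2 / (P.Λ * N * P.Λ + 1))), by positivity, ?_⟩
  intro s hs hw hb k h0 hkB hhB hka η hη hη0
  have hη1 : η ≤ 1 := hη0.trans ((min_le_left _ _).trans (min_le_left _ _))
  have hη2 : η ≤ ηw := hη0.trans ((min_le_left _ _).trans (min_le_right _ _))
  have hη3 : η * dB ≤ P.b1 / 2 :=
    (le_div_iff₀ (by positivity)).1 (hη0.trans ((min_le_right _ _).trans (min_le_left _ _)))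
  have hη4 : η * (P.Λ * N * P.Λ) ≤ P.g / 2 := by
    have := (le_div_iff₀ (by positivity)).1
      (hη0.trans ((min_le_right _ _).trans (min_le_right _ _)))
    linarith
  have hk : ‖k‖ ≤ B0 := hkB.trans (le_max_left _ _)
  have hh : ‖h0‖ ≤ B0 := hhB.trans (le_max_left _ _)
  have hG := hs.G_nonneg
  set γ := P.γ C s with hγdef
  set K := C.K (P.cG s) k with hKdef
  set W := P.dmat C s with hWdef
  set V := P.V C s with hVdef
  set ρ := P.ρ C s h0 with hρdef
  have hγ0 : ∀ x, 0 ≤ γ x := ContinuousMap.le_def.1 (γ_nonneg hP hG)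
  have hncG : ‖P.cG s‖ ≤ P.R * P.Λ := norm_cG_le hP hG hb
  have hKb : ∀ x, |K x| ≤ Kb := abs_apply_le ((C.norm_K_le _ _).trans
    (mul_le_mul (pow_le_pow_left₀ (norm_nonneg _) hncG 2) hk (norm_nonneg _) (by positivity)))
  have hρx : ∀ x, |ρ x| ≤ 3 * (B0 * (1 / √(2 * P.b1))) := fun x => by
    obtain ⟨hi0, hi1⟩ := iD_bounds (P := P) (C := C) s x
    rw [hρdef, Prm.ρ, ContinuousMap.smul_apply, ContinuousMap.mul_apply, smul_eq_mul, abs_mul,
      abs_mul, abs_of_nonneg hi0, abs_of_nonneg (by norm_num : (0:ℝ) ≤ 3), mul_comm B0]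
    exact mul_le_mul_of_nonneg_left
      (mul_le_mul hi1 (abs_apply_le hh x) (abs_nonneg _) (by positivity)) (by norm_num)
  have hjb : ∀ x, |(k x - ρ x) / 3| ≤ R1 := fun x => by
    rw [abs_div, abs_of_nonneg (by norm_num : (0:ℝ) ≤ 3)]
    have := abs_sub (k x) (ρ x)
    have := hρx x
    have := abs_apply_le hk x
    rw [hR1def, mul_add]
    linarith
  have hKR : ∀ x, |K x| ≤ R1 := fun x => (hKb x).trans (by rw [hR1def, mul_add]; linarith)
  have hγR : ∀ x, γ x ≤ R1 := fun x => (γ_bounds hP hb x).2.trans (by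
    rw [hR1def, mul_add]; linarith)
  have hdir : ∀ x, s.act x = 1 → P.dir C s k h0 x
      = P.D C s x * ((k x - ρ x) / 3) - sW (P.W C s x) * K x := fun x ha => by
    have hD : P.D C s x ≠ 0 := (disc_pos hb1 _ _).ne'
    simp only [Prm.dir, Prm.mFn, Prm.nFn, hρdef, Prm.ρ, ContinuousMap.sub_apply,
      ContinuousMap.mul_apply, ContinuousMap.smul_apply, smul_eq_mul, iD_apply, sWc_apply, ha,
      one_mul, ← hKdef]
    field_simp
    ring
  have hnew : ∀ x, s.act x = 1 → -P.b1 ≤ s.b x + η * P.dir C s k h0 x := fun x ha => by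
    obtain ⟨hW0, hW, hD, -⟩ := act_facts hP hs hw ha
    have hbd : |P.dir C s k h0 x| ≤ dB := by
      have hD0 : 0 < P.D C s x := disc_pos hb1 _ _
      have e : P.dir C s k h0 x = P.D C s x * k x / 3 - h0 x - sW (P.W C s x) * K x := by
        rw [hdir x ha]
        simp only [hρdef, Prm.ρ, ContinuousMap.mul_apply, ContinuousMap.smul_apply, smul_eq_mul,
          iD_apply]
        field_simp
      have t1 : |P.D C s x * k x / 3| ≤ B0 := by
        rw [abs_div, abs_mul, abs_of_pos hD0, abs_of_nonneg (by norm_num : (0:ℝ) ≤ 3)]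
        have := mul_le_mul hD (abs_apply_le hk x) (abs_nonneg _) zero_le_one
        linarith
      have t2 : |sW (P.W C s x) * K x| ≤ 9 / 4 * Kb := by
        rw [abs_mul, abs_of_nonneg (sW_nonneg hW0.le (by linarith))]
        exact mul_le_mul (sW_le _) (hKb x) (abs_nonneg _) (by norm_num)
      have t3 := abs_apply_le hh x
      rw [e, hdB]
      have := abs_sub (P.D C s x * k x / 3 - h0 x) (sW (P.W C s x) * K x)
      have := abs_sub (P.D C s x * k x / 3) (h0 x)
      linarith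
    have h3 := mul_le_mul_of_nonneg_left (abs_le.1 hbd).1 hη.le
    linarith [hw.low x ha]
  refine ⟨hnew, ?_⟩
  have hnG : ‖(s.G : M)‖ ≤ P.Λ := Core.norm_le_of_nonneg_le hΛ.le hG hb.2
  have hps := IsSelfAdjoint.of_nonneg hP.p_nonneg
  set Z := P.p * C.r k * P.p with hZ
  have hZs : IsSelfAdjoint Z := (C.r_isSelfAdjoint k).conjugate_self hps
  have hnZ : ‖Z‖ ≤ N := (norm_pzp_le hP _).trans
    (mul_le_mul_of_nonneg_left ((C.norm_r_le k).trans hk) hR0.le)
  obtain ⟨G', hG'0, hG'v, hG'i⟩ := exists_inv_step hG hg hb.1 hnG hZs hnZ hη.le hη4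
  refine ⟨G', hG'0, ?_⟩
  set s' : Col M X := ⟨s.act, s.ass, s.b + η • P.dir C s k h0, G'⟩ with hs'
  have hgam : P.γ C s' = γ + η • K := by
    have hcs : IsSelfAdjoint (P.cG s) := (IsSelfAdjoint.of_nonneg hG).conjugate_self hps
    have hK' : K = C.Er (P.cG s * C.r k * P.cG s) := by rw [hKdef, Core.K, hcs.star_eq]
    simp only [hγdef, hK', Prm.γ, hs', Core.gam, hG'v, mul_add, add_mul,
      C.Er_add, mul_smul_comm, smul_mul_assoc, C.Er_smul, hZ, Prm.cG, mul_assoc]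
  set q2 := P.q2Fn C s k h0 with hq2def
  have hq2v : ∀ x, s.act x = 1 → q2 x = 3 * ((-(9 * γ x) * ((k x - ρ x) / 3) ^ 2
      + (9 - 18 * P.W C s x) * ((k x - ρ x) / 3) * K x) / P.D C s x) := fun x ha => by
    simp only [hq2def, Prm.q2Fn, ← hγdef, ← hKdef, ← hρdef, ContinuousMap.mul_apply,
      ContinuousMap.add_apply, ContinuousMap.sub_apply, ContinuousMap.smul_apply, smul_eq_mul,
      iD_apply, sDc_apply, ha, one_mul]
    ring
  have hq2b : ‖q2‖ ≤ Q := norm_le_of_abs hQ0 fun x => by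
    rcases hs.act_01 x with ha | ha
    · have : q2 x = 0 := by simp [hq2def, Prm.q2Fn, ha]
      rw [this, abs_zero]; exact hQ0
    obtain ⟨hW0, hW, -, hsD⟩ := act_facts hP hs hw ha
    rw [hq2v x ha, hQdef, abs_mul, abs_div, abs_of_nonneg (by norm_num : (0:ℝ) ≤ 3),
      abs_of_pos (show 0 < P.D C s x from disc_pos hb1 _ _)]
    refine mul_le_mul_of_nonneg_left (div_le_div₀ (by positivity) ?_ hd0
      (disc_lower hb1 P.b1_le _ _)) (by norm_num)
    exact abs_second_le (by linarith) (hγ0 x) (hγR x) (hjb x) (hKR x) (by simpa using hsD)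
  set q1 : C(X, ℝ) := k - s.act * ρ with hq1def
  have hwt : P.wt C s' ≤ P.wt C s + η • q1 + η ^ 2 • q2 + (η ^ 3 * Cw) • (1 : C(X, ℝ)) := by
    refine ContinuousMap.le_def.2 fun x => ?_
    have hkx := congrArg (fun f : C(X, ℝ) => f x) hka
    simp only [ContinuousMap.mul_apply] at hkx
    have hc : 0 ≤ η ^ 3 * Cw := by positivity
    rcases hs.act_01 x with ha | ha
    · rw [ha, mul_zero] at hkx
      simp [hs', Prm.wt, hq1def, hq2def, Prm.q2Fn, ha, ← hkx]
      linarith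
    obtain ⟨hW0, hW, hD, -⟩ := act_facts hP hs hw ha
    have hW2 : root P.b1 (s.b x) (γ x) ≤ 1 / 2 := by
      have : root P.b1 (s.b x) (γ x) ≤ 2 / 5 := hW
      linarith
    have hg' : P.γ C s' x = γ x + η * K x := by rw [hgam]; rfl
    have hnn : 0 ≤ γ x + η * K x := hg' ▸ ContinuousMap.le_def.1 (γ_nonneg hP (s := s') hG'0) x
    have := hstep (s.b x) (γ x) ((k x - ρ x) / 3) (K x) (η * P.dir C s k h0 x) η
      (hs.act_b x ha) (hnew x ha) (hγ0 x) (hγR x) hnn hW2 (hjb x) (hKR x) hη.le hη2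
      (by rw [hdir x ha]; rfl)
    have hq := hq2v x ha
    simp only [W_apply, D_apply, ← hγdef] at hq
    have hsb : s'.b x = s.b x + η * P.dir C s k h0 x := rfl
    simp only [Prm.wt, hq1def, ContinuousMap.add_apply, ContinuousMap.mul_apply,
      ContinuousMap.sub_apply, ContinuousMap.smul_apply, smul_eq_mul, ContinuousMap.one_apply,
      φ_apply, ← hγdef, hg', hsb, show s'.act = s.act from rfl, show s'.ass = s.ass from rfl,
      ha, one_mul, mul_one, hq, wφ_eq hW2]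
    linarith
  set Rm := (↑G'⁻¹ : M) - (↑s.G⁻¹ - η • Z + η ^ 2 • (Z * s.G * Z)) with hRm
  set A1 := -(P.p * C.r (s.act * ρ) * P.p) with hA1
  set A2 := P.p * (C.r k * P.cG s * C.r k) * P.p + P.p * C.r q2 * P.p with hA2
  set A3 := Rm + (η ^ 3 * Cw) • (P.p * P.p) with hA3
  set Δ := η • A1 + η ^ 2 • A2 + A3 with hΔ
  have hmat : P.mat C s' ≤ P.mat C s + Δ := by
    have e1 : P.mat C s + Δ = (↑G'⁻¹ : M) + P.p * C.r
        (P.wt C s + η • q1 + η ^ 2 • q2 + (η ^ 3 * Cw) • (1 : C(X, ℝ))) * P.p := by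
      simp only [Prm.mat, Prm.cG, hΔ, hA1, hA2, hA3, hRm, hZ, hq1def, C.r_add, C.r_sub, C.r_smul,
        C.r_one, mul_add, add_mul, mul_sub, sub_mul, mul_smul_comm, smul_mul_assoc, mul_one,
        mul_assoc]
      module
    rw [e1, show P.mat C s' = (↑G'⁻¹ : M) + P.p * C.r (P.wt C s') * P.p from rfl]
    gcongr
    exact conjugate_le_conjugate_of_nonneg (C.r_mono hwt) hP.p_nonneg
  have hA : IsSelfAdjoint (P.mat C s) := mat_isSelfAdjoint hP hG
  have hcG : IsSelfAdjoint (P.cG s) := (IsSelfAdjoint.of_nonneg hG).conjugate_self hps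
  have hA2s : IsSelfAdjoint A2 :=
    ((hcG.conjugate_self (C.r_isSelfAdjoint k)).conjugate_self hps).add
      ((C.r_isSelfAdjoint _).conjugate_self hps)
  have hA3s : IsSelfAdjoint A3 := by
    refine IsSelfAdjoint.add ?_ ((IsSelfAdjoint.all _).smul ?_)
    · exact (IsSelfAdjoint.of_nonneg (Core.units_inv_nonneg hG'0)).sub
        (((IsSelfAdjoint.of_nonneg (Core.units_inv_nonneg hG)).sub
          ((IsSelfAdjoint.all _).smul hZs)).add
          ((IsSelfAdjoint.all _).smul ((IsSelfAdjoint.of_nonneg hG).conjugate_self hZs)))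
    · rw [IsSelfAdjoint, star_mul, hps.star_eq]
  have hΔs : IsSelfAdjoint Δ :=
    (((IsSelfAdjoint.all η).smul ((C.r_isSelfAdjoint _).conjugate_self hps).neg).add
      ((IsSelfAdjoint.all _).smul hA2s)).add hA3s
  have h1 := tr_f_mono (P := P) (C := C) (hA.add hΔs) hmat
  have h2 := C.klein_upper Scalar.continuous_f (Scalar.continuous_f' (l := P.l) hσ)
    (Scalar.f_quad (u := u4) (l := P.l) hσ) hA (hA.add hΔs)
  rw [add_sub_cancel_left, show cfc (Scalar.f' u4 P.σ P.l) (P.mat C s) = W from rfl] at h2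
  have hA3b : ‖A3‖ ≤ η ^ 3 * N3 := by
    refine (norm_add_le _ _).trans ?_
    rw [hN3def, mul_add, norm_smul, Real.norm_of_nonneg (by positivity), ← mul_assoc _ Cw]
    exact add_le_add hG'i (mul_le_mul_of_nonneg_left
      ((norm_mul_le _ _).trans (norm_pp_le hP)) (by positivity))
  have hWΔ : C.tr (W * Δ) ≤ η * C.tr (W * A1) + η ^ 2 * C.tr (W * A2) + 3 * (η ^ 3 * N3) := by
    rw [hΔ, mul_add, mul_add, C.tr_add, C.tr_add, mul_smul_comm, mul_smul_comm, C.tr_smul,
      C.tr_smul]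
    have := (le_abs_self _).trans (C.abs_tr_mul_le_norm W A3)
    have := mul_le_mul (norm_dmat_le (P := P) (C := C) s) hA3b (norm_nonneg _) (by norm_num)
    linarith
  have hA2b : ‖A2‖ ≤ N2 := by
    refine (norm_add_le _ _).trans (add_le_add ?_ ?_)
    · have hkn : ‖C.r k‖ ≤ B0 := (C.norm_r_le k).trans hk
      exact (norm_pzp_le hP _).trans
        (mul_le_mul_of_nonneg_left (norm_mul₃_le.trans (by gcongr)) hR0.le)
    · exact (norm_pzp_le hP _).trans
        (mul_le_mul_of_nonneg_left ((C.norm_r_le _).trans hq2b) hR0.le)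
  set A := C.ig ((s.act * ρ) * (s.act * ρ)) with hAdef
  have hn1 : C.n2sq A1 ≤ P.R ^ 2 * A := by
    refine le_trans (le_of_eq ?_) ((n2sq_pzp_le hP (C.r (s.act * ρ))).trans_eq
      (by rw [hAdef, C.cov_n2sq_r]))
    simp [hA1, Core.n2sq]
  have hnΔ : 1 / P.σ / 2 * C.n2sq Δ ≤ η ^ 2 * (1 / P.σ * P.R ^ 2 * A)
      + η ^ 3 * (1 / P.σ * (N2 + N3) ^ 2) := by
    set Bm := η ^ 2 • A2 + A3
    have hη32 : η ^ 3 ≤ η ^ 2 := pow_le_pow_of_le_one hη.le hη1 (by norm_num)
    have hB : ‖Bm‖ ≤ η ^ 2 * (N2 + N3) := by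
      refine (norm_add_le _ _).trans ?_
      rw [mul_add, norm_smul, Real.norm_of_nonneg (sq_nonneg η)]
      exact add_le_add (mul_le_mul_of_nonneg_left hA2b (sq_nonneg η))
        (hA3b.trans (mul_le_mul_of_nonneg_right hη32 hN30))
    have hB2 : C.n2sq Bm ≤ η ^ 3 * (N2 + N3) ^ 2 := by
      refine (C.n2sq_le_norm_sq Bm).trans ((pow_le_pow_left₀ (norm_nonneg _) hB 2).trans ?_)
      rw [mul_pow, ← pow_mul]
      exact mul_le_mul_of_nonneg_right (pow_le_pow_of_le_one hη.le hη1 (by norm_num))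
        (sq_nonneg _)
    have hA1' : C.n2sq (η • A1) = η ^ 2 * C.n2sq A1 := by
      simp [Core.n2sq, C.tr_smul, smul_smul, sq]
    have hsum : C.n2sq Δ ≤ 2 * C.n2sq (η • A1) + 2 * C.n2sq Bm := by
      rw [show Δ = η • A1 + Bm by simp only [hΔ, Bm]; abel]
      exact C.n2sq_add_two_le _ _
    rw [hA1'] at hsum
    have hh1 := mul_le_mul_of_nonneg_left hn1 (sq_nonneg η)
    calc 1 / P.σ / 2 * C.n2sq Δ
        ≤ 1 / P.σ / 2 * (2 * (η ^ 2 * (P.R ^ 2 * A)) + 2 * (η ^ 3 * (N2 + N3) ^ 2)) :=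
          mul_le_mul_of_nonneg_left (by linarith) (by positivity)
      _ = _ := by ring
  have hA2t : C.tr (W * A2) = P.loss C s k + C.ig (q2 * V) := by
    rw [hA2, mul_add, C.tr_add, tr_mul_conj W P.p (C.r k * P.cG s * C.r k),
      tr_mul_conj W P.p (C.r q2),
      C.tr_r_mul q2 (z := P.p * W * P.p) ((IsSelfAdjoint.cfc).conjugate_self hps)]
    rfl
  have htG : P.ν * C.tr (G' : M)
      = P.ν * C.tr (s.G : M) + η * (P.ν * C.tr ((s.G : M) * Z * s.G)) := by
    rw [hG'v, C.tr_add, C.tr_smul]; ring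
  have hl : P.lin C s k h0 = C.tr (W * A1) + P.ν * C.tr ((s.G : M) * Z * s.G) := rfl
  have hquad : C.tr (W * A2) + 1 / P.σ * P.R ^ 2 * A ≤ P.second C s k
      + 9 / (2 * P.b1) * (1 / P.σ * P.R ^ 2 + P.secK)
        * C.ig ((s.act * h0) * (s.act * h0)) := by
    have h3 := ig_q2Fn_le hP hs hw hb hka h0
    rw [← hq2def, ← hVdef, ← hρdef, ← hAdef] at h3
    have h4 := mul_le_mul_of_nonneg_left (ig_ρ_sq_le (P := P) (C := C) s h0)
      (by positivity : 0 ≤ 1 / P.σ * P.R ^ 2 + P.secK)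
    rw [← hρdef, ← hAdef] at h4
    rw [hA2t, Prm.second]
    linarith
  have hquad' := mul_le_mul_of_nonneg_left hquad (sq_nonneg η)
  have hp1 : P.pot C s' = C.tr (cfc (Scalar.f u4 P.σ P.l) (P.mat C s')) + P.ν * C.tr (G' : M) :=
    rfl
  rw [hp1, hl, Prm.pot]
  linarith

end Vale.Agent.P078.Tracial.Four
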