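import Vale.Agent.P078.Tracial.Four.Clean
import Vale.Agent.P078.Tracial.Four.Stationary
import Vale.Agent.P078.Tracial.Four.StepColour
import Vale.Agent.P078.Tracial.Four.Cov
import Vale.Agent.P078.Tracial.Step

/-! An approximate minimiser has a small unassigned set. -/

namespace Vale.Agent.P078.Tracial.Four

set_option linter.unusedSectionVars false

open Filter Topology ComplexOrder

/-- The bound on the coefficients of the step. -/
noncomputable def coefBound {M : Type*} (P : Prm M) : ℝ :=
  10 + 3 * P.R + P.R * P.Λ + √(4 / (P.g * P.l))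
    + 27 / √(2 * P.b1) * √(4 / (P.g * P.l))

variable {M X : Type*} [CStarAlgebra M] [PartialOrder M] [StarOrderedRing M]
variable [TopologicalSpace X] [CompactSpace X] [T2Space X] [TotallyDisconnectedSpace X]
variable {C : Core M X} {P : Prm M} {r : ℕ}

/-- The data of the step at a state. -/
noncomputable def stepData4 (P : Prm M) (C : Core M X) (s : Config M X r) :
    Core.StepData M X r where
  act := s.act
  U := s.U
  μ c := P.μFn C (col s c)
  m c := P.mFn C (col s c)
  n c := P.nFn C (col s c)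
  G c := P.cG (col s c)
  W c := P.p * P.dmat C (col s c) * P.p

/-- The active root. -/
noncomputable def massFn (P : Prm M) (C : Core M X) (s : Config M X r) (c : Fin r) : C(X, ℝ) :=
  s.act c * P.W C (col s c)

/-- The coefficient of the bilinear cross term. -/
noncomputable def qFn (P : Prm M) (C : Core M X) (s : Config M X r) (c : Fin r) : C(X, ℝ) :=
  P.crossFn C (col s c) * P.μFn C (col s c)

/-- The pointwise data at an active point of a clean bounded colour. -/
theorem active_bounds (hP : P.Ok C) {s : Col M X} (hs : s.Ok P) (hw : P.Window C s)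
    (hb : P.Bounded s) {x : X} (hx : s.act x = 1) :
    0 ≤ P.W C s x ∧ P.W C s x ≤ 2 / 5 ∧ √(2 * P.b1) ≤ P.D C s x ∧ P.D C s x ≤ 1 ∧
      P.D C s x = 1 - P.γ C s x * P.sDc C s x ∧
      P.g / 2 ≤ P.γ C s x ∧ P.γ C s x ≤ P.Λ ∧ P.l / 2 ≤ P.V C s x ∧ P.V C s x ≤ 3 ∧
      P.μFn C s x * P.μFn C s x = P.W C s x * P.D C s x / (P.γ C s x * P.V C s x) := by
  obtain ⟨hγ, hγ'⟩ := Prm.γ_bounds hP hb x
  obtain ⟨hV, hV'⟩ := Prm.V_bounds hP hs.G_nonneg x
  have hW := root_pos P.b1_pos (s.b x) (P.γ C s x)
  have hW' : root P.b1 (s.b x) (P.γ C s x) ≤ 2 / 5 := hw.high x hx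
  have hg := P.g_pos
  have hl := P.l_pos
  have hγ0 : 0 ≤ P.γ C s x := by linarith
  have hD := disc_lower P.b1_pos P.b1_le (s.b x) (P.γ C s x)
  have hD1 := disc_le_one (b := s.b x) P.b1_pos hγ0 (by linarith)
  obtain ⟨-, hD2⟩ := root_spec P.b1_pos (s.b x) hγ0
  refine ⟨hW.le, hW', hD, hD1, by simpa using hD2, hγ, hγ', hV, hV', ?_⟩
  have hd := disc_pos P.b1_pos (s.b x) (P.γ C s x)
  simp only [Prm.μFn, ContinuousMap.mul_apply, hx, one_mul, ContinuousMap.coe_mk,
    max_eq_left hγ, max_eq_left hV, Prm.W_apply, Prm.D_apply]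
  exact Real.mul_self_sqrt
    (div_nonneg (mul_nonneg hW.le hd.le) (mul_nonneg hγ0 (by linarith)))

theorem stepData4_ok (hP : P.Ok C) {s : Config M X r} (hs : StateOk P s)
    (hw : ∀ c, P.Window C (col s c)) (hb : ∀ c, P.Bounded (col s c)) :
    (stepData4 P C s).Ok (coefBound P) := by
  have hN : ∀ {t : ℝ}, t ≤ 10 → t ≤ coefBound P := fun {t} ht => by
    have := P.one_le_R
    have := mul_nonneg (by linarith : 0 ≤ P.R) (P.g_pos.le.trans P.g_le)
    have : 0 ≤ √(4 / (P.g * P.l)) := Real.sqrt_nonneg _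
    have : 0 ≤ 27 / √(2 * P.b1) * √(4 / (P.g * P.l)) := by positivity
    unfold coefBound; linarith
  have hN0 : 0 ≤ coefBound P := hN (by norm_num)
  refine ⟨hs.act_01, hs.U_01, hs.act_le, fun c => ?_, fun c => ?_, fun c => ?_, fun c => ?_,
    fun c => conjugate_nonneg_of_nonneg (hs.G_nonneg c) hP.p_nonneg,
    fun c => conjugate_nonneg_of_nonneg (Prm.dmat_nonneg _) hP.p_nonneg⟩
  · exact Core.mul_act_eq (hs.act_01 c) fun x h => by
      simp only [stepData4] at h; simp [stepData4, Prm.μFn, col, h]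
  · exact Core.mul_act_eq (hs.act_01 c) fun x h => by
      simp only [stepData4] at h; simp [stepData4, Prm.mFn, col, h]
  · exact Core.mul_act_eq (hs.act_01 c) fun x h => by
      simp only [stepData4] at h; simp [stepData4, Prm.nFn, col, h]
  refine ⟨?_, ?_, ?_, ?_, ?_⟩
  · refine Tracial.norm_le_of_abs hN0 fun x => ?_
    rcases hs.act_01 c x with h | h
    · simp [stepData4, Prm.μFn, col, h, hN0]
    · obtain ⟨h1, h2, h3, h4, -, h6, -, h8, -, hμ⟩ :=
        active_bounds hP (hs.col c) (hw c) (hb c) (x := x) h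
      have h9 : P.W C (col s c) x * P.D C (col s c) x
          / (P.γ C (col s c) x * P.V C (col s c) x) ≤ 4 / (P.g * P.l) := by
        have := P.g_pos
        have := P.l_pos
        rw [show 4 / (P.g * P.l) = 1 / (P.g / 2 * (P.l / 2)) by field_simp; ring]
        refine div_le_div₀ zero_le_one ?_ (by positivity)
          (mul_le_mul h6 h8 (by positivity) (by linarith))
        exact mul_le_one₀ (by linarith) ((Real.sqrt_nonneg _).trans h3) h4
      rw [← hμ] at h9
      have := Real.abs_le_sqrt (x := P.μFn C (col s c) x) (y := 4 / (P.g * P.l)) ((sq _).trans_le h9)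
      refine this.trans ?_
      have := P.one_le_R
      have := mul_nonneg (by linarith : 0 ≤ P.R) (P.g_pos.le.trans P.g_le)
      have : 0 ≤ 27 / √(2 * P.b1) * √(4 / (P.g * P.l)) := by positivity
      unfold coefBound; linarith
  · refine Tracial.norm_le_of_abs hN0 fun x => ?_
    rcases hs.act_01 c x with h | h
    · simp [stepData4, Prm.mFn, col, h, hN0]
    · obtain ⟨-, -, h3, h4, -⟩ := active_bounds hP (hs.col c) (hw c) (hb c) (x := x) h
      refine hN ?_
      simp [stepData4, Prm.mFn, col, h] at h4 ⊢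
      rw [abs_of_nonneg (disc_pos P.b1_pos _ _).le]
      linarith
  · refine Tracial.norm_le_of_abs hN0 fun x => ?_
    rcases hs.act_01 c x with h | h
    · simp [stepData4, Prm.nFn, col, h, hN0]
    · obtain ⟨h1, h2, -⟩ := active_bounds hP (hs.col c) (hw c) (hb c) (x := x) h
      refine hN ?_
      simp [stepData4, Prm.nFn, col, h] at h1 h2 ⊢
      rw [abs_of_nonneg (sW_nonneg h1 (by linarith))]
      linarith [sW_le (root P.b1 (s.b c x) (P.γ C ⟨s.act c, s.ass c, s.b c, s.G c⟩ x))]
  · refine (Prm.norm_cG_le hP (hs.G_nonneg c) (hb c)).trans ?_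
    have := P.one_le_R
    have : 0 ≤ √(4 / (P.g * P.l)) := Real.sqrt_nonneg _
    have : 0 ≤ 27 / √(2 * P.b1) * √(4 / (P.g * P.l)) := by positivity
    unfold coefBound; linarith
  · refine ((Prm.norm_pzp_le hP _).trans
      (mul_le_mul_of_nonneg_left (Prm.norm_dmat_le _) (by linarith [P.one_le_R]))).trans ?_
    have := P.one_le_R
    have := mul_nonneg (by linarith : 0 ≤ P.R) (P.g_pos.le.trans P.g_le)
    have : 0 ≤ √(4 / (P.g * P.l)) := Real.sqrt_nonneg _
    have : 0 ≤ 27 / √(2 * P.b1) * √(4 / (P.g * P.l)) := by positivity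
    unfold coefBound; linarith

theorem norm_qFn_le (hP : P.Ok C) {s : Config M X r} (hs : StateOk P s)
    (hw : ∀ c, P.Window C (col s c)) (hb : ∀ c, P.Bounded (col s c)) (c : Fin r) :
    ‖qFn P C s c‖ ≤ coefBound P := by
  have h0 : 0 ≤ 27 / √(2 * P.b1) * √(4 / (P.g * P.l)) := by positivity
  have hle : 27 / √(2 * P.b1) * √(4 / (P.g * P.l)) ≤ coefBound P := by
    have := P.one_le_R
    have := mul_nonneg (by linarith : 0 ≤ P.R) (P.g_pos.le.trans P.g_le)
    have : 0 ≤ √(4 / (P.g * P.l)) := Real.sqrt_nonneg _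
    unfold coefBound; linarith
  refine le_trans (Tracial.norm_le_of_abs h0 fun x => ?_) hle
  rcases hs.act_01 c x with h | h
  · simp [qFn, Prm.crossFn, col, h]; positivity
  obtain ⟨h1, h2, h3, h4, -, h6, -, h8, h9, hμ⟩ :=
    active_bounds hP (hs.col c) (hw c) (hb c) (x := x) h
  have hg := P.g_pos
  have hl := P.l_pos
  have hd : 0 < √(2 * P.b1) := Real.sqrt_pos.2 (by linarith [P.b1_pos])
  have hμb : |P.μFn C (col s c) x| ≤ √(4 / (P.g * P.l)) := by
    refine Real.abs_le_sqrt ?_
    rw [sq, hμ, show 4 / (P.g * P.l) = 1 / (P.g / 2 * (P.l / 2)) by field_simp; ring]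
    refine div_le_div₀ zero_le_one ?_ (by positivity)
      (mul_le_mul h6 h8 (by positivity) (by linarith))
    exact mul_le_one₀ (by linarith) (hd.le.trans h3) h4
  have hc : |P.crossFn C (col s c) x| ≤ 27 / √(2 * P.b1) := by
    have e : P.crossFn C (col s c) x
        = P.V C (col s c) x * (9 - 18 * P.W C (col s c) x) / P.D C (col s c) x := by
      have ha : (col s c).act x = 1 := h
      simp only [Prm.crossFn, ContinuousMap.mul_apply, ha, one_mul, Prm.iD_apply, Prm.sDc_apply,
        div_eq_mul_inv]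
    rw [e, abs_div, abs_of_pos (hd.trans_le h3)]
    refine div_le_div₀ (by norm_num) ?_ hd h3
    rw [abs_mul, abs_of_nonneg (by linarith : 0 ≤ P.V C (col s c) x),
      abs_of_nonneg (by linarith : 0 ≤ 9 - 18 * P.W C (col s c) x)]
    calc P.V C (col s c) x * (9 - 18 * P.W C (col s c) x) ≤ 3 * 9 :=
          mul_le_mul h9 (by linarith) (by linarith) (by norm_num)
      _ = 27 := by norm_num
  rw [qFn, ContinuousMap.mul_apply, abs_mul]
  exact mul_le_mul hc hμb (abs_nonneg _) (by positivity)

/-- The quadratic form controlling the second order change. -/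
noncomputable def quad4 (P : Prm M) (C : Core M X) (s : Config M X r) (K : ℝ)
    (v : Fin r → C(X, ℝ)) : ℝ :=
  (∑ c, (C.lossB (stepData4 P C s) c (v c) - 29 / 10 * C.ig (massFn P C s c * (v c * v c))
      + C.ig (qFn P C s c * v c * C.K (P.cG (col s c)) (P.μFn C (col s c) * v c))))
    + K * C.ig (C.constr (stepData4 P C s) v * C.constr (stepData4 P C s) v)

theorem quad4_parallelogram (s : Config M X r) (K : ℝ) (v w : Fin r → C(X, ℝ)) :
    quad4 P C s K (v + w) + quad4 P C s K (v - w)
      = 2 * quad4 P C s K v + 2 * quad4 P C s K w := by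
  set d := stepData4 P C s with hd
  have hw2 : ∀ (m f g : C(X, ℝ)), C.ig (m * ((f + g) * (f + g))) + C.ig (m * ((f - g) * (f - g)))
      = 2 * C.ig (m * (f * f)) + 2 * C.ig (m * (g * g)) := fun m f g => by
    rw [← C.ig_add, ← C.ig_smul, ← C.ig_smul, ← C.ig_add]
    congr 1
    ext x
    simp
    ring
  have hsq : ∀ f g : C(X, ℝ), C.ig ((f + g) * (f + g)) + C.ig ((f - g) * (f - g))
      = 2 * C.ig (f * f) + 2 * C.ig (g * g) := fun f g => by simpa using hw2 1 f g
  have hcr : ∀ (q μ : C(X, ℝ)) (G : M) (f g : C(X, ℝ)),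
      C.ig (q * (f + g) * C.K G (μ * (f + g))) + C.ig (q * (f - g) * C.K G (μ * (f - g)))
        = 2 * C.ig (q * f * C.K G (μ * f)) + 2 * C.ig (q * g * C.K G (μ * g)) := fun q μ G f g => by
    rw [← C.ig_add, ← C.ig_smul, ← C.ig_smul, ← C.ig_add]
    congr 1
    rw [mul_add μ, mul_sub μ, C.K_add, C.K_sub]
    ext x
    simp
    ring
  have h3 := hsq (C.constr d v) (C.constr d w)
  have hcs : C.constr d (v - w) = C.constr d v - C.constr d w := by
    rw [sub_eq_add_neg, C.constr_add, C.constr_neg, ← sub_eq_add_neg]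
  unfold quad4
  rw [← hd, C.constr_add, hcs]
  simp only [Pi.add_apply, Pi.sub_apply, Finset.sum_add_distrib, Finset.sum_sub_distrib]
  have s1 : (∑ c, C.lossB d c (v c + w c)) + (∑ c, C.lossB d c (v c - w c))
      = 2 * (∑ c, C.lossB d c (v c)) + 2 * (∑ c, C.lossB d c (w c)) := by
    rw [Finset.mul_sum, Finset.mul_sum, ← Finset.sum_add_distrib, ← Finset.sum_add_distrib]
    exact Finset.sum_congr rfl fun c _ => C.lossB_parallelogram d c (v c) (w c)
  have s2 : (∑ c, C.ig (massFn P C s c * ((v c + w c) * (v c + w c))))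
      + (∑ c, C.ig (massFn P C s c * ((v c - w c) * (v c - w c))))
      = 2 * (∑ c, C.ig (massFn P C s c * (v c * v c)))
        + 2 * (∑ c, C.ig (massFn P C s c * (w c * w c))) := by
    rw [Finset.mul_sum, Finset.mul_sum, ← Finset.sum_add_distrib, ← Finset.sum_add_distrib]
    exact Finset.sum_congr rfl fun c _ => hw2 _ (v c) (w c)
  have s3 : (∑ c, C.ig (qFn P C s c * (v c + w c)
        * C.K (P.cG (col s c)) (P.μFn C (col s c) * (v c + w c))))
      + (∑ c, C.ig (qFn P C s c * (v c - w c)
        * C.K (P.cG (col s c)) (P.μFn C (col s c) * (v c - w c))))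
      = 2 * (∑ c, C.ig (qFn P C s c * v c * C.K (P.cG (col s c)) (P.μFn C (col s c) * v c)))
        + 2 * (∑ c, C.ig (qFn P C s c * w c * C.K (P.cG (col s c)) (P.μFn C (col s c) * w c))) := by
    rw [Finset.mul_sum, Finset.mul_sum, ← Finset.sum_add_distrib, ← Finset.sum_add_distrib]
    exact Finset.sum_congr rfl fun c _ => hcr _ _ _ (v c) (w c)
  simp only [← Finset.mul_sum]
  linear_combination s1 - 29 / 10 * s2 + s3 + K * h3

/-- The resolvent of one colour of an approximate minimiser is an approximate minimiser. -/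
theorem resMin_of_min (hP : P.Ok C) {s : Config M X r} (hs : StateOk P s) {ζ : ℝ}
    (hmin : ∀ t : Config M X r, StateOk P t → P.Psi C s ≤ P.Psi C t + ζ) (c : Fin r) :
    P.ResMin C (col s c) ζ := by
  classical
  intro G' hG'
  set t : Config M X r := ⟨s.ass, s.act, s.b, Function.update s.G c G'⟩ with ht
  have htok : StateOk P t := ⟨hs.ass_01, hs.act_01, hs.U_01, hs.act_le, hs.b_sum, hs.b_supp,
    hs.b_drop, hs.b_act, fun c' => by
      by_cases h : c' = c
      · subst h; simpa [ht] using hG'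
      · simpa [ht, Function.update_of_ne h] using hs.G_nonneg c'⟩
  have h1 := hmin t htok
  have e : P.Psi C t - P.pot C { col s c with G := G' }
      = P.Psi C s - P.pot C (col s c) := by
    unfold Prm.Psi
    rw [← Finset.add_sum_erase _ _ (Finset.mem_univ c),
      ← Finset.add_sum_erase _ _ (Finset.mem_univ c)]
    have : ∀ c' ∈ Finset.univ.erase c, col t c' = col s c' := fun c' h => by
      simp [ht, col, Function.update_of_ne (Finset.ne_of_mem_erase h)]
    rw [Finset.sum_congr rfl (fun c' h => by rw [this c' h] :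
      ∀ c' ∈ Finset.univ.erase c, P.pot C (col t c') = P.pot C (col s c'))]
    simp [ht, col]
  linarith

theorem second_mul_μ (hP : P.Ok C) {s : Config M X r} (hs : StateOk P s)
    (hw : ∀ c, P.Window C (col s c)) (hb : ∀ c, P.Bounded (col s c)) (c : Fin r)
    {v : C(X, ℝ)} :
    P.second C (col s c) (P.μFn C (col s c) * v)
      = C.lossB (stepData4 P C s) c v - 29 / 10 * C.ig (massFn P C s c * (v * v))
        + C.ig (qFn P C s c * v * C.K (P.cG (col s c)) (P.μFn C (col s c) * v)) := by
  have e : P.gainFn C (col s c) * (P.μFn C (col s c) * v * (P.μFn C (col s c) * v))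
      = massFn P C s c * (v * v) := by
    ext x
    rcases hs.act_01 c x with h | h
    · simp [Prm.gainFn, massFn, col, h]
    · obtain ⟨h1, h2, h3, -, -, h6, -, h8, -, hμ⟩ :=
        active_bounds hP (hs.col c) (hw c) (hb c) (x := x) h
      have ha : (col s c).act x = 1 := h
      have hg := P.g_pos
      have hl := P.l_pos
      have hD : P.D C (col s c) x ≠ 0 := (disc_pos P.b1_pos _ _).ne'
      have hγ : P.γ C (col s c) x ≠ 0 := (by linarith : 0 < P.γ C (col s c) x).ne'
      have hV : P.V C (col s c) x ≠ 0 := (by linarith : 0 < P.V C (col s c) x).ne'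
      simp only [Prm.gainFn, massFn, ContinuousMap.mul_apply, ha, h, one_mul, Prm.iD_apply]
      rw [show P.μFn C (col s c) x * v x * (P.μFn C (col s c) x * v x)
        = P.μFn C (col s c) x * P.μFn C (col s c) x * (v x * v x) by ring, hμ]
      field_simp
  unfold Prm.second
  rw [e, qFn, mul_assoc (P.crossFn C (col s c)) (P.μFn C (col s c)) v]
  rfl

/-- At an approximate minimiser the quadratic form is almost nonnegative. -/
theorem quad4_ge (hP : P.Ok C) {s : Config M X r} (hs : StateOk P s)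
    (hw : ∀ c, P.Window C (col s c)) (hb : ∀ c, P.Bounded (col s c))
    {K B Cst η0 ζ : ℝ} (hK : 0 ≤ K)
    (hstep : ∀ (s : Col M X), s.Ok P → P.Window C s → P.Bounded s →
      ∀ (k h0 : C(X, ℝ)), ‖k‖ ≤ B → ‖h0‖ ≤ B → k * s.act = k →
      ∀ η : ℝ, 0 < η → η ≤ η0 →
        (∀ x, s.act x = 1 → -P.b1 ≤ s.b x + η * P.dir C s k h0 x) ∧
        ∃ G' : Mˣ, 0 ≤ (G' : M) ∧
          P.pot C ⟨s.act, s.ass, s.b + η • P.dir C s k h0, G'⟩
            ≤ P.pot C s + η * P.lin C s k h0
              + η ^ 2 * (P.second C s k + K * C.ig ((s.act * h0) * (s.act * h0)))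
              + η ^ 3 * Cst)
    (hmin : ∀ t : Config M X r, StateOk P t → P.Psi C s ≤ P.Psi C t + ζ)
    {η : ℝ} (hη : 0 < η) (hη1 : η ≤ η0) (v : Fin r → C(X, ℝ))
    (hv : ∀ c, s.act c * v c = v c) (hk : ∀ c, ‖P.μFn C (col s c) * v c‖ ≤ B)
    (hres : ‖C.constr (stepData4 P C s) v‖ ≤ B) (hB : 0 ≤ B) :
    0 ≤ ζ + η ^ 2 * quad4 P C s (K * r) v + η ^ 3 * (r * Cst) := by
  classical
  set d := stepData4 P C s with hd
  set atot : C(X, ℝ) := ∑ c, s.act c with hatot
  set ia : C(X, ℝ) := ⟨fun x => (max (atot x) 1)⁻¹,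
    Continuous.inv₀ (by fun_prop) fun x => (lt_max_of_lt_right one_pos).ne'⟩ with hia
  set res := C.constr d v with hresdef
  set h0 : C(X, ℝ) := res * ia with hh0
  set k : Fin r → C(X, ℝ) := fun c => P.μFn C (col s c) * v c with hkdef
  have hia1 : ∀ x, 0 ≤ ia x ∧ ia x ≤ 1 := fun x =>
    ⟨inv_nonneg.2 (zero_le_one.trans (le_max_right _ _)),
      inv_le_one_of_one_le₀ (le_max_right _ _)⟩
  have hh0b : ‖h0‖ ≤ B := Tracial.norm_le_of_abs hB fun x => by
    rw [hh0, ContinuousMap.mul_apply, abs_mul, abs_of_nonneg (hia1 x).1]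
    calc |res x| * ia x ≤ B * 1 :=
          mul_le_mul (Tracial.abs_apply_le hres x) (hia1 x).2 (hia1 x).1 hB
      _ = B := mul_one B
  have hka : ∀ c, k c * s.act c = k c := fun c => by
    rw [hkdef, mul_assoc, mul_comm (v c), hv]
  -- the two opposite moves
  have hmove : ∀ sg : ℝ, sg = 1 ∨ sg = -1 →
      0 ≤ ζ + sg * (η * ∑ c, P.lin C (col s c) (k c) h0)
        + η ^ 2 * quad4 P C s (K * r) v + η ^ 3 * (r * Cst) := by
    intro sg hsg
    have hkb' : ∀ c, ‖sg • k c‖ ≤ B := fun c => by
      rcases hsg with h | h <;> simp [h, hkdef, hk c]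
    have hhb' : ‖sg • h0‖ ≤ B := by rcases hsg with h | h <;> simp [h, hh0b]
    have hst := fun c => hstep (col s c) (hs.col c) (hw c) (hb c) (sg • k c) (sg • h0) (hkb' c)
      hhb' (show sg • k c * s.act c = sg • k c by rw [smul_mul_assoc, hka c]) η hη hη1
    choose hnew G' hG'0 hpot using hst
    set D : Fin r → C(X, ℝ) := fun c => P.dir C (col s c) (sg • k c) (sg • h0) with hD
    have hDoff : ∀ c x, s.act c x = 0 → D c x = 0 := fun c x h => by
      simp [hD, Prm.dir, Prm.mFn, Prm.nFn, col, h]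
    have hDsum : ∑ c, D c = 0 := by
      ext x
      have hr1 : ∑ c, ((d.m c * (d.μ c * v c)) x - (d.n c * C.K (d.G c) (d.μ c * v c)) x)
          = res x := by
        simp [hresdef, Core.constr]
      have he : ∑ c, D c x = sg * (res x - atot x * h0 x) := by
        rw [← hr1, mul_sub, hatot]
        simp only [ContinuousMap.coe_sum, Finset.sum_apply]
        rw [Finset.sum_mul, Finset.mul_sum, Finset.mul_sum, ← Finset.sum_sub_distrib]
        refine Finset.sum_congr rfl fun c _ => ?_
        simp only [hD, Prm.dir, C.K_smul, ContinuousMap.sub_apply, ContinuousMap.mul_apply,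
          ContinuousMap.smul_apply, smul_eq_mul, hd, stepData4, hkdef, col]
        ring
      simp only [ContinuousMap.coe_sum, Finset.sum_apply, ContinuousMap.zero_apply]
      rw [he]
      by_cases hex : ∃ c, s.act c x = 1
      · obtain ⟨c0, hc0⟩ := hex
        have hnn : ∀ c ∈ (Finset.univ : Finset (Fin r)), 0 ≤ s.act c x := fun c _ => by
          rcases hs.act_01 c x with h | h <;> simp [h]
        have h1 : 1 ≤ atot x := by
          rw [hatot]
          simp only [ContinuousMap.coe_sum, Finset.sum_apply]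
          calc (1 : ℝ) = s.act c0 x := hc0.symm
            _ ≤ _ := Finset.single_le_sum hnn (Finset.mem_univ c0)
        simp only [hh0, hia, ContinuousMap.mul_apply, ContinuousMap.coe_mk, max_eq_left h1]
        field_simp
        ring
      · have hall : ∀ c, s.act c x = 0 := fun c =>
          (hs.act_01 c x).resolve_right fun h => hex ⟨c, h⟩
        have hr0 : res x = 0 := by
          rw [← hr1]
          exact Finset.sum_eq_zero fun c _ => by
            simp [hd, stepData4, Prm.mFn, Prm.nFn, col, hall c]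
        simp [hh0, hr0]
    set t : Config M X r := ⟨s.ass, s.act, fun c => s.b c + η • D c, G'⟩ with ht
    have htok : StateOk P t := ⟨hs.ass_01, hs.act_01, hs.U_01, hs.act_le, by
        show ∑ c, (s.b c + η • D c) = (4 : ℝ) • s.U
        rw [Finset.sum_add_distrib, ← Finset.smul_sum, hDsum, smul_zero, add_zero, hs.b_sum],
      fun c x h => by
        have ha : s.act c x = 0 := by
          have h1 := hs.act_le c x
          have h2 : s.U x = 0 := h
          rcases hs.act_01 c x with ha | ha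
          · exact ha
          · linarith
        simp [ht, hDoff c x ha, hs.b_supp c x h],
      fun c x h => by
        simpa [ht, hDoff c x h] using hs.b_drop c x h,
      fun c x h => by simpa [ht, col, hD] using hnew c x h, hG'0⟩
    have hlin : ∀ c, P.lin C (col s c) (sg • k c) (sg • h0)
        = sg * P.lin C (col s c) (k c) h0 := fun c => by
      simp only [Prm.lin, Prm.ρ, mul_smul_comm, smul_mul_assoc, C.r_smul, smul_comm (3:ℝ) sg,
        mul_neg, ← smul_neg, C.tr_smul, C.tr_neg]
      ring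
    have hsg2 : sg * sg = 1 := by rcases hsg with h | h <;> simp [h]
    have hsec : ∀ c, P.second C (col s c) (sg • k c) = P.second C (col s c) (k c) := fun c => by
      simp only [Prm.second, Prm.loss, C.r_smul, C.K_smul, smul_mul_assoc, mul_smul_comm,
        smul_smul, hsg2, one_smul]
    have hres2 : ∀ c, C.ig (s.act c * (sg • h0) * (s.act c * (sg • h0))) ≤ C.ig (res * res) :=
      fun c => by
      refine C.ig_mono (ContinuousMap.le_def.2 fun x => ?_)
      simp only [ContinuousMap.mul_apply, ContinuousMap.smul_apply, smul_eq_mul, hh0]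
      have h1 := hia1 x
      have hi2 : ia x * ia x ≤ 1 := mul_le_one₀ h1.2 h1.1 h1.2
      rcases hs.act_01 c x with ha | ha <;> rw [ha]
      · simpa using mul_self_nonneg (res x)
      · calc 1 * (sg * (res x * ia x)) * (1 * (sg * (res x * ia x)))
            = (sg * sg) * (ia x * ia x) * (res x * res x) := by ring
          _ ≤ res x * res x := by
            rw [hsg2, one_mul]
            exact mul_le_of_le_one_left (mul_self_nonneg _) hi2
    have hbound : ∀ c, P.pot C (col t c) ≤ P.pot C (col s c)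
        + sg * (η * P.lin C (col s c) (k c) h0)
        + η ^ 2 * (P.second C (col s c) (k c) + K * C.ig (res * res))
        + η ^ 3 * Cst := fun c => by
      have h1 := hpot c
      have h2 : η ^ 2 * (K * C.ig (s.act c * (sg • h0) * (s.act c * (sg • h0))))
          ≤ η ^ 2 * (K * C.ig (res * res)) :=
        mul_le_mul_of_nonneg_left (mul_le_mul_of_nonneg_left (hres2 c) hK) (sq_nonneg η)
      rw [hlin c, hsec c] at h1
      simp only [ht, hD, col] at h1 h2 ⊢
      linarith
    have h3 := hmin t htok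
    have h4 : P.Psi C t ≤ _ := Finset.sum_le_sum fun c _ => hbound c
    rw [Finset.sum_add_distrib, Finset.sum_add_distrib, Finset.sum_add_distrib,
      ← Finset.mul_sum, ← Finset.mul_sum, ← Finset.mul_sum, Finset.sum_add_distrib,
      Finset.sum_const, Finset.sum_const, Finset.card_univ, Fintype.card_fin, nsmul_eq_mul,
      nsmul_eq_mul] at h4
    change P.Psi C t ≤ P.Psi C s + _ + _ + _ at h4
    have hq : (∑ c, P.second C (col s c) (k c)) + (r : ℝ) * (K * C.ig (res * res))
        = quad4 P C s (K * r) v := by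
      unfold quad4
      rw [← hd, ← hresdef, Finset.sum_congr rfl fun c (_ : c ∈ Finset.univ) =>
        second_mul_μ hP hs hw hb c (v := v c)]
      ring
    rw [hq] at h4
    linarith
  have h1 := hmove 1 (Or.inl rfl)
  have h2 := hmove (-1) (Or.inr rfl)
  linarith

/-- The three limits combine to the active roots. -/
theorem main_terms_le (hP : P.Ok C) {s : Config M X r} (hs : StateOk P s)
    (hw : ∀ c, P.Window C (col s c)) (hb : ∀ c, P.Bounded (col s c)) (c : Fin r) :
    3 / 2 * C.ig ((stepData4 P C s).μ c ^ 2 * (stepData4 P C s).act c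
        * C.Er ((stepData4 P C s).G c) * C.Er ((stepData4 P C s).W c))
      + C.ig (qFn P C s c * (stepData4 P C s).μ c * C.Er ((stepData4 P C s).G c) ^ 2)
      ≤ 3 / 2 * C.ig (massFn P C s c) := by
  have eG : C.Er ((stepData4 P C s).G c) = P.γ C (col s c) := rfl
  have eW : C.Er ((stepData4 P C s).W c) = P.V C (col s c) := rfl
  have eμ : (stepData4 P C s).μ c = P.μFn C (col s c) := rfl
  have eA : (stepData4 P C s).act c = s.act c := rfl
  rw [eG, eW, eμ, eA, ← C.ig_smul, ← C.ig_smul, ← C.ig_add]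
  refine C.ig_mono (ContinuousMap.le_def.2 fun x => ?_)
  simp only [qFn, Prm.crossFn, massFn, ContinuousMap.add_apply, ContinuousMap.smul_apply,
    ContinuousMap.mul_apply, ContinuousMap.pow_apply, smul_eq_mul, Prm.iD_apply]
  rcases hs.act_01 c x with h | h
  · have ha : (col s c).act x = 0 := h
    simp [h, ha]
  · have ha : (col s c).act x = 1 := h
    obtain ⟨h1, h2, h3, h4, h5, h6, -, h8, -, hμ⟩ :=
      active_bounds hP (hs.col c) (hw c) (hb c) (x := x) h
    have hg := P.g_pos
    have hl := P.l_pos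
    set W := P.W C (col s c) x
    set D := P.D C (col s c) x
    set γ := P.γ C (col s c) x
    set V := P.V C (col s c) x
    set μ := P.μFn C (col s c) x
    set sd := P.sDc C (col s c) x
    have hsd : 0 ≤ sd := by
      show 0 ≤ 9 - 18 * W
      linarith
    have hD : 0 < D := disc_pos P.b1_pos _ _
    have hγ : 0 < γ := by linarith
    have hV : 0 < V := by linarith
    rw [h, ha, one_mul, mul_one, sq μ]
    rw [show V * sd * D⁻¹ * μ * μ * γ ^ 2 = V * sd * D⁻¹ * (μ * μ) * γ ^ 2 by ring, hμ]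
    have e1 : W * D / (γ * V) * γ * V = W * D := by field_simp
    have e2 : V * sd * D⁻¹ * (W * D / (γ * V)) * γ ^ 2 = W * (γ * sd) := by field_simp
    rw [e1, e2]
    have h7 : W * (γ * sd) = W - W * D := by rw [h5]; ring
    rw [h7]
    linarith [mul_le_mul_of_nonneg_left h4 h1]

/-- The cross term is absorbed by the squared changes of the compressed resolvent. -/
theorem q_sq_le_chi (hP : P.Ok C) {s : Config M X r} (hs : StateOk P s)
    (hw : ∀ c, P.Window C (col s c)) (hb : ∀ c, P.Bounded (col s c)) (c : Fin r) (x : X) :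
    1 / (4 * (5 / 2)) * (qFn P C s c x) ^ 2 ≤ P.χFn C (col s c) x := by
  simp only [qFn, Prm.crossFn, Prm.χFn, ContinuousMap.mul_apply, ContinuousMap.smul_apply,
    ContinuousMap.coe_mk, smul_eq_mul, Prm.iD_apply]
  rcases hs.act_01 c x with h | h
  · have ha : (col s c).act x = 0 := h
    simp [ha]
  · have ha : (col s c).act x = 1 := h
    obtain ⟨h1, h2, -, -, -, h6, -, h8, -, hμ⟩ :=
      active_bounds hP (hs.col c) (hw c) (hb c) (x := x) h
    rw [max_eq_left h6, ha, Prm.sWc_apply, Prm.sDc_apply]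
    have hg := P.g_pos
    have hl := P.l_pos
    set W := P.W C (col s c) x
    set D := P.D C (col s c) x
    set γ := P.γ C (col s c) x
    set V := P.V C (col s c) x
    set μ := P.μFn C (col s c) x
    have hD : 0 < D := disc_pos P.b1_pos _ _
    have hγ : 0 < γ := by linarith
    have hV : 0 < V := by linarith
    have key : (9 - 18 * W) ^ 2 * W ≤ 15 * sW W := by
      have : (9 - 18 * W) ^ 2 ≤ 135 * (1 - W) := by nlinarith
      calc (9 - 18 * W) ^ 2 * W ≤ 135 * (1 - W) * W := mul_le_mul_of_nonneg_right this h1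
        _ = 15 * sW W := by unfold sW; ring
    calc 1 / (4 * (5 / 2)) * (1 * V * (9 - 18 * W) * D⁻¹ * μ) ^ 2
        = 1 / (4 * (5 / 2)) * (V ^ 2 * D⁻¹ ^ 2 * (9 - 18 * W) ^ 2 * (μ * μ)) := by ring
      _ = V / (10 * D * γ) * ((9 - 18 * W) ^ 2 * W) := by rw [hμ]; field_simp; ring
      _ ≤ V / (10 * D * γ) * (15 * sW W) := mul_le_mul_of_nonneg_left key (by positivity)
      _ = 3 / 2 * (1 * V * sW W * D⁻¹ * γ⁻¹) := by field_simp; ring

/-- Many roots are active on the unassigned set. -/
theorem many_active_ig (hP : P.Ok C) {s : Config M X r} (hs : StateOk P s)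
    (hw : ∀ c, P.Window C (col s c)) : 4 * C.ig s.U ≤ ∑ c, C.ig (massFn P C s c) := by
  rw [← C.ig_smul, ← C.ig_sum]
  refine C.ig_mono (ContinuousMap.le_def.2 fun x => ?_)
  simpa [massFn] using many_active hP hs hw x

theorem U_small (hP : P.Ok C) {ε : ℝ} (hε : 0 < ε) (r : ℕ) :
    ∃ ζ > 0, ∀ s : Config M X r, StateOk P s → (∀ c, P.Window C (col s c)) →
      (∀ c, P.Bounded (col s c)) →
      (∀ t : Config M X r, StateOk P t → P.Psi C s ≤ P.Psi C t + ζ) →
      C.ig s.U ≤ ε := by
  classical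
  set N := coefBound P with hNdef
  have hN : 0 ≤ N := by
    have := P.one_le_R
    have := mul_nonneg (by linarith : 0 ≤ P.R) (P.g_pos.le.trans P.g_le)
    rw [hNdef, coefBound]; positivity
  obtain ⟨K, hK, hcolour⟩ := exists_colour_step hP
  have hr0 : (0 : ℝ) ≤ r := Nat.cast_nonneg r
  set ε' := ε / (4 * (6 + K * r)) with hε'
  have hKr : 0 ≤ K * r := mul_nonneg hK hr0
  have hε'0 : 0 < ε' := by positivity
  obtain ⟨Cst, hCst, hcov⟩ := C.exists_cov4 r ε' N (2 / 5) (5 / 2) hε'0 (by norm_num) (by norm_num)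
  set B := N * Cst + r * (N * (N * Cst) + N * (N ^ 2 * (N * Cst))) with hBdef
  have hb1 : 0 ≤ N * Cst := by positivity
  have hb2 : 0 ≤ (r : ℝ) * (N * (N * Cst) + N * (N ^ 2 * (N * Cst))) := by positivity
  obtain ⟨Cc, hCc, η0, hη0, hstep⟩ := hcolour B
  obtain ⟨Cs, hCs, t0, ht0, hchi⟩ := exists_chi_le hP N
  set η := min η0 (ε / (4 * (r * Cc) + 1)) with hη
  have hηp : 0 < η := lt_min hη0 (by positivity)
  set τ := min t0 (ε / (8 * (r * Cs) + 1)) with hτ
  have hτp : 0 < τ := lt_min ht0 (by positivity)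
  set ζ := min (ε * τ / (8 * r + 1)) (ε * η ^ 2 / 8) with hζ
  have hζ0 : 0 < ζ := lt_min (by positivity) (by positivity)
  refine ⟨ζ, hζ0, fun s hs hw hb hmin => ?_⟩
  set d := stepData4 P C s with hd
  have hdOk := stepData4_ok hP hs hw hb
  obtain ⟨Q, hQact, hQn, π₀, hπ₀⟩ := hcov d hdOk (massFn P C s) (qFn P C s)
    (fun c x => by
      rcases hs.act_01 c x with h | h
      · norm_num [massFn, h]
      · obtain ⟨h1, h2, -⟩ := active_bounds hP (hs.col c) (hw c) (hb c) (x := x) h
        simp only [massFn, ContinuousMap.mul_apply, h, one_mul]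
        exact ⟨h1, h2⟩)
    (fun c => norm_qFn_le hP hs hw hb c)
    (fun c => Core.mul_act_eq (hs.act_01 c) fun x h => by
      have h' : s.act c x = 0 := h
      simp [qFn, Prm.crossFn, col, h'])
  obtain ⟨hloss, hloss1, hmass, hcross, hres⟩ := hπ₀ π₀ le_rfl
  set e : Fin r × π₀ → (Fin r → C(X, ℝ)) := fun ci => Q (Core.unitVec π₀ ci.1 ci.2) with he
  obtain ⟨sg, hsg, hle⟩ :=
    exists_signs (quad4 P C s (K * r)) (quad4_parallelogram s (K * r)) e Finset.univ
  set u : Fin r → C(X, ℝ) := ∑ ci : Fin r × π₀, sg ci • Core.unitVec π₀ ci.1 ci.2 with hu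
  have hv : ∑ ci, sg ci • e ci = Q u := by simp only [he, hu, map_sum, map_smul]
  have hu1 : ‖u‖ ≤ 1 := by
    refine (pi_norm_le_iff_of_nonneg zero_le_one).2 fun c =>
      Tracial.norm_le_of_abs zero_le_one fun x => ?_
    have : u c x = sg (c, π₀.proj x) := by
      simp only [hu, Finset.sum_apply, Pi.smul_apply, Core.unitVec, ContinuousMap.coe_sum,
        ContinuousMap.smul_apply, smul_eq_mul]
      rw [Finset.sum_eq_single (c, π₀.proj x)]
      · simp [cellFn_apply]
      · rintro ⟨c', i⟩ _ hne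
        by_cases hc : c = c'
        · subst hc
          have : π₀.proj x ≠ i := fun h => hne (by rw [h])
          simp [cellFn_apply, this]
        · simp [hc]
      · simp
    rcases hsg (c, π₀.proj x) with h | h <;> simp [this, h]
  rw [hv] at hle
  have hwB : ∀ c, ‖Q u c‖ ≤ Cst := fun c =>
    (norm_le_pi_norm _ c).trans ((hQn u).trans (mul_le_of_le_one_right hCst hu1))
  have hkey := quad4_ge hP hs hw hb hK hstep hmin hηp (min_le_left _ _) (Q u)
    (fun c => hQact u c)
    (fun c => ((norm_mul_le _ _).trans (mul_le_mul (hdOk.bdd c).1 (hwB c) (norm_nonneg _) hN)).trans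
      (by rw [hBdef, ← hNdef]; linarith))
    ((C.norm_constr_le d hdOk hN (Q u) hwB).trans (by rw [hBdef, ← hNdef]; linarith))
    (by linarith)
  -- the average over the noise
  have hdact : ∀ c, d.act c = s.act c := fun c => rfl
  have hchi' : ∑ c, ∑ i : π₀, C.ig (qFn P C s c ^ 2
        * (C.K (d.G c) (d.μ c * cellFn π₀ i) * C.K (d.G c) (d.μ c * cellFn π₀ i)))
      ≤ 10 * (1 / 2 * (∑ c, ∑ i : π₀, C.lossB d c (cellFn π₀ i)) + r * (ζ / τ + Cs * τ)) := by
    have h1 : ∀ c, ∑ i : π₀, C.ig (qFn P C s c ^ 2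
        * (C.K (d.G c) (d.μ c * cellFn π₀ i) * C.K (d.G c) (d.μ c * cellFn π₀ i)))
        ≤ 10 * (1 / 2 * (∑ i : π₀, C.lossB d c (cellFn π₀ i)) + (ζ / τ + Cs * τ)) := fun c => by
      have h2 := hchi (col s c) (hs.col c) (hw c) (hb c) (P.μFn C (col s c)) (hdOk.bdd c).1
        (hdOk.μ_act c) π₀ τ ζ hτp (min_le_left _ _) (resMin_of_min hP hs hmin c)
      refine le_trans ?_ (mul_le_mul_of_nonneg_left (h2.trans (le_of_eq ?_)) (by norm_num))
      · rw [Finset.mul_sum]
        refine Finset.sum_le_sum fun i _ => ?_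
        rw [← C.ig_smul]
        refine C.ig_mono (ContinuousMap.le_def.2 fun x => ?_)
        have h3 := q_sq_le_chi hP hs hw hb c x
        have h4 := mul_self_nonneg (C.K (d.G c) (d.μ c * cellFn π₀ i) x)
        simp only [ContinuousMap.mul_apply, ContinuousMap.pow_apply, ContinuousMap.smul_apply,
          smul_eq_mul]
        have h5 : qFn P C s c x ^ 2 ≤ 10 * P.χFn C (col s c) x := by linarith
        calc qFn P C s c x ^ 2 * _ ≤ 10 * P.χFn C (col s c) x * _ :=
              mul_le_mul_of_nonneg_right h5 h4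
          _ = _ := by rw [mul_assoc]; rfl
      · rw [add_assoc]; rfl
    refine (Finset.sum_le_sum fun c _ => h1 c).trans_eq ?_
    rw [← Finset.mul_sum, Finset.sum_add_distrib, ← Finset.mul_sum, Finset.sum_const,
      Finset.card_univ, Fintype.card_fin, nsmul_eq_mul]
  have hmain := Finset.sum_le_sum fun c (_ : c ∈ Finset.univ) => main_terms_le hP hs hw hb c
  rw [Finset.sum_add_distrib, ← Finset.mul_sum, ← Finset.mul_sum] at hmain
  have hmany := many_active_ig hP hs hw
  have hmassEq : ∀ c, C.ig (massFn P C s c * d.act c) = C.ig (massFn P C s c) := fun c => by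
    congr 1
    exact Core.mul_act_eq (hs.act_01 c) fun x h => by
      have h' : s.act c x = 0 := h
      simp [massFn, h']
  rw [Finset.sum_congr rfl fun c (_ : c ∈ Finset.univ) => hmassEq c] at hmass
  have hU : d.U = s.U := rfl
  rw [hU] at hmass hcross
  have havg : ∑ ci, quad4 P C s (K * r) (e ci)
      ≤ -(19 / 10) * C.ig s.U + (6 + K * r) * ε' + r * (ζ / τ + Cs * τ) := by
    simp only [quad4, he, ← hd, ← sq, Fintype.sum_prod_type, Finset.sum_add_distrib,
      Finset.sum_sub_distrib, ← Finset.mul_sum]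
    have eG : ∀ c, P.cG (col s c) = d.G c := fun _ => rfl
    have eμ : ∀ c, P.μFn C (col s c) = d.μ c := fun _ => rfl
    simp only [eG, eμ]
    rw [← hd] at hmain
    have hres' := mul_le_mul_of_nonneg_left hres hKr
    have hU0 : 0 ≤ C.ig s.U := C.ig_nonneg (ContinuousMap.le_def.2 fun x => by
      rcases hs.U_01 x with h | h <;> simp [h])
    linarith
  have hq := hle.trans havg
  have h1 : (6 + K * r) * ε' = ε / 4 := by rw [hε']; field_simp
  have h2 : (r : ℝ) * (ζ / τ) ≤ ε / 8 := by
    refine le_trans (mul_le_mul_of_nonneg_left ?_ hr0)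
      (Core.mul_div_succ_le hr0 (by norm_num) hε.le)
    rw [div_le_iff₀ hτp, div_mul_eq_mul_div]
    exact min_le_left _ _
  have h3 : (r : ℝ) * (Cs * τ) ≤ ε / 8 := by
    rw [← mul_assoc]
    exact le_trans (mul_le_mul_of_nonneg_left (min_le_right _ _) (mul_nonneg hr0 hCs))
      (Core.mul_div_succ_le (mul_nonneg hr0 hCs) (by norm_num) hε.le)
  have h4 : η * ((r : ℝ) * Cc) ≤ ε / 4 := by
    rw [mul_comm]
    exact le_trans (mul_le_mul_of_nonneg_left (min_le_right _ _) (mul_nonneg hr0 hCc))
      (Core.mul_div_succ_le (mul_nonneg hr0 hCc) (by norm_num) hε.le)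
  have h5 : ζ ≤ η ^ 2 * (ε / 8) := (min_le_right _ _).trans_eq (by ring)
  have h6 : η ^ 2 * quad4 P C s (K * r) (Q u) ≤ η ^ 2 * (-(19 / 10) * C.ig s.U + ε / 2) :=
    mul_le_mul_of_nonneg_left (by linarith [mul_add (r : ℝ) (ζ / τ) (Cs * τ)]) (sq_nonneg η)
  have h7 : η ^ 3 * (r * Cc) ≤ η ^ 2 * (ε / 4) := by
    calc η ^ 3 * (r * Cc) = η ^ 2 * (η * (r * Cc)) := by ring
      _ ≤ η ^ 2 * (ε / 4) := mul_le_mul_of_nonneg_left h4 (sq_nonneg η)
  have h8 : η ^ 2 * (19 / 10 * C.ig s.U) ≤ η ^ 2 * ε := by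
    nlinarith [mul_nonneg (sq_nonneg η) hε.le]
  linarith [le_of_mul_le_mul_left h8 (pow_pos hηp 2)]

end Vale.Agent.P078.Tracial.Four
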